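import Vale.Agent.P112.Top.Defs
import Vale.Agent.P112.H540.FD1
import Vale.Agent.P112.T.Final

/-!
# P112, chapter [TOP]: the tail of low density, `StTail`

Single scales are antichains: `StN3` for every scale separately.
-/

open MeasureTheory Set
open scoped ENNReal

set_option linter.dupNamespace false

namespace Vale.Agent.P112.H694

open T F30 TOP

variable {M : ℕ}

theorem support_meas {g : ℝ × ℝ → ℝ} (hg : Nice g) : MeasurableSet {z | g z ≠ 0} := by
  have h3 : {z | g z ≠ 0} = (g ⁻¹' {0})ᶜ := by ext z; simp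
  rw [h3]
  exact (hg.meas (measurableSet_singleton 0)).compl

theorem support_bdd {g : ℝ × ℝ → ℝ} (hg : Nice g) :
    ∃ r : ℝ, ∀ z ∈ {z | g z ≠ 0}, |z.1| ≤ r ∧ |z.2| ≤ r := by
  obtain ⟨r, hr⟩ := hg.supp
  refine ⟨r, fun z hz => ?_⟩
  by_contra hc
  apply hz
  apply hr
  by_contra hn
  push Not at hn
  exact hc ⟨hn.1.le, hn.2.le⟩

theorem support_ne_top {g : ℝ × ℝ → ℝ} (hg : Nice g) : volume {z | g z ≠ 0} ≠ ∞ := by
  obtain ⟨r, hr⟩ := support_bdd hg
  have h1 : {z | g z ≠ 0} ⊆ (Icc (-r) r ×ˢ Icc (-r) r : Set (ℝ × ℝ)) := fun z hz =>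
    ⟨mem_Icc.2 (abs_le.1 (hr z hz).1), mem_Icc.2 (abs_le.1 (hr z hz).2)⟩
  exact ((measure_mono h1).trans_lt (isCompact_Icc.prod isCompact_Icc).measure_lt_top).ne

/-- `∫_A |g| ≤ |supp g|` -/
theorem setIntegral_abs_le {g : ℝ × ℝ → ℝ} (hg : Nice g) (h1 : ∀ z, |g z| ≤ 1) (A : Set (ℝ × ℝ)) :
    ∫ z in A, |g z| ≤ (volume {z | g z ≠ 0}).toReal := by
  have hm := support_meas hg
  calc ∫ z in A, |g z| ≤ ∫ z, |g z| :=
        setIntegral_le_integral hg.abs.integrable (Filter.Eventually.of_forall fun z => abs_nonneg _)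
    _ ≤ ∫ z, {z | g z ≠ 0}.indicator (fun _ => (1 : ℝ)) z := by
        apply integral_mono hg.abs.integrable
        · exact (integrable_indicator_iff hm).2 (integrableOn_const (support_ne_top hg))
        · intro z
          by_cases hz : g z = 0
          · have : z ∉ {z | g z ≠ 0} := fun h => h hz
            simp only [indicator_of_notMem this, hz, abs_zero, le_refl]
          · have : z ∈ {z | g z ≠ 0} := hz
            simp only [indicator_of_mem this]
            exact h1 z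
    _ = (volume {z | g z ≠ 0}).toReal := by
        rw [integral_indicator hm]
        simp [Measure.real]

/-- The bound of one scale, for any system satisfying the density condition. -/
theorem single_scale {a : ℕ} {C0 : ℝ} (hM : a + 2 ≤ M) : ∃ C : ℝ, 0 < C ∧ ∀ (N : ℝ) (κ : Ker M),
    κ.Bd N C0 → ∀ (τ : ℝ) (u : ℝ × ℝ → ℝ), Field u → ∀ (n : ℕ) (P : ℕ → Set (ℝ × ℝ)),
    (∀ j, MeasurableSet (P j)) → ∀ δ : ℝ, 0 < δ → DensN N u P n τ a δ →
    ∀ g : ℝ × ℝ → ℝ, Nice g → (∀ z, |g z| ≤ 1) → ∀ j < n,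
      ∫ ζ, (κ.S u j ((P j).indicator g) ζ) ^ 2 ≤ C * δ * (volume {z | g z ≠ 0}).toReal := by
  obtain ⟨C, hC0, hC⟩ := tN3 M a C0 hM
  refine ⟨C, hC0, fun N κ hκ τ u hu n P hP δ hδ hD g hg h1 j hj => ?_⟩
  set P' : ℕ → Set (ℝ × ℝ) := fun i => if i = j then P j else ∅ with hP'
  have hPj : P' j = P j := by simp [hP']
  have hPi : ∀ i, i ≠ j → P' i = ∅ := fun i hi => by simp [hP', hi]
  have hsub : Un P' n ⊆ Un P n := by
    rintro z ⟨i, hi, hz⟩
    by_cases hij : i = j
    · subst hij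
      exact ⟨i, hi, by rwa [hPj] at hz⟩
    · rw [hPi i hij] at hz
      exact absurd hz (notMem_empty z)
  have hm : ∀ i, MeasurableSet (P' i) := fun i => by
    by_cases hij : i = j
    · rw [hij, hPj]; exact hP j
    · rw [hPi i hij]; exact MeasurableSet.empty
  have hdisj : ∀ i k : ℕ, i ≠ k → Disjoint (P' i) (P' k) := fun i k hik => by
    by_cases hij : i = j
    · have hkj : k ≠ j := fun h => hik (hij.trans h.symm)
      rw [hPi k hkj]; exact disjoint_bot_right
    · rw [hPi i hij]; exact disjoint_bot_left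
  have hD' : DensN N u P' n τ a δ := by
    intro j1 hj1 z1 hz1 lam hlam θ c hθ hc i hi
    have hj1j : j1 = j := by
      by_contra hne
      rw [hPi j1 hne] at hz1
      exact hz1
    have hz1' : z1 ∈ P j1 := by
      rw [hj1j] at hz1 ⊢
      rwa [hPj] at hz1
    refine le_trans (measure_mono ?_) (hD j1 hj1 z1 hz1' lam hlam θ c hθ hc i hi)
    rintro z ⟨hz, hz2⟩
    exact ⟨hsub hz, hz2⟩
  have h2 := hC N κ hκ τ u hu n P' hm hdisj δ hδ hD' g hg h1
  have h3 : ∀ ζ, κ.FS u g P' n ζ = κ.S u j ((P j).indicator g) ζ := fun ζ => by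
    unfold Ker.FS
    rw [Finset.sum_eq_single_of_mem j (Finset.mem_range.2 hj), hPj]
    intro i _ hij
    rw [hPi i hij]
    simp [Ker.S]
  simp_rw [h3] at h2
  refine h2.trans ?_
  gcongr
  exact setIntegral_abs_le hg h1 _

/-- **StTail** from the density condition of the low pairs. -/
theorem stTail_of_FD1 (κ : Ker M) (hM : 8 ≤ M) (h1 : StFD1 4) : StTail κ := by
  obtain ⟨C1, hC1, hFD⟩ := h1
  obtain ⟨C0, hκ⟩ := TreeT2.exists_Bd κ
  obtain ⟨C, hC0, hC⟩ := single_scale (M := M) (a := 4 + 2) (C0 := C0) (by omega)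
  refine ⟨C * C1, by positivity, fun u hu n ν g hg hg1 => ?_⟩
  set E : Set (ℝ × ℝ) := {z | g z ≠ 0} with hE
  obtain ⟨-, -, hmP, -, hDP⟩ := hFD u hu E (support_meas hg) (support_bdd hg) n ν
  set P := Plow u E 4 n ν with hP
  have hδ : 0 < C1 * (1 / 2 : ℝ) ^ ν := by positivity
  have hj : ∀ j < n, ∫ ζ, (κ.S u j ((P j).indicator g) ζ) ^ 2 ≤
      C * (C1 * (1 / 2) ^ ν) * (volume E).toReal :=
    fun j hjn => hC 1 κ hκ 0 u hu n P hmP _ hδ hDP g hg hg1 j hjn
  have hN : ∀ j, Nice (κ.S u j ((P j).indicator g)) := fun j => κ.S_nice hu j (hg.indicator (hmP j))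
  calc ∫ ζ, (κ.FS u g P n ζ) ^ 2
      ≤ ∫ ζ, (n : ℝ) * ∑ j ∈ Finset.range n, (κ.S u j ((P j).indicator g) ζ) ^ 2 := by
        apply integral_mono (κ.FS_nice hu hg hmP n).sq.integrable
        · exact (Nice.sum (Finset.range n) fun j _ => (hN j).sq).integrable.const_mul _
        · intro ζ
          have := sq_sum_le_card_mul_sum_sq (s := Finset.range n)
            (f := fun j => κ.S u j ((P j).indicator g) ζ)
          rw [Finset.card_range] at this
          exact this
    _ = n * ∑ j ∈ Finset.range n, ∫ ζ, (κ.S u j ((P j).indicator g) ζ) ^ 2 := by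
        rw [integral_const_mul, integral_finsetSum _ fun j _ => (hN j).sq.integrable]
    _ ≤ n * ∑ _j ∈ Finset.range n, C * (C1 * (1 / 2) ^ ν) * (volume E).toReal := by
        gcongr with j hjr
        exact hj j (Finset.mem_range.1 hjr)
    _ = C * C1 * n ^ 2 * (1 / 2) ^ ν * (volume E).toReal := by
        rw [Finset.sum_const, Finset.card_range, nsmul_eq_mul]
        ring

/-- **StTail**, unconditional for `8 ≤ M`. -/
theorem stTail (κ : Ker M) (hM : 8 ≤ M) : StTail κ := stTail_of_FD1 κ hM (H540.stFD1 4)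

end Vale.Agent.P112.H694
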