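import Vale.Agent.P112.Top.Defs
import Vale.Agent.P112.H724.FD2

/-!
# P112, chapter [TOP]: the support of one density level, `StSup`

Every pair of the density level `ν` lies below a dense top (`StFD2`), so the adjoint sum of the
level is supported in the union of the dilated tubes of the tops.
-/

open MeasureTheory Set
open scoped ENNReal

set_option linter.dupNamespace false

namespace Vale.Agent.P112.H694

open T F30 TOP

variable {M : ℕ}

/-- a point of the support of `κ.FS u g E n` comes from an active pair -/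
theorem exists_of_FS_ne {κ : Ker M} {u g : ℝ × ℝ → ℝ} {E : ℕ → Set (ℝ × ℝ)} {n : ℕ} {ζ : ℝ × ℝ}
    (h : κ.FS u g E n ζ ≠ 0) : ∃ j < n, ∃ z ∈ E j, g z ≠ 0 ∧ κ.k j (u z) z ζ ≠ 0 := by
  unfold Ker.FS at h
  obtain ⟨j, hj, hne⟩ := Finset.exists_ne_zero_of_sum_ne_zero h
  refine ⟨j, Finset.mem_range.1 hj, ?_⟩
  by_contra hc
  push Not at hc
  apply hne
  unfold Ker.S
  rw [← integral_zero (ℝ × ℝ) ℝ]
  congr 1
  ext z
  by_cases hz : z ∈ E j
  · rw [indicator_of_mem hz]
    by_cases hg : g z = 0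
    · rw [hg, mul_zero]
    · rw [hc z hz hg, zero_mul]
  · rw [indicator_of_notMem hz, mul_zero]

/-- the volume of a sheared box -/
theorem volume_tube (x0 y0 s a b : ℝ) :
    volume {z : ℝ × ℝ | |z.1 - x0| ≤ a ∧ |z.2 - (y0 + s * (z.1 - x0))| ≤ b} =
      ENNReal.ofReal (2 * a) * ENNReal.ofReal (2 * b) := by
  have hm : MeasurableSet {z : ℝ × ℝ | |z.1 - x0| ≤ a ∧ |z.2 - (y0 + s * (z.1 - x0))| ≤ b} := by
    have h1 : Measurable fun z : ℝ × ℝ => |z.1 - x0| := by fun_prop
    have h2 : Measurable fun z : ℝ × ℝ => |z.2 - (y0 + s * (z.1 - x0))| := by fun_prop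
    exact (measurableSet_le h1 measurable_const).inter (measurableSet_le h2 measurable_const)
  rw [Measure.volume_eq_prod, Measure.prod_apply hm]
  have h1 : ∀ x : ℝ, volume (Prod.mk x ⁻¹' {z : ℝ × ℝ | |z.1 - x0| ≤ a ∧
      |z.2 - (y0 + s * (z.1 - x0))| ≤ b}) =
      (Icc (x0 - a) (x0 + a)).indicator (fun _ => ENNReal.ofReal (2 * b)) x := by
    intro x
    by_cases hx : x ∈ Icc (x0 - a) (x0 + a)
    · rw [indicator_of_mem hx]
      have h2 : Prod.mk x ⁻¹' {z : ℝ × ℝ | |z.1 - x0| ≤ a ∧ |z.2 - (y0 + s * (z.1 - x0))| ≤ b} =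
          Icc (y0 + s * (x - x0) - b) (y0 + s * (x - x0) + b) := by
        ext y
        simp only [mem_preimage, mem_ofPred_eq, mem_Icc, abs_le]
        rw [mem_Icc] at hx
        constructor
        · rintro ⟨-, h3, h4⟩
          constructor <;> linarith
        · rintro ⟨h3, h4⟩
          refine ⟨⟨by linarith [hx.1], by linarith [hx.2]⟩, by linarith, by linarith⟩
      rw [h2, Real.volume_Icc]
      congr 1
      ring
    · rw [indicator_of_notMem hx]
      have h2 : Prod.mk x ⁻¹' {z : ℝ × ℝ | |z.1 - x0| ≤ a ∧ |z.2 - (y0 + s * (z.1 - x0))| ≤ b} =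
          ∅ := by
        ext y
        simp only [mem_preimage, mem_ofPred_eq, mem_empty_iff_false, iff_false, not_and]
        intro h
        exfalso
        apply hx
        rw [abs_le] at h
        rw [mem_Icc]
        constructor <;> linarith [h.1, h.2]
      rw [h2, measure_empty]
  simp_rw [h1]
  rw [lintegral_indicator measurableSet_Icc, setLIntegral_const, Real.volume_Icc]
  rw [mul_comm]
  congr 2
  ring

/-- **StSup** from the dense tops. -/
theorem stSup_of_FD2 (κ : Ker M) (h2 : StFD2 4) : StSup κ := by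
  obtain ⟨C, hC1, hC⟩ := h2
  refine ⟨128 * C, 2, by positivity, fun u hu n ν g hg => ?_⟩
  set E : Set (ℝ × ℝ) := {z | g z ≠ 0} with hE
  have hEm : MeasurableSet E := by
    have h3 : E = (g ⁻¹' {0})ᶜ := by ext z; simp [hE]
    rw [h3]
    exact (hg.meas (measurableSet_singleton 0)).compl
  have hEb : ∃ r : ℝ, ∀ z ∈ E, |z.1| ≤ r ∧ |z.2| ≤ r := by
    obtain ⟨r, hr⟩ := hg.supp
    refine ⟨r, fun z hz => ?_⟩
    by_contra hc
    apply hz
    apply hr
    by_contra hn
    push Not at hn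
    exact hc ⟨hn.1.le, hn.2.le⟩
  set S : ℝ := 2 ^ (ν + 1) with hS
  have hS1 : 1 ≤ S := one_le_pow₀ (by norm_num)
  have hSS : (2 : ℝ) ^ (ν + 1) ≤ S ^ 4 := by
    rw [← hS]
    calc S = S ^ 1 := (pow_one S).symm
      _ ≤ S ^ 4 := pow_le_pow_right₀ hS1 (by norm_num)
  obtain ⟨ι, hι, T, h4, -, -, -, h5⟩ := hC u hu E hEm hEb n ν S 1 le_rfl hS1 hSS
  -- the support is covered by the dilated tubes
  have hcov : {ζ | κ.FS u g (Pd u E 4 n ν) n ζ ≠ 0} ⊆
      ⋃ m ∈ (Finset.univ : Finset ι), {z : ℝ × ℝ | |z.1 - T.x m| ≤ 2 / 2 ^ T.j m ∧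
        |z.2 - (T.y m + T.s m * (z.1 - T.x m))| ≤ 4 * C * S} := by
    intro ζ hζ
    obtain ⟨j, hj, z, hz, -, hk⟩ := exists_of_FS_ne hζ
    obtain ⟨m, hm1, hm2, hm3, hm4⟩ := h5 j z hz
    obtain ⟨hk1, hk2⟩ := κ.k_supp hk
    simp only [mem_iUnion]
    refine ⟨m, Finset.mem_univ _, ?_, ?_⟩
    · have h6 := H724.q_dist hm2
      have h7 : 1 / (8 * (2 : ℝ) ^ j) ≤ 1 / 2 ^ T.j m := by
        apply one_div_le_one_div_of_le (by positivity)
        have : (2 : ℝ) ^ T.j m ≤ 2 ^ j := pow_le_pow_right₀ (by norm_num) hm1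
        have : (0 : ℝ) < 2 ^ j := by positivity
        linarith
      have h8 : (2 : ℝ) / 2 ^ T.j m = 1 / 2 ^ T.j m + 1 / 2 ^ T.j m := by ring
      rw [h8]
      have h9 : |ζ.1 - T.x m| ≤ |z.1 - ζ.1| + |z.1 - T.x m| := by
        have : ζ.1 - T.x m = -(z.1 - ζ.1) + (z.1 - T.x m) := by ring
        rw [this]
        exact (abs_add_le _ _).trans (by rw [abs_neg])
      exact h9.trans (add_le_add (hk1.trans h7) h6)
    · have h6 : ζ.2 - (T.y m + T.s m * (ζ.1 - T.x m)) = -(z.2 - ζ.2 - (z.1 - ζ.1) * u z) +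
          ((z.2 - T.line m z.1) + -((z.1 - ζ.1) * (u z - T.s m))) := by
        unfold Tops.line
        ring
      have h7 : |(z.1 - ζ.1) * (u z - T.s m)| ≤ C * S := by
        rw [abs_mul]
        calc |z.1 - ζ.1| * |u z - T.s m| ≤ 1 / (8 * 2 ^ j) * (C * S * 2 ^ j) := by
              gcongr
          _ = C * S / 8 := by field_simp
          _ ≤ C * S := by
            have : 0 ≤ C * S := by positivity
            linarith
      have h8 : 1 ≤ C * S := by
        calc (1 : ℝ) = 1 * 1 := by norm_num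
          _ ≤ C * S := by gcongr
      have h9 : C * (S + 1) ≤ 2 * (C * S) := by
        have : C * (S + 1) ≤ C * (S + S) := by gcongr
        linarith
      rw [h6]
      refine (abs_add_le _ _).trans ?_
      rw [abs_neg]
      have h10 := abs_add_le (z.2 - T.line m z.1) (-((z.1 - ζ.1) * (u z - T.s m)))
      rw [abs_neg] at h10
      linarith
  calc volume {ζ | κ.FS u g (Pd u E 4 n ν) n ζ ≠ 0}
      ≤ volume (⋃ m ∈ (Finset.univ : Finset ι), {z : ℝ × ℝ | |z.1 - T.x m| ≤ 2 / 2 ^ T.j m ∧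
        |z.2 - (T.y m + T.s m * (z.1 - T.x m))| ≤ 4 * C * S}) := measure_mono hcov
    _ ≤ ∑ m, volume {z : ℝ × ℝ | |z.1 - T.x m| ≤ 2 / 2 ^ T.j m ∧
        |z.2 - (T.y m + T.s m * (z.1 - T.x m))| ≤ 4 * C * S} := measure_biUnion_finset_le _ _
    _ = ∑ m, ENNReal.ofReal (32 * C * S) * ENNReal.ofReal ((1 / 2) ^ T.j m) := by
        refine Finset.sum_congr rfl fun m _ => ?_
        rw [volume_tube, ← ENNReal.ofReal_mul (by positivity),
          ← ENNReal.ofReal_mul (by positivity)]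
        congr 1
        rw [one_div_pow]
        ring
    _ = ENNReal.ofReal (32 * C * S) * ENNReal.ofReal (∑ m, (1 / 2) ^ T.j m) := by
        rw [← Finset.mul_sum, ENNReal.ofReal_sum_of_nonneg fun _ _ => by positivity]
    _ ≤ ENNReal.ofReal (32 * C * S) * (ENNReal.ofReal (2 ^ (ν + 1)) * volume E) := by
        gcongr
    _ = ENNReal.ofReal (128 * C * 2 ^ (2 * ν)) * volume E := by
        rw [← mul_assoc, ← ENNReal.ofReal_mul (by positivity)]
        congr 2
        rw [hS, pow_succ, pow_mul']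
        ring

/-- **StSup**, unconditional. -/
theorem stSup (κ : Ker M) : StSup κ := stSup_of_FD2 κ (H724.stFD2 4)

end Vale.Agent.P112.H694
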