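import Vale.Agent.P112.F30.DefsP
import Vale.Agent.P112.H694.Tail

/-!
# P112, chapter (G): accounting for families of systems of pairs

`FS` over finite disjoint families, restriction to the union, the remainder of small mass, sums of
polylog many families.
-/

open MeasureTheory Set
open scoped ENNReal

set_option linter.dupNamespace false

namespace Vale.Agent.P112.H694

open T F30 TOP

variable {M : ℕ}

/-- `FS` only depends on the functions `1_{E j} g`, `j < n`. -/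
theorem FS_congr (κ : Ker M) (u : ℝ × ℝ → ℝ) {g g' : ℝ × ℝ → ℝ} {E E' : ℕ → Set (ℝ × ℝ)} {n : ℕ}
    (h : ∀ j < n, ∀ z, (E j).indicator g z = (E' j).indicator g' z) :
    κ.FS u g E n = κ.FS u g' E' n := by
  ext ζ
  unfold Ker.FS
  refine Finset.sum_congr rfl fun j hj => ?_
  have : (E j).indicator g = (E' j).indicator g' := funext (h j (Finset.mem_range.1 hj))
  rw [this]

/-- Restriction of `g` to a set containing all `P j`. -/
theorem FS_restrict (κ : Ker M) (u g : ℝ × ℝ → ℝ) {P : ℕ → Set (ℝ × ℝ)} {n : ℕ} {A : Set (ℝ × ℝ)}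
    (h : ∀ j < n, P j ⊆ A) : κ.FS u g P n = κ.FS u (A.indicator g) P n :=
  FS_congr κ u fun j hj z => by
    by_cases hz : z ∈ P j
    · rw [indicator_of_mem hz, indicator_of_mem hz, indicator_of_mem (h j hj hz)]
    · rw [indicator_of_notMem hz, indicator_of_notMem hz]

/-- `S` of a finite sum. -/
theorem S_sum (κ : Ker M) {u : ℝ × ℝ → ℝ} (hu : Field u) (j : ℕ) {ι : Type*} (s : Finset ι)
    {g : ι → ℝ × ℝ → ℝ} (hg : ∀ i ∈ s, Nice (g i)) (ζ : ℝ × ℝ) :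
    κ.S u j (fun z => ∑ i ∈ s, g i z) ζ = ∑ i ∈ s, κ.S u j (g i) ζ := by
  unfold Ker.S
  rw [← integral_finsetSum]
  · congr 1
    ext z
    rw [Finset.mul_sum]
  · intro i hi
    obtain ⟨D, -, hk⟩ := κ.k_bdd
    refine (hg i hi).integrable.bdd_mul (c := D * 2 ^ j) ?_ ?_
    · have h1 : Measurable fun z : ℝ × ℝ => (z, ζ) := by fun_prop
      exact ((κ.k_measurable hu.meas j).comp h1).aestronglyMeasurable
    · exact Filter.Eventually.of_forall fun z => by rw [Real.norm_eq_abs]; exact hk _ _ _ _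

/-- `FS` of a finite disjoint family: the indicator form. -/
theorem FS_sum_of (κ : Ker M) {u : ℝ × ℝ → ℝ} (hu : Field u) {g : ℝ × ℝ → ℝ} (hg : Nice g)
    {ι : Type*} (s : Finset ι) {E : ι → ℕ → Set (ℝ × ℝ)} {P : ℕ → Set (ℝ × ℝ)} {n : ℕ}
    (hE : ∀ i ∈ s, ∀ j < n, MeasurableSet (E i j))
    (h : ∀ j < n, ∀ z, (P j).indicator g z = ∑ i ∈ s, (E i j).indicator g z) (ζ : ℝ × ℝ) :
    κ.FS u g P n ζ = ∑ i ∈ s, κ.FS u g (E i) n ζ := by
  unfold Ker.FS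
  rw [Finset.sum_comm]
  refine Finset.sum_congr rfl fun j hj => ?_
  have hj' := Finset.mem_range.1 hj
  have h1 : (P j).indicator g = fun z => ∑ i ∈ s, (E i j).indicator g z := funext (h j hj')
  rw [h1, S_sum κ hu j s (fun i hi => hg.indicator (hE i hi j hj'))]

/-- the indicator of a disjoint cover -/
theorem indicator_sum {ι : Type*} (s : Finset ι) {E : ι → Set (ℝ × ℝ)} {P : Set (ℝ × ℝ)}
    (hd : ∀ i ∈ s, ∀ k ∈ s, i ≠ k → Disjoint (E i) (E k)) (hP : ∀ z, z ∈ P ↔ ∃ i ∈ s, z ∈ E i)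
    (g : ℝ × ℝ → ℝ) (z : ℝ × ℝ) : P.indicator g z = ∑ i ∈ s, (E i).indicator g z := by
  by_cases hz : z ∈ P
  · obtain ⟨i, hi, hzi⟩ := (hP z).1 hz
    rw [indicator_of_mem hz, Finset.sum_eq_single_of_mem i hi, indicator_of_mem hzi]
    intro k hk hki
    exact indicator_of_notMem (fun hzk => (Set.disjoint_left.1 (hd k hk i hi hki)) hzk hzi) _
  · rw [indicator_of_notMem hz, Finset.sum_eq_zero]
    intro i hi
    exact indicator_of_notMem (fun hzi => hz ((hP z).2 ⟨i, hi, hzi⟩)) _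

/-- `FS` of a finite disjoint family. -/
theorem FS_sum (κ : Ker M) {u : ℝ × ℝ → ℝ} (hu : Field u) {g : ℝ × ℝ → ℝ} (hg : Nice g)
    {ι : Type*} (s : Finset ι) {E : ι → ℕ → Set (ℝ × ℝ)} {P : ℕ → Set (ℝ × ℝ)} {n : ℕ}
    (hE : ∀ i ∈ s, ∀ j < n, MeasurableSet (E i j))
    (hd : ∀ j < n, ∀ i ∈ s, ∀ k ∈ s, i ≠ k → Disjoint (E i j) (E k j))
    (hP : ∀ j < n, ∀ z, z ∈ P j ↔ ∃ i ∈ s, z ∈ E i j) (ζ : ℝ × ℝ) :
    κ.FS u g P n ζ = ∑ i ∈ s, κ.FS u g (E i) n ζ :=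
  FS_sum_of κ hu hg s hE (fun j hj z => indicator_sum s (hd j hj) (hP j hj) g z) ζ

/-- The pairing of `f` with a disjoint union of two systems. -/
theorem FS_add (κ : Ker M) {u : ℝ × ℝ → ℝ} (hu : Field u) {g : ℝ × ℝ → ℝ} (hg : Nice g)
    {A B P : ℕ → Set (ℝ × ℝ)} {n : ℕ} (hA : ∀ j < n, MeasurableSet (A j))
    (hB : ∀ j < n, MeasurableSet (B j)) (hd : ∀ j < n, Disjoint (A j) (B j))
    (hP : ∀ j < n, P j = A j ∪ B j) (ζ : ℝ × ℝ) :
    κ.FS u g P n ζ = κ.FS u g A n ζ + κ.FS u g B n ζ := by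
  have h := FS_sum κ hu hg (Finset.univ : Finset Bool) (E := fun b => if b then A else B) (P := P)
    (n := n) (fun b _ j hj => by cases b <;> simp [hA j hj, hB j hj])
    (fun j hj b _ c _ hbc => by
      cases b <;> cases c <;> simp_all [(hd j hj).symm])
    (fun j hj z => by
      rw [hP j hj]
      simp only [Finset.mem_univ, true_and, mem_union, Bool.exists_bool]
      simp [or_comm]) ζ
  rw [h, Fintype.sum_bool]
  rfl

/-- The form `∫ f · FS`. -/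
noncomputable def Lam (κ : Ker M) (u f g : ℝ × ℝ → ℝ) (P : ℕ → Set (ℝ × ℝ)) (n : ℕ) : ℝ :=
  ∫ ζ, f ζ * κ.FS u g P n ζ

theorem int_sum (κ : Ker M) {u : ℝ × ℝ → ℝ} (hu : Field u) {f g : ℝ × ℝ → ℝ} (hf : Nice f)
    (hg : Nice g) {ι : Type*} (s : Finset ι) {E : ι → ℕ → Set (ℝ × ℝ)} {P : ℕ → Set (ℝ × ℝ)}
    {n : ℕ} (hE : ∀ i ∈ s, ∀ j, MeasurableSet (E i j))
    (h : ∀ ζ, κ.FS u g P n ζ = ∑ i ∈ s, κ.FS u g (E i) n ζ) :
    ∫ ζ, f ζ * κ.FS u g P n ζ = ∑ i ∈ s, ∫ ζ, f ζ * κ.FS u g (E i) n ζ := by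
  simp_rw [h, Finset.mul_sum]
  rw [integral_finsetSum]
  exact fun i hi => (hf.mul (κ.FS_nice hu hg (hE i hi) n)).integrable

theorem int_add (κ : Ker M) {u : ℝ × ℝ → ℝ} (hu : Field u) {f g : ℝ × ℝ → ℝ} (hf : Nice f)
    (hg : Nice g) {A B P : ℕ → Set (ℝ × ℝ)} {n : ℕ} (hA : ∀ j, MeasurableSet (A j))
    (hB : ∀ j, MeasurableSet (B j)) (hd : ∀ j < n, Disjoint (A j) (B j))
    (hP : ∀ j < n, P j = A j ∪ B j) :
    ∫ ζ, f ζ * κ.FS u g P n ζ =
      (∫ ζ, f ζ * κ.FS u g A n ζ) + ∫ ζ, f ζ * κ.FS u g B n ζ := by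
  simp_rw [FS_add κ hu hg (fun j _ => hA j) (fun j _ => hB j) hd hP, mul_add]
  exact integral_add (hf.mul (κ.FS_nice hu hg hA n)).integrable
    (hf.mul (κ.FS_nice hu hg hB n)).integrable

/-- `∫ f² ≤ |supp f|` -/
theorem int_sq_le_supp {f : ℝ × ℝ → ℝ} (hf : Nice f) (h1 : ∀ z, |f z| ≤ 1) :
    ∫ z, f z ^ 2 ≤ (volume {z | f z ≠ 0}).toReal := by
  have h := setIntegral_abs_le hf h1 univ
  rw [setIntegral_univ] at h
  refine le_trans (integral_mono hf.sq.integrable hf.abs.integrable fun z => ?_) h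
  show f z ^ 2 ≤ |f z|
  rw [← sq_abs]
  have := h1 z
  nlinarith [abs_nonneg (f z)]

/-- Cauchy-Schwarz for nice functions -/
theorem cs_nice {f φ : ℝ × ℝ → ℝ} (hf : Nice f) (hφ : Nice φ) :
    |∫ z, f z * φ z| ≤ √(∫ z, f z ^ 2) * √(∫ z, φ z ^ 2) := by
  have hX : 0 ≤ ∫ z, f z ^ 2 := integral_nonneg fun z => sq_nonneg _
  have hY : 0 ≤ ∫ z, φ z ^ 2 := integral_nonneg fun z => sq_nonneg _
  have key : (∫ z, f z * φ z) ^ 2 ≤ (∫ z, f z ^ 2) * ∫ z, φ z ^ 2 := by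
    have h : ∀ t : ℝ, 0 ≤ (∫ z, f z ^ 2) * (t * t) + (2 * ∫ z, f z * φ z) * t + ∫ z, φ z ^ 2 := by
      intro t
      have h1 : 0 ≤ ∫ z, (t * f z + φ z) ^ 2 := integral_nonneg fun z => sq_nonneg _
      have h2 : ∫ z, (t * f z + φ z) ^ 2 =
          t ^ 2 * (∫ z, f z ^ 2) + 2 * t * (∫ z, f z * φ z) + ∫ z, φ z ^ 2 := by
        rw [← integral_const_mul, ← integral_const_mul, ← integral_add, ← integral_add]
        · congr 1
          ext z
          ring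
        · exact ((hf.sq.integrable).const_mul _).add ((hf.mul hφ).integrable.const_mul _)
        · exact hφ.sq.integrable
        · exact (hf.sq.integrable).const_mul _
        · exact (hf.mul hφ).integrable.const_mul _
      rw [h2] at h1
      linarith
    have := discrim_le_zero h
    unfold discrim at this
    linarith
  rw [← Real.sqrt_mul hX]
  exact Real.abs_le_sqrt key

/-- The pairing is controlled by the `L²` norm. -/
theorem int_le_sqrt (κ : Ker M) {u : ℝ × ℝ → ℝ} (hu : Field u) {f g : ℝ × ℝ → ℝ} (hf : Nice f)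
    (hf1 : ∀ z, |f z| ≤ 1) (hg : Nice g) {P : ℕ → Set (ℝ × ℝ)} {n : ℕ}
    (hP : ∀ j, MeasurableSet (P j)) {X : ℝ} (hX : ∫ ζ, (κ.FS u g P n ζ) ^ 2 ≤ X) :
    |∫ ζ, f ζ * κ.FS u g P n ζ| ≤ √((volume {z | f z ≠ 0}).toReal) * √X := by
  refine (cs_nice hf (κ.FS_nice hu hg hP n)).trans ?_
  gcongr
  exact int_sq_le_supp hf hf1

/-- **The remainder of small mass.** -/
theorem rest_L2 {κ : Ker M} (h : StR0P κ) : ∃ C : ℝ, 0 < C ∧ ∀ (u : ℝ × ℝ → ℝ), Field u →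
    ∀ (n : ℕ) (g : ℝ × ℝ → ℝ) (R : ℕ → Set (ℝ × ℝ)), Nice g → (∀ z, |g z| ≤ 1) → PSys n R →
    (∀ j, R j ⊆ {z | g z ≠ 0}) →
    ∫ ζ, (κ.FS u g R n ζ) ^ 2 ≤ C * (volume (Un R n)).toReal := by
  obtain ⟨C, hC, h⟩ := h
  refine ⟨C, hC, fun u hu n g R hg hg1 hR hsub => ?_⟩
  have hmU : MeasurableSet (Un R n) := measurableSet_Un hR.meas n
  set g' : ℝ × ℝ → ℝ := (Un R n).indicator g with hg'
  have hsupp : {z | g' z ≠ 0} = Un R n := by
    ext z
    simp only [hg', mem_ofPred_eq]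
    constructor
    · intro hz
      by_contra hc
      exact hz (indicator_of_notMem hc _)
    · intro hz
      rw [indicator_of_mem hz]
      obtain ⟨j, -, hzj⟩ := hz
      exact hsub j hzj
  have hRU : ∀ j, R j ⊆ Un R n := fun j => by
    by_cases hj : j < n
    · exact fun z hz => ⟨j, hj, hz⟩
    · rw [hR.lt j (not_lt.1 hj)]; exact empty_subset _
  have h1 := h u hu n g' R (hg.indicator hmU) (fun z => by
    by_cases hz : z ∈ Un R n
    · rw [hg', indicator_of_mem hz]; exact hg1 z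
    · rw [hg', indicator_of_notMem hz, abs_zero]; exact zero_le_one) hR
    (fun j => by rw [hsupp]; exact hRU j)
  rw [hsupp] at h1
  rw [FS_restrict κ u g (A := Un R n) fun j _ => hRU j]
  exact h1

/-- **The remainder of small mass**, paired with `f`. -/
theorem rest_bound {κ : Ker M} (h : StR0P κ) : ∃ C : ℝ, 0 < C ∧ ∀ (u : ℝ × ℝ → ℝ), Field u →
    ∀ (n : ℕ) (f g : ℝ × ℝ → ℝ) (R : ℕ → Set (ℝ × ℝ)), Nice f → Nice g → (∀ z, |f z| ≤ 1) →
    (∀ z, |g z| ≤ 1) → PSys n R → (∀ j, R j ⊆ {z | g z ≠ 0}) →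
    |∫ ζ, f ζ * κ.FS u g R n ζ| ≤
      C * √((volume {z | f z ≠ 0}).toReal) * √((volume (Un R n)).toReal) := by
  obtain ⟨C, hC, h⟩ := rest_L2 h
  refine ⟨√C, by positivity, fun u hu n f g R hf hg hf1 hg1 hR hsub => ?_⟩
  refine (int_le_sqrt κ hu hf hf1 hg hR.meas (h u hu n g R hg hg1 hR hsub)).trans (le_of_eq ?_)
  rw [Real.sqrt_mul hC.le]
  ring

/-- Remainder with an exponentially small mass: gain `L ^ (-B)` for every `B`. -/
theorem rest_gain {κ : Ker M} (h : StR0P κ) (B : ℕ) : ∃ C : ℝ, 1 ≤ C ∧ ∀ (u : ℝ × ℝ → ℝ),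
    Field u → ∀ (n : ℕ) (f g : ℝ × ℝ → ℝ) (R : ℕ → Set (ℝ × ℝ)), Nice f → Nice g →
    (∀ z, |f z| ≤ 1) → (∀ z, |g z| ≤ 1) → PSys n R → (∀ j, R j ⊆ {z | g z ≠ 0}) → ∀ L : ℝ, 1 ≤ L →
    (volume (Un R n)).toReal ≤ Real.exp (-L) * (volume {z | g z ≠ 0}).toReal →
    |∫ ζ, f ζ * κ.FS u g R n ζ| * L ^ B ≤
      C * √((volume {z | f z ≠ 0}).toReal) * √((volume {z | g z ≠ 0}).toReal) := by
  obtain ⟨C, hC, h⟩ := rest_bound h
  refine ⟨max 1 (C * (2 ^ B * B.factorial)), le_max_left _ _,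
    fun u hu n f g R hf hg hf1 hg1 hR hsub L hL hm => ?_⟩
  have h1 := h u hu n f g R hf hg hf1 hg1 hR hsub
  have hL0 : 0 ≤ L := by linarith
  have h2 : √((volume (Un R n)).toReal) ≤
      Real.exp (-(L / 2)) * √((volume {z | g z ≠ 0}).toReal) := by
    refine (Real.sqrt_le_sqrt hm).trans (le_of_eq ?_)
    rw [Real.sqrt_mul (Real.exp_pos _).le, ← Real.exp_half]
    congr 2
    ring
  have h3 : Real.exp (-(L / 2)) * L ^ B ≤ 2 ^ B * B.factorial := by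
    have h4 := Real.pow_div_factorial_le_exp (L / 2) (by linarith) B
    rw [Real.exp_neg, inv_mul_le_iff₀ (Real.exp_pos _)]
    rw [div_le_iff₀ (by positivity)] at h4
    have h5 : L ^ B = 2 ^ B * (L / 2) ^ B := by
      rw [← mul_pow]
      congr 1
      ring
    rw [h5]
    calc 2 ^ B * (L / 2) ^ B ≤ 2 ^ B * (Real.exp (L / 2) * B.factorial) := by gcongr
      _ = Real.exp (L / 2) * (2 ^ B * B.factorial) := by ring
  calc |∫ ζ, f ζ * κ.FS u g R n ζ| * L ^ B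
      ≤ C * √((volume {z | f z ≠ 0}).toReal) * (Real.exp (-(L / 2)) *
          √((volume {z | g z ≠ 0}).toReal)) * L ^ B := by
        gcongr
        exact h1.trans (by gcongr)
    _ = C * (Real.exp (-(L / 2)) * L ^ B) * √((volume {z | f z ≠ 0}).toReal) *
          √((volume {z | g z ≠ 0}).toReal) := by ring
    _ ≤ C * (2 ^ B * B.factorial) * √((volume {z | f z ≠ 0}).toReal) *
          √((volume {z | g z ≠ 0}).toReal) := by gcongr
    _ ≤ _ := by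
        gcongr
        exact le_max_right _ _

/-- Sum of at most `K₀ L ^ c` families with the gain `L ^ (-(B + c))`. -/
theorem sum_gain {ι : Type*} (s : Finset ι) {a : ι → ℝ} {K₀ L C X : ℝ} {c B : ℕ} (hL : 1 ≤ L)
    (hC : 0 ≤ C) (hX : 0 ≤ X) (hK : (s.card : ℝ) ≤ K₀ * L ^ c)
    (h : ∀ i ∈ s, |a i| * L ^ (B + c) ≤ C * X) : |∑ i ∈ s, a i| * L ^ B ≤ K₀ * C * X := by
  have hLc : 0 < L ^ c := by positivity
  have hLB : 0 < L ^ B := by positivity
  have h1 : ∀ i ∈ s, |a i| * L ^ B ≤ C * X / L ^ c := fun i hi => by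
    rw [le_div_iff₀ hLc]
    have := h i hi
    rw [pow_add, ← mul_assoc] at this
    exact this
  calc |∑ i ∈ s, a i| * L ^ B ≤ (∑ i ∈ s, |a i|) * L ^ B := by
        gcongr
        exact Finset.abs_sum_le_sum_abs _ _
    _ = ∑ i ∈ s, |a i| * L ^ B := Finset.sum_mul _ _ _
    _ ≤ ∑ _i ∈ s, C * X / L ^ c := Finset.sum_le_sum h1
    _ = s.card * (C * X / L ^ c) := by rw [Finset.sum_const, nsmul_eq_mul]
    _ ≤ K₀ * L ^ c * (C * X / L ^ c) := by gcongr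
    _ = K₀ * C * X := by field_simp

end Vale.Agent.P112.H694
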