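import Mathlib

/-!
# P112, chapter (G): the numbers of the composition `R2 ⟹ StGs`

`a0 = L ^ (b + 1)`, `Q = exp (L ^ c2)`, `H = exp (3 L ^ c2)`, `W = 2 L ^ c2`, `X = 4 L`,
`δ = L ^ (-c8)`; at most `L ^ c6` families of (FF0), at most `L ^ c7` families of (DEPTH).
-/

namespace Vale.Agent.P112.H694.NumR2

open Filter Topology

theorem ev_ge (a : ℝ) : ∀ᶠ L : ℝ in atTop, a ≤ L := eventually_ge_atTop a

theorem ev_pow (c : ℝ) {k m : ℕ} (h : k < m) : ∀ᶠ L : ℝ in atTop, c * L ^ k ≤ L ^ m := by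
  filter_upwards [ev_ge c, ev_ge 1] with L h1 h2
  have h3 : L ^ (k + 1) ≤ L ^ m := pow_le_pow_right₀ h2 h
  have h4 : c * L ^ k ≤ L * L ^ k := by gcongr
  calc c * L ^ k ≤ L * L ^ k := h4
    _ = L ^ (k + 1) := by ring
    _ ≤ L ^ m := h3

theorem ev_exp (c : ℝ) (k : ℕ) {m : ℕ} (hm : 1 ≤ m) :
    ∀ᶠ L : ℝ in atTop, c * L ^ k ≤ Real.exp (L ^ m) := by
  filter_upwards [ev_ge (c * (k + 1).factorial), ev_ge 1] with L h1 h2
  have hL0 : 0 ≤ L := by linarith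
  have h3 := Real.pow_div_factorial_le_exp L hL0 (k + 1)
  have hf : (0 : ℝ) < (k + 1).factorial := by positivity
  rw [div_le_iff₀ hf] at h3
  have h4 : L ≤ L ^ m := by
    calc L = L ^ 1 := (pow_one L).symm
      _ ≤ L ^ m := pow_le_pow_right₀ h2 hm
  have h5 : Real.exp L ≤ Real.exp (L ^ m) := Real.exp_le_exp.2 h4
  have h6 : c * L ^ k * (k + 1).factorial ≤ Real.exp L * (k + 1).factorial := by
    calc c * L ^ k * (k + 1).factorial = (c * (k + 1).factorial) * L ^ k := by ring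
      _ ≤ L * L ^ k := by gcongr
      _ = L ^ (k + 1) := by ring
      _ ≤ Real.exp L * (k + 1).factorial := h3
  exact (le_of_mul_le_mul_right h6 hf).trans h5

/-- `2 ^ ν ≤ L ^ b` if `ν ≤ b log L`. -/
theorem two_pow_le {b ν : ℕ} {L : ℝ} (hL : 1 ≤ L) (h : (ν : ℝ) ≤ b * Real.log L) :
    (2 : ℝ) ^ ν ≤ L ^ b := by
  have hL0 : 0 < L := by linarith
  have hlog : 0 ≤ Real.log L := Real.log_nonneg hL
  have h2 : Real.log 2 ≤ 1 := by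
    have := Real.log_two_lt_d9
    linarith
  have h20 : 0 ≤ Real.log 2 := Real.log_nonneg (by norm_num)
  rw [← Real.exp_log (pow_pos (by norm_num : (0 : ℝ) < 2) ν), ← Real.exp_log (pow_pos hL0 b),
    Real.exp_le_exp, Real.log_pow, Real.log_pow]
  calc (ν : ℝ) * Real.log 2 ≤ ν * 1 := by gcongr
    _ = ν := mul_one _
    _ ≤ b * Real.log L := h

/-- All the numerical facts at one `L`. -/
structure Nums (b B c2 C0 c6 c7 c8 : ℕ) (L : ℝ) : Prop where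
  one : 1 ≤ L
  a0 : (C0 : ℝ) * L ^ b ≤ L ^ (b + 1)
  a0' : ∀ ν : ℕ, (ν : ℝ) ≤ b * Real.log L → (C0 : ℝ) * 2 ^ ν ≤ L ^ (b + 1)
  a1 : (C0 : ℝ) * L ^ (b + 1) ≤ L ^ (b + 2)
  aQ : L ^ (b + 2) ≤ Real.exp (L ^ c2)
  aH : L ^ (b + 2) ≤ Real.exp (3 * L ^ c2)
  C0a : (C0 : ℝ) ≤ L ^ (b + 1)
  QH : Real.exp (L ^ c2) ≤ Real.exp (3 * L ^ c2) / 2
  Hw : Real.exp (3 * L ^ c2) / 2 ≤ Real.exp (L ^ (c2 + 1))
  Qw : Real.exp (L ^ c2) ≤ Real.exp (L ^ (c2 + 1))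
  W1 : 1 ≤ 2 * L ^ c2
  QW : Real.exp (L ^ c2) ≤ (2 : ℝ) ^ (2 * L ^ c2)
  X1 : 1 ≤ 4 * L
  K1 : ∀ a : ℝ, 0 ≤ a → a ≤ L ^ (b + 1) →
    (C0 : ℝ) * (a * (Real.log (Real.exp (3 * L ^ c2)) + 4 * L)) ^ C0 ≤ L ^ c6
  δ0 : 0 < (L ^ c8)⁻¹
  δ1 : (L ^ c8)⁻¹ ≤ 1
  low : ∀ A : ℝ, 0 ≤ A → A ≤ L ^ (b + 2) →
    (C0 : ℝ) * (A * (2 * L ^ c2)) ^ C0 * ((L ^ c8)⁻¹) ^ 2 * (L ^ (B + c6)) ^ 2 ≤ 1
  K2 : ∀ A : ℝ, 0 ≤ A → A ≤ L ^ (b + 2) →
    (C0 : ℝ) * (A * (2 * L ^ c2) * (Real.log (Real.exp (3 * L ^ c2)) + 4 * L) /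
      (L ^ c8)⁻¹) ^ C0 ≤ L ^ c7
  K2Q : ∀ A : ℝ, 0 ≤ A → A ≤ L ^ (b + 2) →
    (C0 : ℝ) * (A * (2 * L ^ c2) * (Real.log (Real.exp (3 * L ^ c2)) + 4 * L) /
      (L ^ c8)⁻¹) ^ C0 * Real.exp (L ^ c2) ≤ Real.exp (3 * L ^ c2)
  epsH : ∀ N : ℕ, c2 + 1 ≤ N → Real.exp (-L ^ N) * Real.exp (3 * L ^ c2) ^ 10 ≤ 1
  eps1 : ∀ N : ℕ, 1 ≤ N → Real.exp (-L ^ N) ≤ 1 / 64
  rest : Real.exp (-(4 * L)) * (2 * L ^ c2) ^ 2 * (L ^ (B + c6)) ^ 2 ≤ 1
  rest' : Real.exp (-(4 * L)) * (L ^ B) ^ 2 ≤ 1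
  long : ((C0 : ℝ) * L ^ B) ^ 2 * Real.exp (-L) ≤ 1

theorem nums (b B c2 C0 : ℕ) (hc2 : 1 ≤ c2) : ∃ c6 c7 c8 : ℕ,
    ∀ᶠ L : ℝ in atTop, Nums b B c2 C0 c6 c7 c8 L := by
  set c6 : ℕ := (b + 1 + c2) * C0 + 1 with hc6
  set c8 : ℕ := B + c6 + (b + 2 + c2) * C0 + 1 with hc8
  set c7 : ℕ := (b + 2 + 2 * c2 + c8) * C0 + 1 with hc7
  refine ⟨c6, c7, c8, ?_⟩
  filter_upwards [ev_ge 30, ev_ge (C0 : ℝ), ev_exp 1 (b + 2) hc2, ev_exp 2 0 hc2,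
    ev_pow (C0 * 7 ^ C0 : ℝ) (show (b + 1 + c2) * C0 < c6 by omega),
    ev_pow (C0 * 2 ^ C0 : ℝ) (show (b + 2 + c2) * C0 < (b + 2 + c2) * C0 + 1 by omega),
    ev_pow (C0 * 14 ^ C0 : ℝ) (show (b + 2 + 2 * c2 + c8) * C0 < c7 by omega),
    ev_exp 1 c7 hc2, ev_exp 2 (c2 + (B + c6)) (le_refl 1), ev_exp 1 B (le_refl 1),
    ev_exp ((C0 : ℝ) ^ 2) (2 * B) (le_refl 1)] with L h30 hC0 hQ hQ2 hK1 hlow hK2 hK2Q hrest hrest' hlong
  have hL1 : 1 ≤ L := by linarith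
  have hL0 : 0 < L := by linarith
  have hC0' : (0 : ℝ) ≤ C0 := by positivity
  have hLc : L ≤ L ^ c2 := by
    calc L = L ^ 1 := (pow_one L).symm
      _ ≤ L ^ c2 := pow_le_pow_right₀ hL1 hc2
  have hLc1 : 1 ≤ L ^ c2 := one_le_pow₀ hL1
  have hpp : ∀ k : ℕ, (0 : ℝ) < L ^ k := fun k => pow_pos hL0 k
  have hsum : Real.log (Real.exp (3 * L ^ c2)) + 4 * L ≤ 7 * L ^ c2 := by
    rw [Real.log_exp]; linarith
  have hsum0 : 0 ≤ Real.log (Real.exp (3 * L ^ c2)) + 4 * L := by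
    rw [Real.log_exp]; positivity
  have ha0 : (C0 : ℝ) * L ^ b ≤ L ^ (b + 1) := by
    rw [pow_succ, mul_comm]
    gcongr
  have hexpL : Real.exp 1 ≤ Real.exp (L ^ c2) := Real.exp_le_exp.2 hLc1
  have h2Q : Real.exp (L ^ c2) ≤ Real.exp (3 * L ^ c2) / 2 := by
    rw [le_div_iff₀ (by norm_num)]
    have : Real.exp (3 * L ^ c2) = Real.exp (L ^ c2) * Real.exp (L ^ c2) * Real.exp (L ^ c2) := by
      rw [← Real.exp_add, ← Real.exp_add]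
      congr 1
      ring
    rw [this]
    have h1 : 2 ≤ Real.exp (L ^ c2) := by simpa using hQ2
    have h2 : 1 ≤ Real.exp (L ^ c2) := by linarith
    nlinarith [mul_le_mul h1 h2 zero_le_one (by linarith)]
  have hK2' : ∀ A : ℝ, 0 ≤ A → A ≤ L ^ (b + 2) →
      (C0 : ℝ) * (A * (2 * L ^ c2) * (Real.log (Real.exp (3 * L ^ c2)) + 4 * L) /
        (L ^ c8)⁻¹) ^ C0 ≤ L ^ c7 := fun A hA0 hA => by
    calc (C0 : ℝ) * (A * (2 * L ^ c2) * (Real.log (Real.exp (3 * L ^ c2)) + 4 * L) /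
          (L ^ c8)⁻¹) ^ C0
        ≤ C0 * (L ^ (b + 2) * (2 * L ^ c2) * (7 * L ^ c2) / (L ^ c8)⁻¹) ^ C0 := by gcongr
      _ = C0 * (14 * L ^ (b + 2 + 2 * c2 + c8)) ^ C0 := by
          congr 2
          rw [div_inv_eq_mul]
          ring
      _ = (C0 * 14 ^ C0) * L ^ ((b + 2 + 2 * c2 + c8) * C0) := by
          rw [mul_pow, ← pow_mul]; ring
      _ ≤ L ^ c7 := hK2
  refine ⟨hL1, ha0, fun ν hν => ?_, ?_, by simpa using hQ, ?_, ?_, h2Q, ?_, ?_, by linarith, ?_,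
    by linarith, ?_, by positivity, ?_, ?_, hK2', ?_, ?_, ?_, ?_, ?_, ?_⟩
  · calc (C0 : ℝ) * 2 ^ ν ≤ C0 * L ^ b := by
          gcongr
          exact two_pow_le hL1 hν
      _ ≤ L ^ (b + 1) := ha0
  · rw [pow_succ L (b + 1), mul_comm]
    gcongr
  · calc L ^ (b + 2) ≤ Real.exp (L ^ c2) := by simpa using hQ
      _ ≤ Real.exp (3 * L ^ c2) := Real.exp_le_exp.2 (by linarith)
  · calc (C0 : ℝ) ≤ L := hC0
      _ = L ^ 1 := (pow_one L).symm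
      _ ≤ L ^ (b + 1) := pow_le_pow_right₀ hL1 (by omega)
  · have h1 : 3 * L ^ c2 ≤ L ^ (c2 + 1) := by
      rw [pow_succ, mul_comm]
      gcongr
      linarith
    have h2 := Real.exp_le_exp.2 h1
    have h3 : 0 < Real.exp (3 * L ^ c2) := Real.exp_pos _
    linarith
  · apply Real.exp_le_exp.2
    exact pow_le_pow_right₀ hL1 (by omega)
  · rw [Real.rpow_def_of_pos (by norm_num)]
    apply Real.exp_le_exp.2
    have := Real.log_two_gt_d9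
    nlinarith
  · intro a ha0' ha
    calc (C0 : ℝ) * (a * (Real.log (Real.exp (3 * L ^ c2)) + 4 * L)) ^ C0
        ≤ C0 * (L ^ (b + 1) * (7 * L ^ c2)) ^ C0 := by gcongr
      _ = (C0 * 7 ^ C0) * L ^ ((b + 1 + c2) * C0) := by
          rw [show L ^ (b + 1) * (7 * L ^ c2) = 7 * L ^ (b + 1 + c2) by ring, mul_pow, ← pow_mul]
          ring
      _ ≤ L ^ c6 := hK1
  · apply inv_le_one_of_one_le₀
    exact one_le_pow₀ hL1
  · intro A hA0 hA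
    have h1 : (C0 : ℝ) * (A * (2 * L ^ c2)) ^ C0 ≤ L ^ ((b + 2 + c2) * C0 + 1) := by
      calc (C0 : ℝ) * (A * (2 * L ^ c2)) ^ C0 ≤ C0 * (L ^ (b + 2) * (2 * L ^ c2)) ^ C0 := by gcongr
        _ = (C0 * 2 ^ C0) * L ^ ((b + 2 + c2) * C0) := by
            rw [show L ^ (b + 2) * (2 * L ^ c2) = 2 * L ^ (b + 2 + c2) by ring, mul_pow, ← pow_mul]
            ring
        _ ≤ _ := hlow
    calc (C0 : ℝ) * (A * (2 * L ^ c2)) ^ C0 * ((L ^ c8)⁻¹) ^ 2 * (L ^ (B + c6)) ^ 2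
        ≤ L ^ ((b + 2 + c2) * C0 + 1) * ((L ^ c8)⁻¹) ^ 2 * (L ^ (B + c6)) ^ 2 := by gcongr
      _ = L ^ ((b + 2 + c2) * C0 + 1 + 2 * (B + c6)) / L ^ (2 * c8) := by
          rw [inv_pow, ← pow_mul, ← pow_mul, div_eq_mul_inv, pow_add]
          ring
      _ ≤ 1 := by
          rw [div_le_one (hpp _)]
          apply pow_le_pow_right₀ hL1
          omega
  · intro A hA0 hA
    calc (C0 : ℝ) * (A * (2 * L ^ c2) * (Real.log (Real.exp (3 * L ^ c2)) + 4 * L) /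
          (L ^ c8)⁻¹) ^ C0 * Real.exp (L ^ c2) ≤ L ^ c7 * Real.exp (L ^ c2) := by
          gcongr
          exact hK2' A hA0 hA
      _ ≤ Real.exp (L ^ c2) * Real.exp (L ^ c2) := by
          gcongr
          simpa using hK2Q
      _ = Real.exp (2 * L ^ c2) := by rw [← Real.exp_add]; congr 1; ring
      _ ≤ Real.exp (3 * L ^ c2) := Real.exp_le_exp.2 (by linarith)
  · intro N hN
    rw [← Real.exp_nat_mul, ← Real.exp_add]
    apply Real.exp_le_one_iff.2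
    have h1 : L ^ (c2 + 1) ≤ L ^ N := pow_le_pow_right₀ hL1 hN
    have h2 : 30 * L ^ c2 ≤ L ^ (c2 + 1) := by
      rw [pow_succ, mul_comm]
      gcongr
    push_cast
    linarith
  · intro N hN
    have h1 : L ≤ L ^ N := by
      calc L = L ^ 1 := (pow_one L).symm
        _ ≤ L ^ N := pow_le_pow_right₀ hL1 hN
    have h2 : Real.exp (-L ^ N) ≤ Real.exp (-30) := Real.exp_le_exp.2 (by linarith)
    refine h2.trans ?_
    rw [Real.exp_neg]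
    rw [inv_le_comm₀ (Real.exp_pos _) (by norm_num)]
    have h3 := Real.pow_div_factorial_le_exp 30 (by norm_num) 2
    norm_num at h3 ⊢
    linarith
  · have h1 : 2 * L ^ (c2 + (B + c6)) ≤ Real.exp L := by simpa using hrest
    have h2 : (2 * L ^ c2) ^ 2 * (L ^ (B + c6)) ^ 2 = (2 * L ^ (c2 + (B + c6))) ^ 2 := by
      rw [← mul_pow, pow_add]
      ring
    calc Real.exp (-(4 * L)) * (2 * L ^ c2) ^ 2 * (L ^ (B + c6)) ^ 2
        = Real.exp (-(4 * L)) * (2 * L ^ (c2 + (B + c6))) ^ 2 := by rw [mul_assoc, h2]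
      _ ≤ Real.exp (-(4 * L)) * (Real.exp L) ^ 2 := by gcongr
      _ = Real.exp (-(2 * L)) := by
          rw [← Real.exp_nat_mul, ← Real.exp_add]
          congr 1
          push_cast
          ring
      _ ≤ 1 := Real.exp_le_one_iff.2 (by linarith)
  · have h1 : L ^ B ≤ Real.exp L := by simpa using hrest'
    calc Real.exp (-(4 * L)) * (L ^ B) ^ 2 ≤ Real.exp (-(4 * L)) * (Real.exp L) ^ 2 := by gcongr
      _ = Real.exp (-(2 * L)) := by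
          rw [← Real.exp_nat_mul, ← Real.exp_add]
          congr 1
          push_cast
          ring
      _ ≤ 1 := Real.exp_le_one_iff.2 (by linarith)
  · have h1 : (C0 : ℝ) ^ 2 * L ^ (2 * B) ≤ Real.exp L := by simpa using hlong
    calc ((C0 : ℝ) * L ^ B) ^ 2 * Real.exp (-L) = (C0 : ℝ) ^ 2 * L ^ (2 * B) * Real.exp (-L) := by
          rw [mul_pow, ← pow_mul, mul_comm B 2]
      _ ≤ Real.exp L * Real.exp (-L) := by gcongr
      _ = 1 := by rw [← Real.exp_add, add_neg_cancel, Real.exp_zero]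

end Vale.Agent.P112.H694.NumR2
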