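import Vale.Agent.P112.G.CompDefs
import Vale.Agent.P112.H694.Num
import Vale.Agent.P112.H540.Parts

/-!
# P112, chapter (G): the bad part of one weakly separated family, `StLow + StDepth + StMass ⟹ StBad`
-/

open MeasureTheory Set Filter Topology
open scoped ENNReal

set_option linter.dupNamespace false
set_option linter.unreachableTactic false
set_option linter.unusedTactic false

namespace Vale.Agent.P112.H694

open T F30 R2 NumR2

variable {M : ℕ}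

/-- The numbers of the bad part, `Q = exp (L ^ c2)`, `H = exp (L ^ (c2 + 1))`, `W = 2 L ^ c2`,
`X = L`, `δ = L ^ (-c4)`. -/
structure BadNums (b c2 B CL CD c4 c7 : ℕ) (CM L : ℝ) : Prop where
  one : 1 ≤ L
  δ0 : 0 < (L ^ c4)⁻¹
  δ1 : (L ^ c4)⁻¹ ≤ 1
  low : ∀ A : ℝ, 0 ≤ A → A ≤ L ^ b →
    (CL : ℝ) * (A * (2 * L ^ c2)) ^ CL * ((L ^ c4)⁻¹) ^ 2 * (L ^ B) ^ 2 ≤ 1
  K2 : ∀ A : ℝ, 0 ≤ A → A ≤ L ^ b →
    (CD : ℝ) * (A * (2 * L ^ c2) * (Real.log (Real.exp (L ^ (c2 + 1))) + L) /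
      (L ^ c4)⁻¹) ^ CD ≤ L ^ c7
  K2Q : ∀ A : ℝ, 0 ≤ A → A ≤ L ^ b →
    (CD : ℝ) * (A * (2 * L ^ c2) * (Real.log (Real.exp (L ^ (c2 + 1))) + L) /
      (L ^ c4)⁻¹) ^ CD * Real.exp (L ^ c2) ≤ Real.exp (L ^ (c2 + 1))
  AQ : L ^ b ≤ Real.exp (L ^ c2)
  QH : Real.exp (L ^ c2) ≤ Real.exp (L ^ (c2 + 1))
  W1 : 1 ≤ 2 * L ^ c2
  QW : Real.exp (L ^ c2) ≤ (2 : ℝ) ^ (2 * L ^ c2)
  epsH : ∀ N : ℕ, c2 + 2 ≤ N → Real.exp (-L ^ N) * Real.exp (L ^ (c2 + 1)) ^ 10 ≤ 1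
  eps1 : ∀ N : ℕ, 1 ≤ N → Real.exp (-L ^ N) ≤ 1 / 64
  rest : CM * (2 * L ^ c2) ^ 2 * Real.exp (-L) * (L ^ B) ^ 2 ≤ 1

theorem badNums (b c2 B CL CD : ℕ) (hc2 : 1 ≤ c2) (CM : ℝ) : ∃ c4 c7 : ℕ,
    ∀ᶠ L : ℝ in atTop, BadNums b c2 B CL CD c4 c7 CM L := by
  set c4 : ℕ := B + (b + c2) * CL + 1 with hc4
  set c7 : ℕ := (b + 2 * c2 + 1 + c4) * CD + 1 with hc7
  refine ⟨c4, c7, ?_⟩
  filter_upwards [ev_ge 30, ev_exp 1 b hc2,
    ev_pow (CL * 2 ^ CL : ℝ) (show (b + c2) * CL < (b + c2) * CL + 1 by omega),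
    ev_pow (CD * 4 ^ CD : ℝ) (show (b + 2 * c2 + 1 + c4) * CD < c7 by omega),
    ev_exp 1 c7 hc2, ev_exp (CM * 4) (2 * c2 + 2 * B) (le_refl 1)] with L h30 hQ hlow hK2 hK2Q hrest
  have hL1 : 1 ≤ L := by linarith
  have hL0 : 0 < L := by linarith
  have hpp : ∀ k : ℕ, (0 : ℝ) < L ^ k := fun k => pow_pos hL0 k
  have hLc1 : 1 ≤ L ^ c2 := one_le_pow₀ hL1
  have hLL : L ≤ L ^ (c2 + 1) := by
    calc L = L ^ 1 := (pow_one L).symm
      _ ≤ L ^ (c2 + 1) := pow_le_pow_right₀ hL1 (by omega)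
  have h2L : 2 * L ^ c2 ≤ L ^ (c2 + 1) := by
    rw [pow_succ, mul_comm]
    gcongr
    linarith
  have hsum : Real.log (Real.exp (L ^ (c2 + 1))) + L ≤ 2 * L ^ (c2 + 1) := by
    rw [Real.log_exp]; linarith
  have hsum0 : 0 ≤ Real.log (Real.exp (L ^ (c2 + 1))) + L := by
    rw [Real.log_exp]; positivity
  have hK2' : ∀ A : ℝ, 0 ≤ A → A ≤ L ^ b →
      (CD : ℝ) * (A * (2 * L ^ c2) * (Real.log (Real.exp (L ^ (c2 + 1))) + L) /
        (L ^ c4)⁻¹) ^ CD ≤ L ^ c7 := fun A hA0 hA => by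
    calc (CD : ℝ) * (A * (2 * L ^ c2) * (Real.log (Real.exp (L ^ (c2 + 1))) + L) /
          (L ^ c4)⁻¹) ^ CD
        ≤ CD * (L ^ b * (2 * L ^ c2) * (2 * L ^ (c2 + 1)) / (L ^ c4)⁻¹) ^ CD := by gcongr
      _ = CD * (4 * L ^ (b + 2 * c2 + 1 + c4)) ^ CD := by
          congr 2
          rw [div_inv_eq_mul]
          ring
      _ = (CD * 4 ^ CD) * L ^ ((b + 2 * c2 + 1 + c4) * CD) := by
          rw [mul_pow, ← pow_mul]; ring
      _ ≤ L ^ c7 := hK2
  refine ⟨hL1, by positivity, ?_, ?_, hK2', ?_, by simpa using hQ, ?_, by linarith, ?_, ?_, ?_, ?_⟩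
  · apply inv_le_one_of_one_le₀
    exact one_le_pow₀ hL1
  · intro A hA0 hA
    have h1 : (CL : ℝ) * (A * (2 * L ^ c2)) ^ CL ≤ L ^ ((b + c2) * CL + 1) := by
      calc (CL : ℝ) * (A * (2 * L ^ c2)) ^ CL ≤ CL * (L ^ b * (2 * L ^ c2)) ^ CL := by gcongr
        _ = (CL * 2 ^ CL) * L ^ ((b + c2) * CL) := by
            rw [show L ^ b * (2 * L ^ c2) = 2 * L ^ (b + c2) by ring, mul_pow, ← pow_mul]
            ring
        _ ≤ _ := hlow
    calc (CL : ℝ) * (A * (2 * L ^ c2)) ^ CL * ((L ^ c4)⁻¹) ^ 2 * (L ^ B) ^ 2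
        ≤ L ^ ((b + c2) * CL + 1) * ((L ^ c4)⁻¹) ^ 2 * (L ^ B) ^ 2 := by gcongr
      _ = L ^ ((b + c2) * CL + 1 + 2 * B) / L ^ (2 * c4) := by
          rw [inv_pow, ← pow_mul, ← pow_mul, div_eq_mul_inv, pow_add]
          ring
      _ ≤ 1 := by
          rw [div_le_one (hpp _)]
          apply pow_le_pow_right₀ hL1
          omega
  · intro A hA0 hA
    calc (CD : ℝ) * (A * (2 * L ^ c2) * (Real.log (Real.exp (L ^ (c2 + 1))) + L) /
          (L ^ c4)⁻¹) ^ CD * Real.exp (L ^ c2) ≤ L ^ c7 * Real.exp (L ^ c2) := by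
          gcongr
          exact hK2' A hA0 hA
      _ ≤ Real.exp (L ^ c2) * Real.exp (L ^ c2) := by
          gcongr
          simpa using hK2Q
      _ = Real.exp (2 * L ^ c2) := by rw [← Real.exp_add]; congr 1; ring
      _ ≤ Real.exp (L ^ (c2 + 1)) := Real.exp_le_exp.2 h2L
  · apply Real.exp_le_exp.2
    exact pow_le_pow_right₀ hL1 (by omega)
  · rw [Real.rpow_def_of_pos (by norm_num)]
    apply Real.exp_le_exp.2
    have := Real.log_two_gt_d9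
    nlinarith
  · intro N hN
    rw [← Real.exp_nat_mul, ← Real.exp_add]
    apply Real.exp_le_one_iff.2
    have h1 : L ^ (c2 + 2) ≤ L ^ N := pow_le_pow_right₀ hL1 hN
    have h2 : 10 * L ^ (c2 + 1) ≤ L ^ (c2 + 2) := by
      rw [pow_succ L (c2 + 1), mul_comm]
      gcongr
      linarith
    push_cast
    linarith
  · intro N hN
    have h1 : L ≤ L ^ N := by
      calc L = L ^ 1 := (pow_one L).symm
        _ ≤ L ^ N := pow_le_pow_right₀ hL1 hN
    have h2 : Real.exp (-L ^ N) ≤ Real.exp (-30) := Real.exp_le_exp.2 (by linarith)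
    refine h2.trans ?_
    rw [Real.exp_neg]
    rw [inv_le_comm₀ (Real.exp_pos _) (by norm_num)]
    have h3 := Real.pow_div_factorial_le_exp 30 (by norm_num) 2
    norm_num at h3 ⊢
    linarith
  · have h1 : CM * 4 * L ^ (2 * c2 + 2 * B) ≤ Real.exp L := by simpa using hrest
    calc CM * (2 * L ^ c2) ^ 2 * Real.exp (-L) * (L ^ B) ^ 2
        = CM * 4 * L ^ (2 * c2 + 2 * B) * Real.exp (-L) := by
          rw [pow_add]
          ring
      _ ≤ Real.exp L * Real.exp (-L) := by gcongr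
      _ = 1 := by rw [← Real.exp_add, add_neg_cancel, Real.exp_zero]

theorem sqrt_le_one' {x : ℝ} (h : x ≤ 1) : √x ≤ 1 := by
  have := Real.sqrt_le_sqrt h
  rwa [Real.sqrt_one] at this

/-- **The bad part of one weakly separated family.** -/
theorem stBad {κ : Ker M} (hLow : StLow κ) (hDepth : StDepth) (hMass : StMass κ) : StBad κ := by
  obtain ⟨CL, hCL1, hLow⟩ := hLow
  obtain ⟨CD, hCD1, hDepth⟩ := hDepth
  obtain ⟨CM, hCM0, hMass⟩ := hMass
  refine ⟨CL + CD, by omega, fun b c2 B hb hc2 hG => ?_⟩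
  obtain ⟨c4, c7, hnum⟩ := badNums b c2 B CL CD hc2 CM
  obtain ⟨N1, C1, hC1, hG⟩ := hG c2 (B + c7)
  obtain ⟨L0, hL0⟩ := eventually_atTop.1 hnum
  refine ⟨max N1 (c2 + 2), max (C1 + 2) L0, (by linarith : (1 : ℝ) ≤ C1 + 2).trans (le_max_left _ _),
    fun u hu n ν f g hf hg hf1 hg1 hf2 hg2 hg3 hF0 hE0 L hL hCL hν hlip F G A hA0 hA hF hM hS => ?_⟩
  have hLL0 : L0 ≤ L := (le_max_right _ _).trans hCL
  have hC1L : C1 ≤ L := by
    have := (le_max_left (C1 + 2) L0).trans hCL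
    linarith
  have hn := hL0 L hLL0
  have hL1 := hn.one
  have hLpos : 0 < L := by linarith
  -- the parameters
  set Q : ℝ := Real.exp (L ^ c2) with hQ
  set H : ℝ := Real.exp (L ^ (c2 + 1)) with hH
  set W : ℝ := 2 * L ^ c2 with hW
  set δ : ℝ := (L ^ c4)⁻¹ with hδ
  set E0 : Set (ℝ × ℝ) := {z | g z ≠ 0} with hE0'
  set eE : ℝ := (volume E0).toReal with heE
  set fF : ℝ := (volume {z | f z ≠ 0}).toReal with hfF
  set N : ℕ := max N1 (c2 + 2) with hN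
  have hNN1 : N1 ≤ N := le_max_left _ _
  have hNc : c2 + 2 ≤ N := le_max_right _ _
  have h2ν : (1 : ℝ) ≤ 2 ^ ν := one_le_pow₀ (by norm_num)
  have hCLD : ((CL + CD : ℕ) : ℝ) = CL + CD := by push_cast; ring
  have hCLr : (1 : ℝ) ≤ CL := by exact_mod_cast hCL1
  have hCDr : (1 : ℝ) ≤ CD := by exact_mod_cast hCD1
  have hA1 : 1 ≤ A := by
    refine le_trans ?_ hA0
    rw [hCLD]
    nlinarith
  have hA0' : 0 ≤ A := by linarith
  have hAL : (CL : ℝ) * 2 ^ ν ≤ A := by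
    refine le_trans ?_ hA0
    rw [hCLD]
    nlinarith
  have hAD : (CD : ℝ) ≤ A := by
    refine le_trans ?_ hA0
    rw [hCLD]
    nlinarith
  have hAQ : A ≤ Q := hA.trans hn.AQ
  have hεN : Real.exp (-L ^ N) ≤ 1 / 64 := hn.eps1 N (by omega)
  have hε0 : 0 ≤ Real.exp (-L ^ N) := (Real.exp_pos _).le
  -- measurability
  have hbad : (G.bad Q H).Ok u (Pd u E0 4 n ν) A (H / 2) :=
    (H540.stSplit u hu (Pd u E0 4 n ν) F G A H Q hA1 hAQ hn.QH hF hM hS).2.2.1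
  have hmb := hbad.meas
  have hml : ∀ i j, MeasurableSet (((G.bad Q H).low δ).E i j) := H540.meas_rlow hmb δ
  have hmh : ∀ i j, MeasurableSet (((G.bad Q H).high δ).E i j) := H540.meas_rhigh hmb δ
  -- low part
  have hlow := hLow u hu (fun x y y' => (hlip x y y').trans (by gcongr)) n ν g hg hg1 hg3 F G A H Q W δ
    hAL hAQ hn.QH hn.W1 hn.QW hn.δ0 hn.δ1 hF hM hS
  have hNl : Nice (((G.bad Q H).low δ).sum κ u g n) := nice_sum κ hu _ hml hg n
  have hNh : Nice (((G.bad Q H).high δ).sum κ u g n) := nice_sum κ hu _ hmh hg n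
  have hX0 : 0 ≤ √fF * √eE := by positivity
  have heE0 : 0 ≤ eE := ENNReal.toReal_nonneg
  have hLB : 0 < L ^ B := by positivity
  have hl : |∫ ζ, f ζ * ((G.bad Q H).low δ).sum κ u g n ζ| * L ^ B ≤ √fF * √eE := by
    have h1 := pair_le hf hNl hf1 hlow
    calc |∫ ζ, f ζ * ((G.bad Q H).low δ).sum κ u g n ζ| * L ^ B
        ≤ √fF * √(CL * (A * W) ^ CL * δ ^ 2 * eE) * L ^ B := by gcongr
      _ = √fF * (√(CL * (A * W) ^ CL * δ ^ 2 * (L ^ B) ^ 2) * √eE) := by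
          rw [mul_assoc]
          congr 1
          rw [← Real.sqrt_mul (by positivity)]
          rw [← Real.sqrt_sq hLB.le, ← Real.sqrt_mul (by positivity), Real.sqrt_sq hLB.le]
          congr 1
          ring
      _ ≤ √fF * (1 * √eE) := by
          gcongr
          exact sqrt_le_one' (hn.low A hA0' hA)
      _ = √fF * √eE := by ring
  -- high part
  have hD1 := hDepth u hu (Real.exp (-L ^ N)) hε0
    hlip E0 (support_meas hg) (support_bdd hg) n ν F G A H Q W L δ hAD hAQ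
  have hD2 := by
    first
      | exact hD1 hn.W1 hn.QW hL1 hn.δ0 hn.δ1 (hn.K2Q A hA0' hA) (hn.epsH N hNc) hF hM hS
      | exact hD1 hn.QH hn.W1 hn.QW hL1 hn.δ0 hn.δ1 (hn.K2Q A hA0' hA) (hn.epsH N hNc) hF hM hS
  obtain ⟨K, F', R, hK, hok', hsep', hRm, hRs, hRw, hRv, hpart⟩ := hD2
  have hKc : (K : ℝ) ≤ L ^ c7 := hK.trans (hn.K2 A hA0' hA)
  have hlipN1 : ∀ x y y', |u (x, y) - u (x, y')| ≤ Real.exp (-L ^ N1) * |y - y'| := by
    intro x y y'
    refine (hlip x y y').trans ?_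
    gcongr
  have hgain : ∀ k, |∫ ζ, f ζ * (F' k).sum κ u g n ζ| ≤ C1 / L ^ (B + c7) * (√fF * √eE) := by
    intro k
    have h1 := hG u hu n ν f g hf hg hf1 hg1 hf2 hg2 hg3 hF0 hE0 L hL hC1L hν hlipN1 (F' k) A Q hA1 hA
      le_rfl le_rfl (hok' k) (hsep' k)
    rw [div_mul_eq_mul_div, le_div_iff₀ (by positivity)]
    calc |∫ ζ, f ζ * (F' k).sum κ u g n ζ| * L ^ (B + c7) ≤ C1 * √fF * √eE := h1
      _ = C1 * (√fF * √eE) := by ring
  -- the rest
  have hmass := hMass u hu n ν g hg hg1 R hRm hRs W hn.W1 hRw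
  have hvol : (volume (Un R n)).toReal ≤ Real.exp (-L) * eE := by
    have h1 := ENNReal.toReal_mono (ENNReal.mul_ne_top ENNReal.ofReal_ne_top (support_ne_top hg)) hRv
    rwa [ENNReal.toReal_mul, ENNReal.toReal_ofReal (Real.exp_pos _).le] at h1
  have hmass' : ∫ ζ, (κ.FS u g R n ζ) ^ 2 ≤ CM * W ^ 2 * (Real.exp (-L) * eE) := by
    refine hmass.trans ?_
    gcongr
  have hr : |∫ ζ, f ζ * κ.FS u g R n ζ| * L ^ B ≤ √fF * √eE := by
    have h1 := pair_le hf (κ.FS_nice hu hg hRm n) hf1 hmass'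
    calc |∫ ζ, f ζ * κ.FS u g R n ζ| * L ^ B
        ≤ √fF * √(CM * W ^ 2 * (Real.exp (-L) * eE)) * L ^ B := by gcongr
      _ = √fF * (√(CM * W ^ 2 * Real.exp (-L) * (L ^ B) ^ 2) * √eE) := by
          rw [mul_assoc]
          congr 1
          rw [← Real.sqrt_mul (by positivity)]
          rw [← Real.sqrt_sq hLB.le, ← Real.sqrt_mul (by positivity), Real.sqrt_sq hLB.le]
          congr 1
          ring
      _ ≤ √fF * (1 * √eE) := by
          gcongr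
          exact sqrt_le_one' hn.rest
      _ = √fF * √eE := by ring
  have hr' : |∫ ζ, f ζ * κ.FS u g R n ζ| ≤ √fF * √eE / L ^ B := by
    rw [le_div_iff₀ hLB]; exact hr
  -- the high part is the sum
  have hsumh : ∀ ζ, ((G.bad Q H).high δ).sum κ u g n ζ =
      ∑ k, (F' k).sum κ u g n ζ + κ.FS u g R n ζ := by
    intro ζ
    rw [sum_eq κ hu _ hmh hg]
    exact part_sum κ hu (fun k => (hok' k).meas) hRm hg n (fun j z => hpart j z) ζ
  have hh := abs_part_le κ hu (fun k => (hok' k).meas) hRm hf hg n hsumh hgain hr'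
  have hh' : |∫ ζ, f ζ * ((G.bad Q H).high δ).sum κ u g n ζ| * L ^ B ≤
      (C1 + 1) * (√fF * √eE) := by
    have hC10 : 0 ≤ C1 := by linarith
    calc |∫ ζ, f ζ * ((G.bad Q H).high δ).sum κ u g n ζ| * L ^ B
        ≤ (K * (C1 / L ^ (B + c7) * (√fF * √eE)) + √fF * √eE / L ^ B) * L ^ B := by gcongr
      _ ≤ (L ^ c7 * (C1 / L ^ (B + c7) * (√fF * √eE)) + √fF * √eE / L ^ B) * L ^ B := by gcongr
      _ = (C1 + 1) * (√fF * √eE) := by
          rw [pow_add]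
          field_simp
  -- total
  have htot : ∫ ζ, f ζ * (G.bad Q H).sum κ u g n ζ =
      (∫ ζ, f ζ * ((G.bad Q H).low δ).sum κ u g n ζ) +
        ∫ ζ, f ζ * ((G.bad Q H).high δ).sum κ u g n ζ := by
    rw [← integral_add (hf.mul hNl).integrable (hf.mul hNh).integrable]
    congr 1
    ext ζ
    rw [split_sum κ hu hmb hml hmh hg n (low_high (G.bad Q H) δ) ζ]
    ring
  calc |∫ ζ, f ζ * (G.bad Q H).sum κ u g n ζ| * L ^ B
      ≤ (|∫ ζ, f ζ * ((G.bad Q H).low δ).sum κ u g n ζ| +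
          |∫ ζ, f ζ * ((G.bad Q H).high δ).sum κ u g n ζ|) * L ^ B := by
        rw [htot]
        gcongr
        exact abs_add_le _ _
    _ = |∫ ζ, f ζ * ((G.bad Q H).low δ).sum κ u g n ζ| * L ^ B +
          |∫ ζ, f ζ * ((G.bad Q H).high δ).sum κ u g n ζ| * L ^ B := by ring
    _ ≤ √fF * √eE + (C1 + 1) * (√fF * √eE) := add_le_add hl hh'
    _ = (C1 + 2) * (√fF * √eE) := by ring
    _ ≤ max (C1 + 2) L0 * (√fF * √eE) := by
        gcongr
        exact le_max_left _ _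
    _ = max (C1 + 2) L0 * √fF * √eE := by ring

end Vale.Agent.P112.H694
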