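import Vale.Agent.P112.H694.RSGen

/-!
P112 [RS], general classes, operators; the class of bounded measurable functions with bounded
support on `ℝ × ℝ`.
-/

namespace Vale.Agent.P112.H694.Gen

open MeasureTheory Filter Topology

variable {X Y : Type*} [MeasurableSpace X] [MeasurableSpace Y]
  {μ : Measure X} {ν : Measure Y} {P : (X → ℝ) → Prop} {Q : (Y → ℝ) → Prop}

/-- A linear operator on the class `P`, with a crude `L²` bound. -/
structure IsOp (μ : Measure X) (ν : Measure Y) (P : (X → ℝ) → Prop)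
    (T : (X → ℝ) → (Y → ℝ)) : Prop where
  add : ∀ f f', P f → P f' → T (fun x => f x + f' x) =ᵐ[ν] fun y => T f y + T f' y
  mul : ∀ (c : ℝ) f, P f → T (fun x => c * f x) =ᵐ[ν] fun y => c * T f y
  meas : ∀ f, P f → Measurable (T f)
  crude : ∃ K : ℝ, 0 ≤ K ∧ ∀ f, P f →
    ∫⁻ y, ENNReal.ofReal (T f y ^ 2) ∂ν ≤ ENNReal.ofReal (K ^ 2 * ∫ x, f x ^ 2 ∂μ)

namespace IsOp

variable {T : (X → ℝ) → (Y → ℝ)}

theorem memLp (hT : IsOp μ ν P T) {f : X → ℝ} (hf : P f) : MemLp (T f) 2 ν := by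
  obtain ⟨K, hK0, hK⟩ := hT.crude
  refine (memLp_two_iff_integrable_sq (hT.meas f hf).aestronglyMeasurable).2 ?_
  refine ⟨((hT.meas f hf).pow_const 2).aestronglyMeasurable, ?_⟩
  rw [hasFiniteIntegral_iff_norm]
  refine lt_of_le_of_lt (le_trans (le_of_eq ?_) (hK f hf)) ENNReal.ofReal_lt_top
  refine lintegral_congr fun y => ?_
  rw [Real.norm_eq_abs, abs_of_nonneg (sq_nonneg _)]

theorem sq_le (hT : IsOp μ ν P T) : ∃ K : ℝ, 0 ≤ K ∧ ∀ f, P f →
    ∫ y, T f y ^ 2 ∂ν ≤ K ^ 2 * ∫ x, f x ^ 2 ∂μ := by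
  obtain ⟨K, hK0, hK⟩ := hT.crude
  refine ⟨K, hK0, fun f hf => ?_⟩
  have h0 : 0 ≤ K ^ 2 * ∫ x, f x ^ 2 ∂μ :=
    mul_nonneg (sq_nonneg _) (integral_nonneg fun _ => sq_nonneg _)
  rw [integral_eq_lintegral_of_nonneg_ae (Eventually.of_forall fun _ => sq_nonneg _)
    ((hT.meas f hf).pow_const 2).aestronglyMeasurable]
  exact ENNReal.toReal_le_of_le_ofReal h0 (hK f hf)

theorem isForm (hT : IsOp μ ν P T) (hQ : Cls ν Q) :
    IsForm μ ν P Q (fun f g => ∫ y, T f y * g y ∂ν) := by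
  have hi : ∀ {f : X → ℝ} {g : Y → ℝ}, P f → Q g → Integrable (fun y => T f y * g y) ν :=
    fun hf hg => (hT.memLp hf).integrable_mul ((hQ.bm _ hg).memLp 2)
  refine ⟨fun f f' g hf hf' hg => ?_, fun f g g' hf hg hg' => ?_, fun c f g hf hg => ?_,
    fun c f g hf hg => ?_, ?_⟩
  · show ∫ y, T (fun x => f x + f' x) y * g y ∂ν = (∫ y, T f y * g y ∂ν) + ∫ y, T f' y * g y ∂ν
    rw [← integral_add (hi hf hg) (hi hf' hg)]
    refine integral_congr_ae ?_
    filter_upwards [hT.add f f' hf hf'] with y hy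
    rw [hy, add_mul]
  · show ∫ y, T f y * (g y + g' y) ∂ν = (∫ y, T f y * g y ∂ν) + ∫ y, T f y * g' y ∂ν
    rw [← integral_add (hi hf hg) (hi hf hg')]
    exact integral_congr_ae (Eventually.of_forall fun y => mul_add _ _ _)
  · show ∫ y, T (fun x => c * f x) y * g y ∂ν = c * ∫ y, T f y * g y ∂ν
    rw [← integral_const_mul]
    refine integral_congr_ae ?_
    filter_upwards [hT.mul c f hf] with y hy
    rw [hy, mul_assoc]
  · show ∫ y, T f y * (c * g y) ∂ν = c * ∫ y, T f y * g y ∂ν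
    rw [← integral_const_mul]
    exact integral_congr_ae (Eventually.of_forall fun y => by ring)
  · obtain ⟨K, hK0, hK⟩ := hT.sq_le
    refine ⟨K, fun f g hf hg => ?_⟩
    refine (H694.IsOp.cauchy (hT.memLp hf) ((hQ.bm _ hg).memLp 2)).trans ?_
    rw [← mul_assoc]
    refine mul_le_mul_of_nonneg_right ?_ (Real.sqrt_nonneg _)
    calc √(∫ y, T f y ^ 2 ∂ν) ≤ √(K ^ 2 * ∫ x, f x ^ 2 ∂μ) := Real.sqrt_le_sqrt (hK f hf)
      _ = K * √(∫ x, f x ^ 2 ∂μ) := by
          rw [Real.sqrt_mul (sq_nonneg _), Real.sqrt_sq hK0]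

end IsOp

/-- Duality with a class of test functions. -/
theorem sq_le_of_dual (hQ : Cls ν Q) {h : Y → ℝ} (hm : Measurable h) (hh : MemLp h 2 ν) {A : ℝ}
    (H : ∀ g, Q g → |∫ y, h y * g y ∂ν| ≤ A * √(∫ y, g y ^ 2 ∂ν)) :
    ∫ y, h y ^ 2 ∂ν ≤ A ^ 2 := by
  have hint : Integrable (fun y => h y ^ 2) ν := hh.integrable_sq
  obtain ⟨E, hE, hE2, hE3⟩ := hQ.exh
  let S : ℕ → Set Y := fun n => E n ∩ {y | |h y| ≤ n}
  have hSm0 : ∀ n : ℕ, MeasurableSet {y | |h y| ≤ n} := fun n =>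
    measurableSet_le hm.abs measurable_const
  have hSm : ∀ n, MeasurableSet (S n) := fun n => (hE n).inter (hSm0 n)
  have hbm : ∀ n, Q ((S n).indicator h) := by
    intro n
    have e : (S n).indicator h = (E n).indicator ({y | |h y| ≤ n}.indicator h) := by
      rw [Set.indicator_indicator]
    rw [e]
    refine hE3 _ n (hm.indicator (hSm0 n)) ⟨n, fun y => ?_⟩
    by_cases hy : y ∈ {y | |h y| ≤ (n:ℝ)}
    · rw [Set.indicator_of_mem hy]; exact hy
    · rw [Set.indicator_of_notMem hy, abs_zero]; positivity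
  have hkey : ∀ n, ∫ y, (S n).indicator (fun y => h y ^ 2) y ∂ν ≤ A ^ 2 := by
    intro n
    have h1 := H _ (hbm n)
    have e1 : ∫ y, h y * (S n).indicator h y ∂ν = ∫ y, (S n).indicator (fun y => h y ^ 2) y ∂ν := by
      refine integral_congr_ae (Eventually.of_forall fun y => ?_)
      show h y * (S n).indicator h y = (S n).indicator (fun y => h y ^ 2) y
      by_cases hy : y ∈ S n
      · rw [Set.indicator_of_mem hy, Set.indicator_of_mem hy]; ring
      · rw [Set.indicator_of_notMem hy, Set.indicator_of_notMem hy, mul_zero]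
    have e2 : ∫ y, (S n).indicator h y ^ 2 ∂ν = ∫ y, (S n).indicator (fun y => h y ^ 2) y ∂ν := by
      refine integral_congr_ae (Eventually.of_forall fun y => ?_)
      show (S n).indicator h y ^ 2 = (S n).indicator (fun y => h y ^ 2) y
      by_cases hy : y ∈ S n
      · rw [Set.indicator_of_mem hy, Set.indicator_of_mem hy]
      · rw [Set.indicator_of_notMem hy, Set.indicator_of_notMem hy]; ring
    rw [e1, e2] at h1
    set I := ∫ y, (S n).indicator (fun y => h y ^ 2) y ∂ν with hI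
    have hI0 : 0 ≤ I := integral_nonneg fun y => Set.indicator_nonneg (fun _ _ => sq_nonneg _) _
    rw [abs_of_nonneg hI0] at h1
    have h2 : √I * √I = I := Real.mul_self_sqrt hI0
    rcases (Real.sqrt_nonneg I).eq_or_lt with h3 | h3
    · rw [← h3, mul_zero] at h2
      rw [← h2]; positivity
    · have h4 : √I ≤ A := by
        by_contra h5
        push Not at h5
        nlinarith
      calc I = √I ^ 2 := by rw [pow_two, h2]
        _ ≤ A ^ 2 := pow_le_pow_left₀ h3.le h4 2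
  have hlim : Tendsto (fun n => ∫ y, (S n).indicator (fun y => h y ^ 2) y ∂ν) atTop
      (𝓝 (∫ y, h y ^ 2 ∂ν)) := by
    refine tendsto_integral_of_dominated_convergence (fun y => h y ^ 2)
      (fun n => ((hm.pow_const 2).indicator (hSm n)).aestronglyMeasurable) hint
      (fun n => Eventually.of_forall fun y => ?_) (Eventually.of_forall fun y => ?_)
    · by_cases hy : y ∈ S n
      · rw [Set.indicator_of_mem hy, Real.norm_eq_abs, abs_of_nonneg (sq_nonneg _)]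
      · rw [Set.indicator_of_notMem hy, norm_zero]; positivity
    · obtain ⟨n0, hn0⟩ := exists_nat_ge |h y|
      refine tendsto_const_nhds.congr' ?_
      filter_upwards [eventually_ge_atTop n0, hE2 y] with n hn hEn
      have hn' : (n0:ℝ) ≤ n := by exact_mod_cast hn
      rw [Set.indicator_of_mem]
      exact ⟨hEn, hn0.trans hn'⟩
  exact le_of_tendsto' hlim hkey

/-- [RS-T], general classes. -/
theorem rs_op {T : (X → ℝ) → (Y → ℝ)} (hT : IsOp μ ν P T) (hP : Cls μ P) (hQ : Cls ν Q)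
    {ψ : ℤ → ℝ} (hψ : ∀ n, 0 ≤ ψ n)
    (hs : Summable ψ) (hR : RestrictedGain μ ν P Q (fun f g => ∫ y, T f y * g y ∂ν) ψ)
    {f : X → ℝ} (hf : P f) :
    ∫ y, T f y ^ 2 ∂ν ≤ (24 * ∑' n, ψ n) ^ 2 * ∫ x, f x ^ 2 ∂μ := by
  have h1 := sq_le_of_dual hQ (hT.meas f hf) (hT.memLp hf)
    (A := 24 * (∑' n, ψ n) * √(∫ x, f x ^ 2 ∂μ)) (fun g hg => by
      have := rs_form (hT.isForm hQ) hP hQ hψ hs hR hf hg
      calc _ ≤ _ := this
        _ = _ := by ring)
  rw [mul_pow, Real.sq_sqrt (integral_nonneg fun _ => sq_nonneg _)] at h1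
  exact h1

theorem rs_op_lintegral {T : (X → ℝ) → (Y → ℝ)} (hT : IsOp μ ν P T) (hP : Cls μ P)
    (hQ : Cls ν Q) {ψ : ℤ → ℝ} (hψ : ∀ n, 0 ≤ ψ n)
    (hs : Summable ψ) (hR : RestrictedGain μ ν P Q (fun f g => ∫ y, T f y * g y ∂ν) ψ)
    {f : X → ℝ} (hf : P f) :
    ∫⁻ y, ENNReal.ofReal (T f y ^ 2) ∂ν ≤
      ENNReal.ofReal ((24 * ∑' n, ψ n) ^ 2 * ∫ x, f x ^ 2 ∂μ) := by
  rw [← ofReal_integral_eq_lintegral_ofReal (hT.memLp hf).integrable_sq
    (Eventually.of_forall fun _ => sq_nonneg _)]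
  exact ENNReal.ofReal_le_ofReal (rs_op hT hP hQ hψ hs hR hf)

/-- The restricted bound with logarithmic gain, for functions with `|f| ∈ {0} ∪ [1/2, 1]`. -/
def LogGain (μ : Measure X) (ν : Measure Y) (P : (X → ℝ) → Prop) (Q : (Y → ℝ) → Prop)
    (B : (X → ℝ) → (Y → ℝ) → ℝ) (C a : ℝ) : Prop :=
  ∀ f g, P f → Q g → (∀ x, |f x| ≤ 1) → (∀ y, |g y| ≤ 1) →
    (∀ x, f x ≠ 0 → 1 / 2 ≤ |f x|) → (∀ y, g y ≠ 0 → 1 / 2 ≤ |g y|) →
    0 < μ (Function.support f) → 0 < ν (Function.support g) →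
      |B f g| ≤ C * (√(μ.real (Function.support f)) * √(ν.real (Function.support g))) *
        (1 + |Real.log (ν.real (Function.support g) / μ.real (Function.support f))|) ^ (-a)

theorem LogGain.restricted {B : (X → ℝ) → (Y → ℝ) → ℝ} {C a : ℝ} (hC : 0 ≤ C) (ha : 0 ≤ a)
    (hP : Cls μ P) (hQ : Cls ν Q)
    (h : LogGain μ ν P Q B C a) : RestrictedGain μ ν P Q B (lgψ C a) := by
  intro f g hf hg hf1 hg1 hf2 hg2 hF0 hE0
  refine (h f g hf hg hf1 hg1 hf2 hg2 hF0 hE0).trans ?_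
  have hx : 0 < μ.real (Function.support f) := ENNReal.toReal_pos hF0.ne' (hP.bm _ hf).supp.ne
  have hy : 0 < ν.real (Function.support g) := ENNReal.toReal_pos hE0.ne' (hQ.bm _ hg).supp.ne
  have hg1 := log_gap hx hy
  unfold lgψ
  set a1 := μ.real (Function.support f)
  set a2 := ν.real (Function.support g)
  have h2 : (1 + |Real.log (a2 / a1)|) ^ (-a) ≤
      (3 / (1 + |((Int.log 2 a2 - Int.log 2 a1 : ℤ):ℝ)|)) ^ a := by
    rw [Real.rpow_neg (by positivity), ← Real.inv_rpow (by positivity)]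
    refine Real.rpow_le_rpow (by positivity) ?_ ha
    rw [inv_le_comm₀ (by positivity) (by positivity), inv_div]
    exact hg1
  calc C * (√a1 * √a2) * (1 + |Real.log (a2 / a1)|) ^ (-a)
      ≤ C * (√a1 * √a2) *
        (3 / (1 + |((Int.log 2 a2 - Int.log 2 a1 : ℤ):ℝ)|)) ^ a :=
        mul_le_mul_of_nonneg_left h2 (by positivity)
    _ = _ := by ring

/-- The constant of the strong bound. -/
noncomputable def rsC (C a : ℝ) : ℝ := 24 * ∑' n, lgψ C a n

theorem rsC_nonneg {C a : ℝ} (hC : 0 ≤ C) : 0 ≤ rsC C a := by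
  have : 0 ≤ ∑' n, lgψ C a n := tsum_nonneg (lgψ_nonneg hC)
  unfold rsC; positivity

/-- Logarithmic gain `a > 1` for restricted inputs implies the strong bound with the constant
`rsC C a` (depending only on `C` and `a`). -/
theorem strong_of_logGain {C a : ℝ} (hC : 0 ≤ C) (ha : 1 < a) (hP : Cls μ P) (hQ : Cls ν Q)
    {T : (X → ℝ) → (Y → ℝ)} (hT : IsOp μ ν P T)
    (hL : LogGain μ ν P Q (fun f g => ∫ y, T f y * g y ∂ν) C a) {f : X → ℝ} (hf : P f) :
    ∫ y, T f y ^ 2 ∂ν ≤ rsC C a ^ 2 * ∫ x, f x ^ 2 ∂μ ∧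
    ∫⁻ y, ENNReal.ofReal (T f y ^ 2) ∂ν ≤ ENNReal.ofReal (rsC C a ^ 2 * ∫ x, f x ^ 2 ∂μ) :=
  ⟨rs_op hT hP hQ (lgψ_nonneg hC) (lgψ_summable C ha)
      (hL.restricted hC (by linarith) hP hQ) hf,
    rs_op_lintegral hT hP hQ (lgψ_nonneg hC) (lgψ_summable C ha)
      (hL.restricted hC (by linarith) hP hQ) hf⟩

/-! ### The class on `ℝ × ℝ` -/

/-- measurable, bounded, bounded support -/
structure Nice2 (g : ℝ × ℝ → ℝ) : Prop where
  meas : Measurable g
  bdd : ∃ C, ∀ z, |g z| ≤ C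
  supp : ∃ r, ∀ z : ℝ × ℝ, r ≤ |z.1| ∨ r ≤ |z.2| → g z = 0

theorem Nice2.finite {g : ℝ × ℝ → ℝ} (hg : Nice2 g) : volume (Function.support g) < ⊤ := by
  obtain ⟨r, hr⟩ := hg.supp
  refine lt_of_le_of_lt (measure_mono (t := Set.Icc (-r) r ×ˢ Set.Icc (-r) r) ?_) ?_
  · intro z hz
    have h1 : ¬ (r ≤ |z.1| ∨ r ≤ |z.2|) := fun h => hz (hr z h)
    push Not at h1
    exact ⟨by rw [Set.mem_Icc, ← abs_le]; exact h1.1.le, by
      rw [Set.mem_Icc, ← abs_le]; exact h1.2.le⟩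
  · rw [Measure.volume_eq_prod, Measure.prod_prod]
    exact ENNReal.mul_lt_top (by simp) (by simp)

theorem cls_nice2 : Cls (volume : Measure (ℝ × ℝ)) Nice2 where
  bm f hf := ⟨hf.meas, hf.bdd, hf.finite⟩
  zero := ⟨measurable_const, ⟨0, by simp⟩, ⟨0, fun _ _ => rfl⟩⟩
  add f g hf hg := by
    obtain ⟨C, hC⟩ := hf.bdd
    obtain ⟨D, hD⟩ := hg.bdd
    obtain ⟨r, hr⟩ := hf.supp
    obtain ⟨r', hr'⟩ := hg.supp
    refine ⟨hf.meas.add hg.meas, ⟨C + D, fun z => (abs_add_le _ _).trans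
      (add_le_add (hC z) (hD z))⟩, ⟨max r r', fun z hz => ?_⟩⟩
    rw [hr z (hz.imp (le_trans (le_max_left _ _)) (le_trans (le_max_left _ _))),
      hr' z (hz.imp (le_trans (le_max_right _ _)) (le_trans (le_max_right _ _))), add_zero]
  const_mul c f hf := by
    obtain ⟨C, hC⟩ := hf.bdd
    obtain ⟨r, hr⟩ := hf.supp
    refine ⟨hf.meas.const_mul c, ⟨|c| * C, fun z => ?_⟩, ⟨r, fun z hz => ?_⟩⟩
    · rw [abs_mul]; exact mul_le_mul_of_nonneg_left (hC z) (abs_nonneg _)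
    · rw [hr z hz, mul_zero]
  ind f S hf hS := by
    obtain ⟨C, hC⟩ := hf.bdd
    obtain ⟨r, hr⟩ := hf.supp
    refine ⟨hf.meas.indicator hS, ⟨C, fun z => ?_⟩, ⟨r, fun z hz => ?_⟩⟩
    · by_cases h : z ∈ S
      · rw [Set.indicator_of_mem h]; exact hC z
      · rw [Set.indicator_of_notMem h, abs_zero]; exact (abs_nonneg _).trans (hC z)
    · by_cases h : z ∈ S
      · rw [Set.indicator_of_mem h]; exact hr z hz
      · rw [Set.indicator_of_notMem h]
  exh := by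
    refine ⟨fun n => {z : ℝ × ℝ | |z.1| < n ∧ |z.2| < n}, fun n => ?_, fun z => ?_,
      fun f n hf hb => ?_⟩
    · exact (measurableSet_lt (measurable_fst.abs) measurable_const).inter
        (measurableSet_lt (measurable_snd.abs) measurable_const)
    · obtain ⟨n0, hn0⟩ := exists_nat_gt (max |z.1| |z.2|)
      filter_upwards [eventually_ge_atTop n0] with n hn
      have hn' : (n0:ℝ) ≤ n := by exact_mod_cast hn
      exact ⟨lt_of_lt_of_le (lt_of_le_of_lt (le_max_left _ _) hn0) hn',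
        lt_of_lt_of_le (lt_of_le_of_lt (le_max_right _ _) hn0) hn'⟩
    · obtain ⟨M, hM⟩ := hb
      have hS : MeasurableSet {z : ℝ × ℝ | |z.1| < n ∧ |z.2| < n} :=
        (measurableSet_lt (measurable_fst.abs) measurable_const).inter
        (measurableSet_lt (measurable_snd.abs) measurable_const)
      refine ⟨hf.indicator hS, ⟨M, fun z => ?_⟩, ⟨n, fun z hz => ?_⟩⟩
      · by_cases h : z ∈ {z : ℝ × ℝ | |z.1| < n ∧ |z.2| < n}
        · rw [Set.indicator_of_mem h]; exact hM z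
        · rw [Set.indicator_of_notMem h, abs_zero]; exact (abs_nonneg _).trans (hM z)
      · apply Set.indicator_of_notMem
        intro h
        rcases hz with hz | hz
        · exact absurd h.1 (not_lt.2 hz)
        · exact absurd h.2 (not_lt.2 hz)

end Vale.Agent.P112.H694.Gen
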