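import Vale.Agent.P112.T.Basic
import Vale.Agent.P112.H213.Band
import Vale.Agent.P112.H694.RSGenOp

/-!
P112: from the restricted bound with logarithmic gain on one strip to `BandBound`.
-/

namespace Vale.Agent.P112.H694.BO

open MeasureTheory Set Filter Topology
open Vale.Agent.P112.T Vale.Agent.P112.H694 Vale.Agent.P112.H694.Gen
open scoped ENNReal

variable {M : ℕ}

/-- The sum of the first `n` scales. -/
noncomputable def Tn (κ : Ker M) (u : ℝ × ℝ → ℝ) (n : ℕ) (f : ℝ × ℝ → ℝ) (z : ℝ × ℝ) : ℝ :=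
  ∑ j ∈ Finset.range n, κ.T u j f z

theorem integrable_kf (κ : Ker M) (j : ℕ) (v : ℝ) (z : ℝ × ℝ) {f : ℝ × ℝ → ℝ} (hf : Nice f) :
    Integrable fun ζ => κ.k j v z ζ * f ζ := by
  obtain ⟨D, hD, hk⟩ := κ.k_bdd
  exact hf.integrable.bdd_mul (κ.k_continuous j v z).aestronglyMeasurable
    (Eventually.of_forall fun ζ => by simpa using hk j v z ζ)

theorem T_add (κ : Ker M) (u : ℝ × ℝ → ℝ) (j : ℕ) {f f' : ℝ × ℝ → ℝ} (hf : Nice f)
    (hf' : Nice f') (z : ℝ × ℝ) :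
    κ.T u j (fun x => f x + f' x) z = κ.T u j f z + κ.T u j f' z := by
  unfold Ker.T
  rw [← integral_add (integrable_kf κ j _ z hf) (integrable_kf κ j _ z hf')]
  exact integral_congr_ae (Eventually.of_forall fun ζ => mul_add _ _ _)

theorem T_mul (κ : Ker M) (u : ℝ × ℝ → ℝ) (j : ℕ) (c : ℝ) (f : ℝ × ℝ → ℝ) (z : ℝ × ℝ) :
    κ.T u j (fun x => c * f x) z = c * κ.T u j f z := by
  unfold Ker.T
  rw [← integral_const_mul]
  exact integral_congr_ae (Eventually.of_forall fun ζ => by ring)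

theorem T_meas (κ : Ker M) {u : ℝ × ℝ → ℝ} (hu : Measurable u) (j : ℕ) {f : ℝ × ℝ → ℝ}
    (hf : Nice f) : Measurable (κ.T u j f) := by
  have h : StronglyMeasurable fun p : (ℝ × ℝ) × (ℝ × ℝ) => κ.k j (u p.1) p.1 p.2 * f p.2 :=
    ((κ.k_measurable hu j).mul (hf.meas.comp measurable_snd)).stronglyMeasurable
  exact h.integral_prod_right'.measurable

theorem Tn_meas (κ : Ker M) {u : ℝ × ℝ → ℝ} (hu : Measurable u) (n : ℕ) {f : ℝ × ℝ → ℝ}
    (hf : Nice f) : Measurable (Tn κ u n f) :=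
  Finset.measurable_fun_sum _ fun j _ => T_meas κ hu j hf

theorem Tn_add (κ : Ker M) (u : ℝ × ℝ → ℝ) (n : ℕ) {f f' : ℝ × ℝ → ℝ} (hf : Nice f)
    (hf' : Nice f') (z : ℝ × ℝ) :
    Tn κ u n (fun x => f x + f' x) z = Tn κ u n f z + Tn κ u n f' z := by
  unfold Tn
  rw [← Finset.sum_add_distrib]
  exact Finset.sum_congr rfl fun j _ => T_add κ u j hf hf' z

theorem Tn_mul (κ : Ker M) (u : ℝ × ℝ → ℝ) (n : ℕ) (c : ℝ) (f : ℝ × ℝ → ℝ) (z : ℝ × ℝ) :
    Tn κ u n (fun x => c * f x) z = c * Tn κ u n f z := by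
  unfold Tn
  rw [Finset.mul_sum]
  exact Finset.sum_congr rfl fun j _ => T_mul κ u j c f z

/-- the box `|x| ≤ 1`, `|y| ≤ 1 + U` -/
def Box (U : ℝ) : Set (ℝ × ℝ) := Icc (-1) 1 ×ˢ Icc (-(1 + U)) (1 + U)

theorem Box_meas (U : ℝ) : MeasurableSet (Box U) := measurableSet_Icc.prod measurableSet_Icc

theorem Box_vol {U : ℝ} : volume (Box U) = ENNReal.ofReal (4 * (1 + U)) := by
  rw [Box, Measure.volume_eq_prod, Measure.prod_prod, Real.volume_Icc, Real.volume_Icc,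
    ← ENNReal.ofReal_mul (by norm_num)]
  congr 1; ring

theorem k_le_box (κ : Ker M) : ∃ D : ℝ, 0 < D ∧ ∀ (u : ℝ × ℝ → ℝ) (U : ℝ), (∀ z, |u z| ≤ U) →
    ∀ (j : ℕ) (z ζ : ℝ × ℝ),
    |κ.k j (u z) z ζ| ≤ D * 2 ^ j * (Box U).indicator (fun _ => (1:ℝ)) (z - ζ) := by
  obtain ⟨D, hD, hk⟩ := κ.k_bdd
  refine ⟨D, hD, fun u U hU j z ζ => ?_⟩
  by_cases h0 : κ.k j (u z) z ζ = 0
  · rw [h0, abs_zero]
    exact mul_nonneg (by positivity) (indicator_nonneg (fun _ _ => zero_le_one) _)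
  · obtain ⟨hx, hy⟩ := κ.k_supp h0
    have hx' : |z.1 - ζ.1| ≤ 1 := by
      refine hx.trans ?_
      rw [div_le_one (by positivity)]
      have : (1 : ℝ) ≤ 2 ^ j := one_le_pow₀ (by norm_num)
      linarith
    have hxu : |(z.1 - ζ.1) * u z| ≤ U := by
      rw [abs_mul]
      calc |z.1 - ζ.1| * |u z| ≤ 1 * U :=
            mul_le_mul hx' (hU z) (abs_nonneg _) zero_le_one
        _ = U := one_mul U
    have hmem : z - ζ ∈ Box U := by
      refine ⟨?_, ?_⟩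
      · show (z - ζ).1 ∈ Icc (-1:ℝ) 1
        rw [mem_Icc, ← abs_le]; exact hx'
      · show (z - ζ).2 ∈ Icc (-(1+U)) (1+U)
        rw [mem_Icc, ← abs_le]
        show |z.2 - ζ.2| ≤ 1 + U
        have e : z.2 - ζ.2 = (z.2 - ζ.2 - (z.1 - ζ.1) * u z) + (z.1 - ζ.1) * u z := by ring
        rw [e]
        exact (abs_add_le _ _).trans (add_le_add hy hxu)
    rw [indicator_of_mem hmem, mul_one]
    exact hk j _ z ζ

/-- Cauchy–Schwarz with a weight. -/
theorem lcs {α : Type*} [MeasurableSpace α] (μ : Measure α) (w g : α → ℝ≥0∞)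
    (hw : Measurable w) (hg : Measurable g) :
    (∫⁻ x, w x * g x ∂μ) ^ 2 ≤ (∫⁻ x, w x ∂μ) * ∫⁻ x, w x * g x ^ 2 ∂μ := by
  have h := ENNReal.lintegral_mul_le_Lp_mul_Lq μ (Real.HolderConjugate.two_two)
    (f := fun x => w x ^ (1 / 2 : ℝ)) (g := fun x => w x ^ (1 / 2 : ℝ) * g x)
    (hw.pow_const _).aemeasurable ((hw.pow_const _).mul hg).aemeasurable
  have e0 : ∀ x, w x ^ (1 / 2 : ℝ) * w x ^ (1 / 2 : ℝ) = w x := by
    intro x
    rw [← ENNReal.rpow_add_of_nonneg _ _ (by norm_num) (by norm_num)]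
    norm_num
  have e1 : ∀ x, (((fun x => w x ^ (1 / 2 : ℝ)) * fun x => w x ^ (1 / 2 : ℝ) * g x) : α → ℝ≥0∞) x
      = w x * g x := by
    intro x
    simp only [Pi.mul_apply]
    rw [← mul_assoc, e0]
  have e2 : ∀ x, (w x ^ (1 / 2 : ℝ)) ^ (2 : ℝ) = w x := by
    intro x
    rw [← ENNReal.rpow_mul]; norm_num
  have e3 : ∀ x, (w x ^ (1 / 2 : ℝ) * g x) ^ (2 : ℝ) = w x * g x ^ 2 := by
    intro x
    rw [ENNReal.mul_rpow_of_nonneg _ _ (by norm_num), e2, ENNReal.rpow_two]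
  rw [lintegral_congr e1] at h
  simp only [e2, e3] at h
  calc (∫⁻ x, w x * g x ∂μ) ^ 2
      ≤ ((∫⁻ x, w x ∂μ) ^ (1 / 2 : ℝ) * (∫⁻ x, w x * g x ^ 2 ∂μ) ^ (1 / 2 : ℝ)) ^ 2 := by
        gcongr
    _ = (∫⁻ x, w x ∂μ) * ∫⁻ x, w x * g x ^ 2 ∂μ := by
        rw [mul_pow, ← ENNReal.rpow_two, ← ENNReal.rpow_two, ← ENNReal.rpow_mul,
          ← ENNReal.rpow_mul]
        norm_num

/-- The crude bound of one scale. -/
theorem T_crude (κ : Ker M) {u : ℝ × ℝ → ℝ} (hu : Field u) (j : ℕ) :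
    ∃ c : ℝ≥0∞, c ≠ ⊤ ∧ ∀ f, Nice f →
      ∫⁻ z, ‖κ.T u j f z‖ₑ ^ 2 ≤ c * ∫⁻ z, ‖f z‖ₑ ^ 2 := by
  obtain ⟨D, hD, hk⟩ := k_le_box κ
  obtain ⟨U, hU⟩ := hu.bdd
  have hU0 : 0 ≤ U := (abs_nonneg _).trans (hU 0)
  have hk := hk u U hU j
  set w : ℝ × ℝ → ℝ≥0∞ := (Box U).indicator fun _ => 1 with hw
  have hwm : Measurable w := measurable_const.indicator (Box_meas U)
  have hwi : ∫⁻ ζ, w ζ = volume (Box U) := by
    rw [hw, lintegral_indicator_const (Box_meas U), one_mul]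
  have hwf : volume (Box U) ≠ ⊤ := by rw [Box_vol]; exact ENNReal.ofReal_ne_top
  set D' : ℝ≥0∞ := ENNReal.ofReal (D * 2 ^ j) with hD'
  refine ⟨D' ^ 2 * (volume (Box U) * volume (Box U)), ?_, fun f hf => ?_⟩
  · exact ENNReal.mul_ne_top (ENNReal.pow_ne_top ENNReal.ofReal_ne_top)
      (ENNReal.mul_ne_top hwf hwf)
  have hfm : Measurable fun ζ => ‖f ζ‖ₑ := hf.meas.enorm
  have h1 : ∀ z, ‖κ.T u j f z‖ₑ ≤ D' * ∫⁻ ζ, w (z - ζ) * ‖f ζ‖ₑ := by
    intro z
    unfold Ker.T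
    refine (enorm_integral_le_lintegral_enorm _).trans ?_
    rw [← lintegral_const_mul' _ _ ENNReal.ofReal_ne_top]
    refine lintegral_mono fun ζ => ?_
    show ‖κ.k j (u z) z ζ * f ζ‖ₑ ≤ D' * (w (z - ζ) * ‖f ζ‖ₑ)
    rw [enorm_mul, ← mul_assoc]
    gcongr
    rw [Real.enorm_eq_ofReal_abs]
    refine (ENNReal.ofReal_le_ofReal (hk z ζ)).trans ?_
    rw [ENNReal.ofReal_mul (by positivity)]
    gcongr
    by_cases h : z - ζ ∈ Box U
    · rw [indicator_of_mem h, hw, indicator_of_mem h, ENNReal.ofReal_one]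
    · rw [indicator_of_notMem h, hw, indicator_of_notMem h, ENNReal.ofReal_zero]
  have hws : ∀ z, Measurable fun ζ : ℝ × ℝ => w (z - ζ) := fun z =>
    hwm.comp (measurable_const.sub measurable_id)
  have h2 : ∀ z, ‖κ.T u j f z‖ₑ ^ 2 ≤
      D' ^ 2 * (volume (Box U) * ∫⁻ ζ, w (z - ζ) * ‖f ζ‖ₑ ^ 2) := by
    intro z
    calc ‖κ.T u j f z‖ₑ ^ 2 ≤ (D' * ∫⁻ ζ, w (z - ζ) * ‖f ζ‖ₑ) ^ 2 := by gcongr; exact h1 z
      _ = D' ^ 2 * (∫⁻ ζ, w (z - ζ) * ‖f ζ‖ₑ) ^ 2 := mul_pow _ _ _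
      _ ≤ D' ^ 2 * ((∫⁻ ζ, w (z - ζ)) * ∫⁻ ζ, w (z - ζ) * ‖f ζ‖ₑ ^ 2) := by
          gcongr
          exact lcs volume _ _ (hws z) hfm
      _ = _ := by
          rw [lintegral_sub_left_eq_self w z, hwi]
  calc ∫⁻ z, ‖κ.T u j f z‖ₑ ^ 2
      ≤ ∫⁻ z, D' ^ 2 * (volume (Box U) * ∫⁻ ζ, w (z - ζ) * ‖f ζ‖ₑ ^ 2) := lintegral_mono h2
    _ = D' ^ 2 * (volume (Box U) * ∫⁻ z, ∫⁻ ζ, w (z - ζ) * ‖f ζ‖ₑ ^ 2) := by
        rw [lintegral_const_mul' _ _ (ENNReal.pow_ne_top ENNReal.ofReal_ne_top),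
          lintegral_const_mul' _ _ hwf]
    _ = D' ^ 2 * (volume (Box U) * ∫⁻ ζ, ∫⁻ z, w (z - ζ) * ‖f ζ‖ₑ ^ 2) := by
        congr 2
        refine lintegral_lintegral_swap ?_
        have : Measurable fun p : (ℝ × ℝ) × (ℝ × ℝ) => w (p.1 - p.2) * ‖f p.2‖ₑ ^ 2 :=
          (hwm.comp (measurable_fst.sub measurable_snd)).mul
            ((hfm.comp measurable_snd).pow_const 2)
        exact this.aemeasurable
    _ = D' ^ 2 * (volume (Box U) * ∫⁻ ζ, volume (Box U) * ‖f ζ‖ₑ ^ 2) := by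
        congr 2
        refine lintegral_congr fun ζ => ?_
        have hwz : Measurable fun z : ℝ × ℝ => w (z - ζ) :=
          hwm.comp (measurable_id.sub measurable_const)
        rw [lintegral_mul_const _ hwz, lintegral_sub_right_eq_self w ζ, hwi]
    _ = _ := by
        rw [lintegral_const_mul' _ _ hwf]
        ring

theorem enorm_sq_ofReal (x : ℝ) : ‖x‖ₑ ^ 2 = ENNReal.ofReal (x ^ 2) := by
  rw [Real.enorm_eq_ofReal_abs, ← ENNReal.ofReal_pow (abs_nonneg _), sq_abs]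

theorem Nice.memLp2 {f : ℝ × ℝ → ℝ} (hf : Nice f) : ∫⁻ z, ‖f z‖ₑ ^ 2 =
    ENNReal.ofReal (∫ z, f z ^ 2) := by
  rw [ofReal_integral_eq_lintegral_ofReal hf.sq.integrable
    (Eventually.of_forall fun _ => sq_nonneg _)]
  exact lintegral_congr fun z => enorm_sq_ofReal _

/-- The crude bound of the sum of the scales. -/
theorem Tn_crude (κ : Ker M) {u : ℝ × ℝ → ℝ} (hu : Field u) (n : ℕ) :
    ∃ K : ℝ, 0 ≤ K ∧ ∀ f, Nice f →
      ∫⁻ z, ENNReal.ofReal (Tn κ u n f z ^ 2) ≤ ENNReal.ofReal (K ^ 2 * ∫ z, f z ^ 2) := by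
  choose c hc hcf using fun j => T_crude κ hu j
  set C : ℝ≥0∞ := n * ∑ j ∈ Finset.range n, c j with hC
  have hC' : C ≠ ⊤ := ENNReal.mul_ne_top (by simp) (ENNReal.sum_ne_top.2 fun j _ => hc j)
  refine ⟨√C.toReal, Real.sqrt_nonneg _, fun f hf => ?_⟩
  rw [Real.sq_sqrt ENNReal.toReal_nonneg, ENNReal.ofReal_mul ENNReal.toReal_nonneg,
    ENNReal.ofReal_toReal hC', ← Nice.memLp2 hf]
  have h1 : ∀ z, ENNReal.ofReal (Tn κ u n f z ^ 2) ≤
      n * ∑ j ∈ Finset.range n, ‖κ.T u j f z‖ₑ ^ 2 := by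
    intro z
    have h2 : Tn κ u n f z ^ 2 ≤ n * ∑ j ∈ Finset.range n, κ.T u j f z ^ 2 := by
      unfold Tn
      have := sq_sum_le_card_mul_sum_sq (s := Finset.range n) (f := fun j => κ.T u j f z)
      simpa using this
    refine (ENNReal.ofReal_le_ofReal h2).trans (le_of_eq ?_)
    rw [ENNReal.ofReal_mul (by positivity), ENNReal.ofReal_natCast,
      ENNReal.ofReal_sum_of_nonneg fun j _ => sq_nonneg _]
    congr 1
    exact Finset.sum_congr rfl fun j _ => (enorm_sq_ofReal _).symm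
  calc ∫⁻ z, ENNReal.ofReal (Tn κ u n f z ^ 2)
      ≤ ∫⁻ z, n * ∑ j ∈ Finset.range n, ‖κ.T u j f z‖ₑ ^ 2 := lintegral_mono h1
    _ = n * ∑ j ∈ Finset.range n, ∫⁻ z, ‖κ.T u j f z‖ₑ ^ 2 := by
        rw [lintegral_const_mul' _ _ (by simp), lintegral_finsetSum]
        intro j _
        exact (T_meas κ hu.meas j hf).enorm.pow_const 2
    _ ≤ n * ∑ j ∈ Finset.range n, c j * ∫⁻ z, ‖f z‖ₑ ^ 2 := by
        gcongr with j _
        exact hcf j f hf
    _ = C * ∫⁻ z, ‖f z‖ₑ ^ 2 := by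
        rw [hC, ← Finset.sum_mul, mul_assoc]

theorem nice_iff (f : ℝ × ℝ → ℝ) : Nice f ↔ Nice2 f :=
  ⟨fun h => ⟨h.meas, h.bdd, h.supp⟩, fun h => ⟨h.meas, h.bdd, h.supp⟩⟩

theorem cls_nice : Cls (volume : Measure (ℝ × ℝ)) Nice := by
  have : (Nice : (ℝ × ℝ → ℝ) → Prop) = Nice2 := funext fun f => propext (nice_iff f)
  rw [this]
  exact cls_nice2

theorem cls_nice_restrict (S : Set (ℝ × ℝ)) : Cls ((volume : Measure (ℝ × ℝ)).restrict S) Nice where
  bm f hf := by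
    have := cls_nice.bm f hf
    exact ⟨this.meas, this.bdd, lt_of_le_of_lt (Measure.restrict_apply_le _ _) this.supp⟩
  zero := cls_nice.zero
  add := cls_nice.add
  const_mul := cls_nice.const_mul
  ind := cls_nice.ind
  exh := cls_nice.exh

theorem isOp (κ : Ker M) {u : ℝ × ℝ → ℝ} (hu : Field u) (n : ℕ) (S : Set (ℝ × ℝ)) :
    Gen.IsOp volume ((volume : Measure (ℝ × ℝ)).restrict S) Nice (Tn κ u n) where
  add f f' hf hf' := Eventually.of_forall fun z => Tn_add κ u n hf hf' z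
  mul c f _ := Eventually.of_forall fun z => Tn_mul κ u n c f z
  meas f hf := Tn_meas κ hu.meas n hf
  crude := by
    obtain ⟨K, hK0, hK⟩ := Tn_crude κ hu n
    exact ⟨K, hK0, fun f hf => (setLIntegral_le_lintegral _ _).trans (hK f hf)⟩

/-- the unit strip -/
def strip : Set (ℝ × ℝ) := {z | z.1 ∈ Ico (0:ℝ) 1}

theorem strip_meas : MeasurableSet strip := measurable_fst measurableSet_Ico

/-- The restricted bound with logarithmic gain (weakest form): exponent `a`, `g` supported in the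
unit strip, `|f|, |g| ∈ {0} ∪ [1/2, 1]`. -/
def Restr0 (e a : ℝ) (κ : Ker M) : Prop := ∃ C : ℝ, 0 ≤ C ∧
  ∀ u : ℝ × ℝ → ℝ, Field u → (∀ x y y', |u (x, y) - u (x, y')| ≤ e * |y - y'|) →
    ∀ (n : ℕ) (f g : ℝ × ℝ → ℝ), Nice f → Nice g → (∀ z, |f z| ≤ 1) → (∀ z, |g z| ≤ 1) →
    (∀ z, f z ≠ 0 → 1 / 2 ≤ |f z|) → (∀ z, g z ≠ 0 → 1 / 2 ≤ |g z|) →
    (∀ z, g z ≠ 0 → z.1 ∈ Ico (0:ℝ) 1) →
    0 < volume (Function.support f) → 0 < volume (Function.support g) →
      |∫ z, Tn κ u n f z * g z| ≤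
        C * (√(volume.real (Function.support f)) * √(volume.real (Function.support g))) *
        (1 + |Real.log (volume.real (Function.support g) /
          volume.real (Function.support f))|) ^ (-a)

/-- The strong bound on the unit strip. -/
theorem strip_strong {a : ℝ} (ha : 1 < a) {κ : Ker M} {C : ℝ} (hC : 0 ≤ C)
    {u : ℝ × ℝ → ℝ} (hu : Field u) (n : ℕ)
    (h : ∀ (f g : ℝ × ℝ → ℝ), Nice f → Nice g → (∀ z, |f z| ≤ 1) → (∀ z, |g z| ≤ 1) →
    (∀ z, f z ≠ 0 → 1 / 2 ≤ |f z|) → (∀ z, g z ≠ 0 → 1 / 2 ≤ |g z|) →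
    (∀ z, g z ≠ 0 → z.1 ∈ Ico (0:ℝ) 1) →
    0 < volume (Function.support f) → 0 < volume (Function.support g) →
      |∫ z, Tn κ u n f z * g z| ≤
        C * (√(volume.real (Function.support f)) * √(volume.real (Function.support g))) *
        (1 + |Real.log (volume.real (Function.support g) /
          volume.real (Function.support f))|) ^ (-a))
    {f : ℝ × ℝ → ℝ} (hf : Nice f) :
    ∫⁻ z in strip, ENNReal.ofReal (Tn κ u n f z ^ 2) ≤
      ENNReal.ofReal (rsC C a ^ 2 * ∫ z, f z ^ 2) := by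
  refine (Gen.strong_of_logGain (μ := volume) (ν := volume.restrict strip) hC ha cls_nice
    (cls_nice_restrict strip) (isOp κ hu n strip) ?_ hf).2
  intro f g hf hg hf1 hg1 hf2 hg2 hF hG
  have hg' : Nice (strip.indicator g) := hg.indicator strip_meas
  have hsup : Function.support (strip.indicator g) = Function.support g ∩ strip := by
    rw [support_indicator, inter_comm]
  have hsm : MeasurableSet (Function.support g) := measurableSet_support hg.meas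
  have e1 : (volume.restrict strip) (Function.support g) =
      volume (Function.support (strip.indicator g)) := by
    rw [hsup, Measure.restrict_apply hsm]
  have e2 : (volume.restrict strip).real (Function.support g) =
      volume.real (Function.support (strip.indicator g)) := by
    rw [Measure.real, e1, Measure.real]
  have e3 : ∫ z in strip, Tn κ u n f z * g z = ∫ z, Tn κ u n f z * strip.indicator g z := by
    rw [← integral_indicator strip_meas]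
    refine integral_congr_ae (Eventually.of_forall fun z => ?_)
    show strip.indicator (fun z => Tn κ u n f z * g z) z = Tn κ u n f z * strip.indicator g z
    by_cases hz : z ∈ strip
    · rw [indicator_of_mem hz, indicator_of_mem hz]
    · rw [indicator_of_notMem hz, indicator_of_notMem hz, mul_zero]
  show |∫ z in strip, Tn κ u n f z * g z| ≤ _
  rw [e3, e2]
  rw [e1] at hG
  refine h f _ hf hg' hf1 (fun z => ?_) hf2 (fun z hz => ?_) (fun z hz => ?_) hF hG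
  · by_cases h : z ∈ strip
    · rw [indicator_of_mem h]; exact hg1 z
    · rw [indicator_of_notMem h, abs_zero]; exact zero_le_one
  · by_cases h : z ∈ strip
    · rw [indicator_of_mem h] at hz ⊢; exact hg2 z hz
    · rw [indicator_of_notMem h] at hz; exact absurd rfl hz
  · by_contra h
    rw [indicator_of_notMem (show z ∉ strip from h)] at hz
    exact hz rfl

/-! ### Translation -/

/-- the translation vector -/
def tv (m : ℤ) : ℝ × ℝ := ((m:ℝ), 0)

theorem k_shift (κ : Ker M) (j : ℕ) (v : ℝ) (z ζ a : ℝ × ℝ) :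
    κ.k j v (z + a) (ζ + a) = κ.k j v z ζ := by
  unfold Ker.k
  have h1 : (z + a).1 - (ζ + a).1 = z.1 - ζ.1 := by
    rw [Prod.fst_add, Prod.fst_add]; ring
  have h2 : (z + a).2 - (ζ + a).2 = z.2 - ζ.2 := by
    rw [Prod.snd_add, Prod.snd_add]; ring
  rw [h1, h2]

theorem T_shift (κ : Ker M) (u : ℝ × ℝ → ℝ) (j : ℕ) (f : ℝ × ℝ → ℝ) (z a : ℝ × ℝ) :
    κ.T u j f (z + a) = κ.T (fun w => u (w + a)) j (fun w => f (w + a)) z := by
  unfold Ker.T
  rw [← integral_add_right_eq_self (fun ζ => κ.k j (u (z + a)) (z + a) ζ * f ζ) a]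
  exact integral_congr_ae (Eventually.of_forall fun ζ => by
    show κ.k j (u (z + a)) (z + a) (ζ + a) * f (ζ + a) = _
    rw [k_shift])

theorem Tn_shift (κ : Ker M) (u : ℝ × ℝ → ℝ) (n : ℕ) (f : ℝ × ℝ → ℝ) (z a : ℝ × ℝ) :
    Tn κ u n f (z + a) = Tn κ (fun w => u (w + a)) n (fun w => f (w + a)) z :=
  Finset.sum_congr rfl fun j _ => T_shift κ u j f z a

theorem field_shift {u : ℝ × ℝ → ℝ} (hu : Field u) (a : ℝ × ℝ) : Field fun w => u (w + a) :=
  ⟨hu.meas.comp (measurable_id.add_const a), ⟨hu.bdd.choose, fun _ => hu.bdd.choose_spec _⟩⟩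

theorem nice_shift {f : ℝ × ℝ → ℝ} (hf : Nice f) (a : ℝ × ℝ) : Nice fun w => f (w + a) := by
  obtain ⟨C, hC⟩ := hf.bdd
  obtain ⟨r, hr⟩ := hf.supp
  refine ⟨hf.meas.comp (measurable_id.add_const a), ⟨C, fun _ => hC _⟩,
    ⟨r + |a.1| + |a.2|, fun z hz => hr _ ?_⟩⟩
  have h1 := abs_sub_abs_le_abs_sub z.1 (-a.1)
  have h2 := abs_sub_abs_le_abs_sub z.2 (-a.2)
  rw [sub_neg_eq_add, abs_neg] at h1 h2
  have h3 := abs_nonneg a.1
  have h4 := abs_nonneg a.2
  refine hz.imp (fun h => ?_) (fun h => ?_)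
  · show r ≤ |(z + a).1|
    rw [Prod.fst_add]; linarith
  · show r ≤ |(z + a).2|
    rw [Prod.snd_add]; linarith

/-- the strip number `m` -/
def str (m : ℤ) : Set (ℝ × ℝ) := {z | z.1 ∈ Ico (m:ℝ) (m + 1)}

theorem str_meas (m : ℤ) : MeasurableSet (str m) := measurable_fst measurableSet_Ico

theorem str_iff (m : ℤ) (z : ℝ × ℝ) : z ∈ str m ↔ ⌊z.1⌋ = m := by
  show z.1 ∈ Ico (m:ℝ) (m+1) ↔ _
  rw [mem_Ico, Int.floor_eq_iff]

theorem str_disj : Pairwise (Function.onFun Disjoint str) := by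
  intro m m' hne
  rw [Function.onFun, Set.disjoint_left]
  intro z h1 h2
  rw [str_iff] at h1 h2
  exact hne (h1.symm.trans h2)

theorem str_union : ⋃ m, str m = univ := by
  ext z
  simp only [mem_iUnion, mem_univ, iff_true]
  exact ⟨⌊z.1⌋, (str_iff _ _).2 rfl⟩

theorem lint_str (H : ℝ × ℝ → ℝ≥0∞) : ∫⁻ z, H z = ∑' m, ∫⁻ z in str m, H z := by
  rw [← lintegral_iUnion str_meas str_disj, str_union, Measure.restrict_univ]

theorem lint_str_shift (m : ℤ) (H : ℝ × ℝ → ℝ≥0∞) :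
    ∫⁻ z in str m, H z = ∫⁻ z in strip, H (z + tv m) := by
  rw [← lintegral_indicator (str_meas m), ← lintegral_indicator strip_meas,
    ← lintegral_add_right_eq_self _ (tv m)]
  refine lintegral_congr fun z => ?_
  by_cases hz : z ∈ strip
  · have : z + tv m ∈ str m := by
      have h : z.1 ∈ Ico (0:ℝ) 1 := hz
      show (z + tv m).1 ∈ Ico (m:ℝ) (m+1)
      rw [Prod.fst_add]
      show z.1 + (m:ℝ) ∈ Ico (m:ℝ) (m+1)
      exact ⟨by linarith [h.1], by linarith [h.2]⟩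
    rw [indicator_of_mem this, indicator_of_mem hz]
  · have : z + tv m ∉ str m := by
      intro h
      apply hz
      have h : (z + tv m).1 ∈ Ico (m:ℝ) (m+1) := h
      rw [Prod.fst_add] at h
      have h : z.1 + (m:ℝ) ∈ Ico (m:ℝ) (m+1) := h
      show z.1 ∈ Ico (0:ℝ) 1
      exact ⟨by linarith [h.1], by linarith [h.2]⟩
    rw [indicator_of_notMem this, indicator_of_notMem hz]

/-- the neighbourhood of the strip `m` -/
def nb (m : ℤ) : Set (ℝ × ℝ) := str (m-1) ∪ str m ∪ str (m+1)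

theorem nb_meas (m : ℤ) : MeasurableSet (nb m) :=
  ((str_meas _).union (str_meas _)).union (str_meas _)

theorem mem_nb {m : ℤ} {z ζ : ℝ × ℝ} (hz : z ∈ str m) (h : |z.1 - ζ.1| ≤ 1) : ζ ∈ nb m := by
  have hz' : z.1 ∈ Ico (m:ℝ) (m+1) := hz
  have h' := abs_le.1 h
  by_cases h1 : ζ.1 < m
  · left; left
    show ζ.1 ∈ Ico (((m-1:ℤ)):ℝ) (((m-1:ℤ):ℝ) + 1)
    push_cast
    exact ⟨by linarith [hz'.1, h'.2], by linarith⟩
  · by_cases h2 : ζ.1 < m + 1
    · left; right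
      exact ⟨not_lt.1 h1, h2⟩
    · right
      show ζ.1 ∈ Ico (((m+1:ℤ)):ℝ) (((m+1:ℤ):ℝ) + 1)
      push_cast
      exact ⟨not_lt.1 h2, by linarith [hz'.2, h'.1]⟩

theorem T_local (κ : Ker M) (u : ℝ × ℝ → ℝ) (j : ℕ) (f : ℝ × ℝ → ℝ) {m : ℤ} {z : ℝ × ℝ}
    (hz : z ∈ str m) : κ.T u j f z = κ.T u j ((nb m).indicator f) z := by
  unfold Ker.T
  refine integral_congr_ae (Eventually.of_forall fun ζ => ?_)
  show κ.k j (u z) z ζ * f ζ = κ.k j (u z) z ζ * (nb m).indicator f ζ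
  by_cases h0 : κ.k j (u z) z ζ = 0
  · rw [h0, zero_mul, zero_mul]
  · obtain ⟨hx, _⟩ := κ.k_supp h0
    have hx' : |z.1 - ζ.1| ≤ 1 := by
      refine hx.trans ?_
      rw [div_le_one (by positivity)]
      have : (1 : ℝ) ≤ 2 ^ j := one_le_pow₀ (by norm_num)
      linarith
    rw [indicator_of_mem (mem_nb hz hx')]

/-- The strong bound on the whole plane. -/
theorem plane_strong {e a : ℝ} (ha : 1 < a) {κ : Ker M} {C : ℝ} (hC : 0 ≤ C)
    (h : ∀ u : ℝ × ℝ → ℝ, Field u → (∀ x y y', |u (x, y) - u (x, y')| ≤ e * |y - y'|) →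
    ∀ (n : ℕ) (f g : ℝ × ℝ → ℝ), Nice f → Nice g → (∀ z, |f z| ≤ 1) → (∀ z, |g z| ≤ 1) →
    (∀ z, f z ≠ 0 → 1 / 2 ≤ |f z|) → (∀ z, g z ≠ 0 → 1 / 2 ≤ |g z|) →
    (∀ z, g z ≠ 0 → z.1 ∈ Ico (0:ℝ) 1) →
    0 < volume (Function.support f) → 0 < volume (Function.support g) →
      |∫ z, Tn κ u n f z * g z| ≤
        C * (√(volume.real (Function.support f)) * √(volume.real (Function.support g))) *
        (1 + |Real.log (volume.real (Function.support g) /
          volume.real (Function.support f))|) ^ (-a))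
    {u : ℝ × ℝ → ℝ} (hu : Field u) (hlip : ∀ x y y', |u (x, y) - u (x, y')| ≤ e * |y - y'|)
    (n : ℕ) {f : ℝ × ℝ → ℝ} (hf : Nice f) :
    ∫⁻ z, ENNReal.ofReal (Tn κ u n f z ^ 2) ≤
      ENNReal.ofReal (3 * rsC C a ^ 2 * ∫ z, f z ^ 2) := by
  have key : ∀ m : ℤ, ∫⁻ z in str m, ENNReal.ofReal (Tn κ u n f z ^ 2) ≤
      ENNReal.ofReal (rsC C a ^ 2) * ∫⁻ z in nb m, ENNReal.ofReal (f z ^ 2) := by
    intro m
    have e1 : ∫⁻ z in str m, ENNReal.ofReal (Tn κ u n f z ^ 2) =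
        ∫⁻ z in str m, ENNReal.ofReal (Tn κ u n ((nb m).indicator f) z ^ 2) := by
      refine setLIntegral_congr_fun (str_meas m) fun z hz => ?_
      show ENNReal.ofReal (Tn κ u n f z ^ 2) = ENNReal.ofReal (Tn κ u n ((nb m).indicator f) z ^ 2)
      have : Tn κ u n f z = Tn κ u n ((nb m).indicator f) z :=
        Finset.sum_congr rfl fun j _ => T_local κ u j f hz
      rw [this]
    have hfi : Nice ((nb m).indicator f) := hf.indicator (nb_meas m)
    rw [e1, lint_str_shift]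
    simp only [Tn_shift]
    have hs := strip_strong ha hC (field_shift hu (tv m)) n
      (h _ (field_shift hu (tv m)) (fun x y y' => by
        have := hlip (x + m) y y'
        simpa [tv] using this) n) (nice_shift hfi (tv m))
    refine hs.trans (le_of_eq ?_)
    rw [ENNReal.ofReal_mul (sq_nonneg _)]
    congr 1
    have e2 : ∫ z, (nb m).indicator f (z + tv m) ^ 2 = ∫ z, (nb m).indicator f z ^ 2 :=
      integral_add_right_eq_self (fun z => (nb m).indicator f z ^ 2) (tv m)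
    rw [e2, ofReal_integral_eq_lintegral_ofReal hfi.sq.integrable
      (Eventually.of_forall fun _ => sq_nonneg _), ← lintegral_indicator (nb_meas m)]
    refine lintegral_congr fun z => ?_
    by_cases hz : z ∈ nb m
    · rw [indicator_of_mem hz, indicator_of_mem hz]
    · rw [indicator_of_notMem hz, indicator_of_notMem hz]; simp
  have hnb : ∀ m : ℤ, ∫⁻ z in nb m, ENNReal.ofReal (f z ^ 2) ≤
      (∫⁻ z in str (m-1), ENNReal.ofReal (f z ^ 2)) + (∫⁻ z in str m, ENNReal.ofReal (f z ^ 2)) +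
      ∫⁻ z in str (m+1), ENNReal.ofReal (f z ^ 2) := by
    intro m
    refine (lintegral_union_le _ _ _).trans ?_
    gcongr
    exact lintegral_union_le _ _ _
  have hsum : ∑' m : ℤ, ∫⁻ z in nb m, ENNReal.ofReal (f z ^ 2) ≤
      3 * ∫⁻ z, ENNReal.ofReal (f z ^ 2) := by
    refine (ENNReal.tsum_le_tsum hnb).trans (le_of_eq ?_)
    rw [ENNReal.tsum_add, ENNReal.tsum_add]
    have s1 : ∑' m : ℤ, ∫⁻ z in str (m-1), ENNReal.ofReal (f z ^ 2) =
        ∑' m : ℤ, ∫⁻ z in str m, ENNReal.ofReal (f z ^ 2) :=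
      (Equiv.subRight (1:ℤ)).tsum_eq (fun m => ∫⁻ z in str m, ENNReal.ofReal (f z ^ 2))
    have s2 : ∑' m : ℤ, ∫⁻ z in str (m+1), ENNReal.ofReal (f z ^ 2) =
        ∑' m : ℤ, ∫⁻ z in str m, ENNReal.ofReal (f z ^ 2) :=
      (Equiv.addRight (1:ℤ)).tsum_eq (fun m => ∫⁻ z in str m, ENNReal.ofReal (f z ^ 2))
    rw [s1, s2, ← lint_str]
    ring
  calc ∫⁻ z, ENNReal.ofReal (Tn κ u n f z ^ 2)
      = ∑' m, ∫⁻ z in str m, ENNReal.ofReal (Tn κ u n f z ^ 2) := lint_str _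
    _ ≤ ∑' m : ℤ, ENNReal.ofReal (rsC C a ^ 2) * ∫⁻ z in nb m, ENNReal.ofReal (f z ^ 2) :=
        ENNReal.tsum_le_tsum key
    _ = ENNReal.ofReal (rsC C a ^ 2) * ∑' m : ℤ, ∫⁻ z in nb m, ENNReal.ofReal (f z ^ 2) :=
        ENNReal.tsum_mul_left
    _ ≤ ENNReal.ofReal (rsC C a ^ 2) * (3 * ∫⁻ z, ENNReal.ofReal (f z ^ 2)) := by gcongr
    _ = ENNReal.ofReal (3 * rsC C a ^ 2 * ∫ z, f z ^ 2) := by
        rw [← ofReal_integral_eq_lintegral_ofReal hf.sq.integrable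
          (Eventually.of_forall fun _ => sq_nonneg _)]
        rw [ENNReal.ofReal_mul (by positivity), ENNReal.ofReal_mul (by norm_num)]
        rw [show ENNReal.ofReal 3 = 3 by norm_num]
        ring

theorem nice_of_cc {F : ℝ × ℝ → ℝ} (hF : Continuous F) (hc : HasCompactSupport F) : Nice F := by
  obtain ⟨C, hC⟩ := hc.exists_bound_of_continuous hF
  obtain ⟨R, hR⟩ := hc.isBounded.subset_closedBall (0 : ℝ × ℝ)
  refine ⟨hF.measurable, ⟨C, fun z => by simpa using hC z⟩, ⟨|R| + 1, fun z hz => ?_⟩⟩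
  by_contra hne
  have h1 : z ∈ Metric.closedBall (0 : ℝ × ℝ) R := hR (subset_tsupport _ hne)
  rw [mem_closedBall_zero_iff, Prod.norm_def, max_le_iff] at h1
  have := le_abs_self R
  rcases hz with hz | hz
  · have := h1.1; rw [Real.norm_eq_abs] at this; linarith
  · have := h1.2; rw [Real.norm_eq_abs] at this; linarith

/-- [BAND-OUT]: the restricted bound with logarithmic gain on one strip gives the band bound. -/
theorem bandBound_of_restr0 {e a : ℝ} (ha : 1 < a) (h : ∀ κ : Ker M, Restr0 e a κ) :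
    DEC.BandBound e M := by
  intro κ
  obtain ⟨C, hC, hR⟩ := h κ
  refine ⟨√3 * rsC C a, mul_nonneg (Real.sqrt_nonneg _) (rsC_nonneg hC), ?_⟩
  intro u hu hub hlip n F hF hFc
  have hfield : Field u := ⟨hu.measurable, hub⟩
  have hN : Nice F := nice_of_cc hF hFc
  have h1 := plane_strong ha hC hR hfield hlip n hN
  have h0 : 0 ≤ 3 * rsC C a ^ 2 * ∫ z, F z ^ 2 := by
    have : 0 ≤ ∫ z, F z ^ 2 := integral_nonneg fun _ => sq_nonneg _
    positivity
  have e1 : (√3 * rsC C a) ^ 2 = 3 * rsC C a ^ 2 := by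
    rw [mul_pow, Real.sq_sqrt (by norm_num)]
  rw [e1]
  show ∫ z, Tn κ u n F z ^ 2 ≤ _
  rw [integral_eq_lintegral_of_nonneg_ae (Eventually.of_forall fun _ => sq_nonneg _)
    ((Tn_meas κ hfield.meas n hN).pow_const 2).aestronglyMeasurable]
  exact ENNReal.toReal_le_of_le_ofReal h0 h1

end Vale.Agent.P112.H694.BO
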