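import Vale.Agent.P112.H213.Bk
import Vale.Agent.P112.H694.BandOut

/-!
P112: Stein's conjecture from the restricted bound with logarithmic gain on one strip.
-/

namespace Vale.Agent.P112.H694.BO

open MeasureTheory Vale.Agent.P112
open scoped NNReal

/-- The whole chain: the restricted bound (one band, one strip, exponent `a > 1`, any number `M`
of vanishing moments, any Lipschitz constant `e ≤ 1/2`) implies Stein's conjecture. -/
theorem stein_of_restr0 {e : ℝ≥0} (he0 : 0 < e) (he : (e : ℝ) ≤ 1 / 2) {M : ℕ} {a : ℝ}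
    (ha : 1 < a) (h : ∀ κ : T.Ker M, Restr0 (e : ℝ) a κ) :
    ∃ C : ℝ, 0 < C ∧ ∀ v : Plane → Plane, (∀ x, ‖v x‖ = 1) → LipschitzWith 1 v →
      ∀ a : ℝ, 0 < a → a ≤ 1 → StrongType v a C ∧ WeakType v a C :=
  DEC.stein_of_band he0 he (bandBound_of_restr0 ha h)

end Vale.Agent.P112.H694.BO
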