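import Vale.Agent.P112.H694.BandOut
import Vale.Agent.P112.H694.Sup
import Vale.Agent.P112.H694.Acc
import Vale.Agent.P112.H526.R0P
import Vale.Agent.P112.H314.Long
import Vale.Agent.P112.H889.Comp
import Vale.Agent.P112.H587.LL.Dec

/-!
# P112, [LL] (LL1): the band bound with the loss `1 + log (n + 1)`

`|∫ Tn f g| ≤ C √(|F| |G|)` ((R0), unconditional), `≤ n C |F|` and `≤ n C |G|` (trivial); with
`r = log |G| - log |F|` these give the restricted bound with the gain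
`min 1 ((n + 1) 2^(-|r|/2))`, whose sum over `r` is `≤ C (1 + log (n + 1))`; then the
restricted-to-strong theorem.
-/

namespace Vale.Agent.P112.H694.LL1

open MeasureTheory Set Filter Topology
open Vale.Agent.P112.T Vale.Agent.P112.F30 Vale.Agent.P112.H694 Vale.Agent.P112.H694.Gen
open Vale.Agent.P112.H694.BO
open scoped ENNReal

variable {M : ℕ}

/-- the operator of one scale is bounded on `L^∞` (any measurable field) -/
theorem T_le (κ : Ker M) : ∃ D : ℝ, 0 ≤ D ∧ ∀ (u : ℝ × ℝ → ℝ) (j : ℕ) (f : ℝ × ℝ → ℝ),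
    (∀ z, |f z| ≤ 1) → ∀ z, |κ.T u j f z| ≤ D := by
  obtain ⟨D, hD, hk⟩ := κ.k_bdd
  refine ⟨D, hD.le, fun u j f hf1 z => ?_⟩
  set a : ℝ := 1 / (8 * 2 ^ j) with ha
  have ha0 : 0 < a := by rw [ha]; positivity
  set W : Set (ℝ × ℝ) := {ζ : ℝ × ℝ | |ζ.1 - z.1| ≤ a ∧ |ζ.2 - (z.2 + u z * (ζ.1 - z.1))| ≤ 1}
    with hW
  have hWm : MeasurableSet W := by
    have h1 : Measurable fun ζ : ℝ × ℝ => |ζ.1 - z.1| := by fun_prop
    have h2 : Measurable fun ζ : ℝ × ℝ => |ζ.2 - (z.2 + u z * (ζ.1 - z.1))| := by fun_prop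
    exact (measurableSet_le h1 measurable_const).inter (measurableSet_le h2 measurable_const)
  have hWv : volume W = ENNReal.ofReal (2 * a) * ENNReal.ofReal (2 * 1) :=
    volume_tube z.1 z.2 (u z) a 1
  have hWf : volume W ≠ ⊤ := by
    rw [hWv]; exact ENNReal.mul_ne_top ENNReal.ofReal_ne_top ENNReal.ofReal_ne_top
  have hWr : volume.real W = 2 * a * (2 * 1) := by
    rw [Measure.real, hWv, ENNReal.toReal_mul, ENNReal.toReal_ofReal (by positivity),
      ENNReal.toReal_ofReal (by positivity)]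
  have h1 : ∀ ζ, |κ.k j (u z) z ζ * f ζ| ≤ W.indicator (fun _ => D * 2 ^ j) ζ := by
    intro ζ
    by_cases h0 : κ.k j (u z) z ζ = 0
    · rw [h0, zero_mul, abs_zero]
      exact indicator_nonneg (fun _ _ => by positivity) _
    · obtain ⟨hx, hy⟩ := κ.k_supp h0
      have hm : ζ ∈ W := by
        refine ⟨?_, ?_⟩
        · rw [abs_sub_comm]; exact hx
        · have e : ζ.2 - (z.2 + u z * (ζ.1 - z.1)) = -(z.2 - ζ.2 - (z.1 - ζ.1) * u z) := by ring
          rw [e, abs_neg]; exact hy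
      rw [indicator_of_mem hm, abs_mul]
      calc |κ.k j (u z) z ζ| * |f ζ| ≤ D * 2 ^ j * 1 :=
            mul_le_mul (hk j _ z ζ) (hf1 ζ) (abs_nonneg _) (by positivity)
        _ = D * 2 ^ j := mul_one _
  have h2 : Integrable (W.indicator fun _ : ℝ × ℝ => D * 2 ^ j) :=
    (integrable_indicator_iff hWm).2 (integrableOn_const hWf)
  unfold Ker.T
  calc |∫ ζ, κ.k j (u z) z ζ * f ζ| ≤ ∫ ζ, W.indicator (fun _ => D * 2 ^ j) ζ := by
        have := norm_integral_le_of_norm_le h2 (Eventually.of_forall fun ζ => by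
          rw [Real.norm_eq_abs]; exact h1 ζ)
        rwa [Real.norm_eq_abs] at this
    _ = volume.real W * (D * 2 ^ j) := by
        rw [integral_indicator_const _ hWm, smul_eq_mul]
    _ = D / 2 := by
        rw [hWr, ha]; field_simp; ring
    _ ≤ D := by linarith

/-- the pairing of `Tn` -/
theorem int_Tn' (κ : Ker M) {u : ℝ × ℝ → ℝ} (hu : Field u) {f g : ℝ × ℝ → ℝ} (hf : Nice f)
    (hg : Nice g) (n : ℕ) :
    ∫ z, Tn κ u n f z * g z = ∫ ζ, (∑ j ∈ Finset.range n, κ.S u j g ζ) * f ζ := by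
  rw [H889.int_Tn κ hu hf hg n]
  have h1 : ∀ ζ, (∑ j ∈ Finset.range n, κ.S u j g ζ) * f ζ =
      ∑ j ∈ Finset.range n, κ.S u j g ζ * f ζ := fun ζ => Finset.sum_mul _ _ _
  simp_rw [h1]
  rw [integral_finsetSum _ fun j _ => ((κ.S_nice hu j hg).mul hf).integrable]
  exact Finset.sum_congr rfl fun j _ => (κ.integral_S_mul' hu j hg hf).symm

/-- `|∫ h f| ≤ sup |h| · |supp f|` -/
theorem int_le_supp {h f : ℝ × ℝ → ℝ} {C : ℝ} (hC : 0 ≤ C) (hh : ∀ z, |h z| ≤ C) (hf : Nice f)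
    (hf1 : ∀ z, |f z| ≤ 1) : |∫ z, h z * f z| ≤ C * volume.real (Function.support f) := by
  have hm : MeasurableSet (Function.support f) := measurableSet_support hf.meas
  have hfin : volume (Function.support f) ≠ ⊤ := (cls_nice.bm f hf).supp.ne
  have h2 : Integrable ((Function.support f).indicator fun _ : ℝ × ℝ => C) :=
    (integrable_indicator_iff hm).2 (integrableOn_const hfin)
  calc |∫ z, h z * f z| ≤ ∫ z, (Function.support f).indicator (fun _ => C) z := by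
        have := norm_integral_le_of_norm_le h2 (Eventually.of_forall fun z => by
          show ‖h z * f z‖ ≤ _
          by_cases hz : z ∈ Function.support f
          · rw [indicator_of_mem hz, norm_mul, Real.norm_eq_abs, Real.norm_eq_abs]
            calc |h z| * |f z| ≤ C * 1 := mul_le_mul (hh z) (hf1 z) (abs_nonneg _) hC
              _ = C := mul_one C
          · rw [indicator_of_notMem hz, Function.notMem_support.1 hz, mul_zero, norm_zero])
        rwa [Real.norm_eq_abs] at this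
    _ = C * volume.real (Function.support f) := by
        rw [integral_indicator_const _ hm, smul_eq_mul, mul_comm]

/-- the gain -/
noncomputable def ps (n : ℕ) (r : ℤ) : ℝ := min 1 (2 * (n + 1) * (3 / 4) ^ r.natAbs)

theorem ps_nonneg (n : ℕ) (r : ℤ) : 0 ≤ ps n r := le_min zero_le_one (by positivity)

theorem ps_le_one (n : ℕ) (r : ℤ) : ps n r ≤ 1 := min_le_left _ _

/-- the sum over `ℕ` -/
theorem sum_nat (n : ℕ) :
    Summable (fun k : ℕ => min (1:ℝ) (2 * (n + 1) * (3 / 4) ^ k)) ∧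
    ∑' k : ℕ, min (1:ℝ) (2 * (n + 1) * (3 / 4) ^ k) ≤ 3 * Nat.clog 2 (n + 1) + 8 := by
  set h : ℕ → ℝ := fun k => min (1:ℝ) (2 * (n + 1) * (3 / 4) ^ k) with hh
  have hg : Summable fun k : ℕ => ((3:ℝ) / 4) ^ k :=
    summable_geometric_of_lt_one (by norm_num) (by norm_num)
  have h0 : ∀ k, 0 ≤ h k := fun k => le_min zero_le_one (by positivity)
  have hs : Summable h := Summable.of_nonneg_of_le h0 (fun k => min_le_right _ _)
    (hg.mul_left _)
  refine ⟨hs, ?_⟩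
  set R := 3 * Nat.clog 2 (n + 1) with hR
  have hRR : ((n:ℝ) + 1) * (3 / 4) ^ R ≤ 1 := by
    have h1 : n + 1 ≤ 2 ^ Nat.clog 2 (n + 1) := Nat.le_pow_clog (by norm_num) _
    have h2 : ((n:ℝ) + 1) ≤ 2 ^ Nat.clog 2 (n + 1) := by exact_mod_cast h1
    calc ((n:ℝ) + 1) * (3 / 4) ^ R ≤ 2 ^ Nat.clog 2 (n + 1) * (3 / 4) ^ R := by gcongr
      _ = (2 * (3 / 4) ^ 3) ^ Nat.clog 2 (n + 1) := by rw [hR, pow_mul, mul_pow]
      _ ≤ 1 := pow_le_one₀ (by norm_num) (by norm_num)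
  rw [← hs.sum_add_tsum_nat_add R]
  have h1 : ∑ k ∈ Finset.range R, h k ≤ R := by
    calc ∑ k ∈ Finset.range R, h k ≤ ∑ _k ∈ Finset.range R, (1:ℝ) :=
          Finset.sum_le_sum fun k _ => min_le_left _ _
      _ = R := by simp
  have h2 : ∑' k, h (k + R) ≤ 8 := by
    have h3 : ∀ k, h (k + R) ≤ 2 * (3 / 4) ^ k := by
      intro k
      refine (min_le_right _ _).trans ?_
      calc 2 * ((n:ℝ) + 1) * (3 / 4) ^ (k + R) = 2 * (((n:ℝ) + 1) * (3 / 4) ^ R) * (3 / 4) ^ k := by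
            rw [pow_add]; ring
        _ ≤ 2 * 1 * (3 / 4) ^ k := by gcongr
        _ = 2 * (3 / 4) ^ k := by ring
    calc ∑' k, h (k + R) ≤ ∑' k : ℕ, 2 * ((3:ℝ) / 4) ^ k :=
          ((summable_nat_add_iff R).2 hs).tsum_le_tsum h3 (hg.mul_left 2)
      _ = 8 := by
          rw [tsum_mul_left, tsum_geometric_of_lt_one (by norm_num) (by norm_num)]
          norm_num
  have h3 : (R:ℝ) = 3 * Nat.clog 2 (n + 1) := by rw [hR]; push_cast; ring
  linarith

theorem clog_le (n : ℕ) : (Nat.clog 2 (n + 1) : ℝ) ≤ 1 + 2 * Real.log (n + 1) := by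
  have hl : (1:ℝ) / 2 ≤ Real.log 2 := by linarith [Real.log_two_gt_d9]
  have hn : 0 ≤ Real.log ((n:ℝ) + 1) := Real.log_nonneg (by
    have : (0:ℝ) ≤ n := Nat.cast_nonneg n
    linarith)
  rcases Nat.eq_zero_or_pos (Nat.clog 2 (n + 1)) with h | h
  · rw [h]; push_cast; linarith
  · have h2 : 2 ^ (Nat.clog 2 (n + 1) - 1) < n + 1 := Nat.pow_pred_clog_lt_self (by norm_num) (by
      by_contra hc
      have : n + 1 ≤ 1 := not_lt.1 hc
      rw [Nat.clog_of_right_le_one this] at h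
      exact lt_irrefl _ h)
    have h3 : ((2:ℝ) ^ (Nat.clog 2 (n + 1) - 1)) ≤ (n:ℝ) + 1 := by exact_mod_cast h2.le
    have h4 := Real.log_le_log (by positivity) h3
    rw [Real.log_pow] at h4
    have h5 : ((Nat.clog 2 (n + 1) - 1 : ℕ) : ℝ) = (Nat.clog 2 (n + 1) : ℝ) - 1 := by
      rw [Nat.cast_sub h]; push_cast; ring
    rw [h5] at h4
    have h6 : (0:ℝ) ≤ (Nat.clog 2 (n + 1) : ℝ) - 1 := by
      have : (1:ℝ) ≤ (Nat.clog 2 (n + 1) : ℝ) := by exact_mod_cast h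
      linarith
    nlinarith

theorem ps_sum (n : ℕ) : Summable (ps n) ∧ ∑' r, ps n r ≤ 22 * (1 + Real.log (n + 1)) := by
  obtain ⟨hs, hle⟩ := sum_nat n
  set h : ℕ → ℝ := fun k => min (1:ℝ) (2 * (n + 1) * (3 / 4) ^ k) with hh
  have e1 : (fun k : ℕ => ps n (k : ℤ)) = h := by
    funext k; simp only [ps, Int.natAbs_natCast, hh]
  have e2 : (fun k : ℕ => ps n (-((k : ℤ) + 1))) = fun k => h (k + 1) := by
    funext k
    have : (-((k:ℤ) + 1)).natAbs = k + 1 := by omega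
    simp only [ps, this, hh]
  have hs1 : HasSum (fun k : ℕ => ps n (k : ℤ)) (∑' k, h k) := by rw [e1]; exact hs.hasSum
  have hs' : Summable fun k => h (k + 1) := (summable_nat_add_iff 1).2 hs
  have hs2 : HasSum (fun k : ℕ => ps n (-((k : ℤ) + 1))) (∑' k, h (k + 1)) := by
    rw [e2]; exact hs'.hasSum
  have hS := HasSum.of_nat_of_neg_add_one hs1 hs2
  refine ⟨hS.summable, ?_⟩
  rw [hS.tsum_eq]
  have h0 : ∀ k, 0 ≤ h k := fun k => le_min zero_le_one (by positivity)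
  have h1 : ∑' k, h (k + 1) ≤ ∑' k, h k := by
    have := hs.sum_add_tsum_nat_add 1
    rw [Finset.sum_range_one] at this
    linarith [h0 0]
  have hc := clog_le n
  have hn : 0 ≤ Real.log ((n:ℝ) + 1) := Real.log_nonneg (by
    have : (0:ℝ) ≤ n := Nat.cast_nonneg n
    linarith)
  linarith

/-- the elementary inequality between the two sizes -/
theorem size_le {x y : ℝ} (hx : 0 < x) (hy : 0 < y) {r : ℤ}
    (hr : r = Int.log 2 y - Int.log 2 x) (h0 : 0 ≤ r) :
    x ≤ √x * √y * (2 * (3 / 4) ^ r.natAbs) := by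
  have h1 : x < (2:ℝ) ^ (Int.log 2 x + 1) := Int.lt_zpow_succ_log_self (by norm_num) x
  have h2 : (2:ℝ) ^ (Int.log 2 y) ≤ y := Int.zpow_log_le_self (by norm_num) hy
  have h3 : x * 2 ^ r.natAbs ≤ 2 * y := by
    have e : (2:ℝ) ^ r.natAbs = (2:ℝ) ^ (Int.log 2 y - Int.log 2 x) := by
      rw [← hr, ← zpow_natCast, Int.natAbs_of_nonneg h0]
    rw [e]
    calc x * (2:ℝ) ^ (Int.log 2 y - Int.log 2 x)
        ≤ (2:ℝ) ^ (Int.log 2 x + 1) * (2:ℝ) ^ (Int.log 2 y - Int.log 2 x) := by gcongr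
      _ = 2 * (2:ℝ) ^ (Int.log 2 y) := by
          rw [← zpow_add₀ (by norm_num)]
          have : Int.log 2 x + 1 + (Int.log 2 y - Int.log 2 x) = Int.log 2 y + 1 := by ring
          rw [this, zpow_add_one₀ (by norm_num)]; ring
      _ ≤ 2 * y := by gcongr
  have h4 : x ≤ y * (2 * (3 / 4) ^ r.natAbs) ^ 2 := by
    have h5 : (1:ℝ) ≤ 2 ^ r.natAbs * ((3 / 4) ^ r.natAbs) ^ 2 := by
      rw [← pow_mul, mul_comm r.natAbs 2, pow_mul, ← mul_pow]
      exact one_le_pow₀ (by norm_num)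
    have h6 : 0 ≤ ((3:ℝ) / 4) ^ r.natAbs := by positivity
    calc x = x * 1 := (mul_one x).symm
      _ ≤ x * (2 ^ r.natAbs * ((3 / 4) ^ r.natAbs) ^ 2) := by gcongr
      _ = (x * 2 ^ r.natAbs) * ((3 / 4) ^ r.natAbs) ^ 2 := by ring
      _ ≤ (2 * y) * ((3 / 4) ^ r.natAbs) ^ 2 := by gcongr
      _ ≤ (4 * y) * ((3 / 4) ^ r.natAbs) ^ 2 := by gcongr; norm_num
      _ = y * (2 * (3 / 4) ^ r.natAbs) ^ 2 := by ring
  have h7 : √x ≤ √y * (2 * (3 / 4) ^ r.natAbs) := by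
    have := Real.sqrt_le_sqrt h4
    rwa [Real.sqrt_mul hy.le, Real.sqrt_sq (by positivity)] at this
  calc x = √x * √x := (Real.mul_self_sqrt hx.le).symm
    _ ≤ √x * (√y * (2 * (3 / 4) ^ r.natAbs)) := by gcongr
    _ = _ := by ring

/-- the restricted bound with the gain `ps` -/
theorem restr (hM : 8 ≤ M) (κ : Ker M) {e : ℝ} (he : e ≤ 1 / 2) : ∃ C : ℝ, 0 ≤ C ∧
    ∀ u : ℝ × ℝ → ℝ, Field u → (∀ x y y', |u (x, y) - u (x, y')| ≤ e * |y - y'|) → ∀ n : ℕ,
      Gen.RestrictedGain volume volume Nice Nice (fun f g => ∫ z, Tn κ u n f z * g z)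
        (fun r => C * ps n r) := by
  obtain ⟨C1, hC1, H1⟩ := H526.R0.r0 hM κ
  obtain ⟨C2, hC2, H2⟩ := Vale.Agent.P112.Long.S_bdd κ
  obtain ⟨C3, hC3, H3⟩ := T_le κ
  refine ⟨√C1 + C2 + C3, by positivity, ?_⟩
  intro u hu hl n f g hf hg hf1 hg1 hf2 hg2 hF0 hG0
  have hx : 0 < volume.real (Function.support f) :=
    ENNReal.toReal_pos hF0.ne' (cls_nice.bm _ hf).supp.ne
  have hy : 0 < volume.real (Function.support g) :=
    ENNReal.toReal_pos hG0.ne' (cls_nice.bm _ hg).supp.ne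
  set x := volume.real (Function.support f) with hxd
  set y := volume.real (Function.support g) with hyd
  show |∫ z, Tn κ u n f z * g z| ≤ √x * √y *
    ((√C1 + C2 + C3) * ps n (Int.log 2 y - Int.log 2 x))
  set I := ∫ z, Tn κ u n f z * g z with hI
  set Sg : ℝ × ℝ → ℝ := fun ζ => ∑ j ∈ Finset.range n, κ.S u j g ζ with hSg
  have hIS : I = ∫ ζ, Sg ζ * f ζ := int_Tn' κ hu hf hg n
  have hSn : Nice Sg := Nice.sum _ fun j _ => κ.S_nice hu j hg
  -- (i)
  have b1 : |I| ≤ √C1 * (√x * √y) := by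
    have h1 : ∫ ζ, Sg ζ ^ 2 ≤ C1 * y := H1 u hu n g hg hg1
    have h3 : ∫ z, f z ^ 2 ≤ x := int_sq_le_supp hf hf1
    have e : ∫ ζ, Sg ζ * f ζ = ∫ ζ, f ζ * Sg ζ :=
      integral_congr_ae (Eventually.of_forall fun _ => mul_comm _ _)
    rw [hIS, e]
    calc |∫ ζ, f ζ * Sg ζ| ≤ √(∫ z, f z ^ 2) * √(∫ z, Sg z ^ 2) := cs_nice hf hSn
      _ ≤ √x * √(C1 * y) := by gcongr
      _ = √C1 * (√x * √y) := by rw [Real.sqrt_mul hC1.le]; ring
  -- (ii)
  have b2 : |I| ≤ C2 * n * x := by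
    rw [hIS]
    refine int_le_supp (by positivity) (fun z => ?_) hf hf1
    calc |Sg z| ≤ ∑ j ∈ Finset.range n, |κ.S u j g z| := Finset.abs_sum_le_sum_abs _ _
      _ ≤ ∑ _j ∈ Finset.range n, C2 :=
          Finset.sum_le_sum fun j _ => H2 u hu e he hl j g hg hg1 z
      _ = C2 * n := by rw [Finset.sum_const, Finset.card_range, nsmul_eq_mul, mul_comm]
  -- (iii)
  have b3 : |I| ≤ C3 * n * y := by
    rw [hI]
    refine int_le_supp (by positivity) (fun z => ?_) hg hg1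
    calc |Tn κ u n f z| ≤ ∑ j ∈ Finset.range n, |κ.T u j f z| := Finset.abs_sum_le_sum_abs _ _
      _ ≤ ∑ _j ∈ Finset.range n, C3 := Finset.sum_le_sum fun j _ => H3 u j f hf1 z
      _ = C3 * n := by rw [Finset.sum_const, Finset.card_range, nsmul_eq_mul, mul_comm]
  have hs : 0 ≤ √x * √y := by positivity
  set r := Int.log 2 y - Int.log 2 x with hr
  have hs1 := Real.sqrt_nonneg C1
  unfold ps
  rw [mul_min_of_nonneg _ _ (by positivity), mul_min_of_nonneg _ _ hs]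
  refine le_min ?_ ?_
  · refine b1.trans ?_
    calc √C1 * (√x * √y) ≤ (√C1 + C2 + C3) * (√x * √y) := by
          gcongr; linarith
      _ = √x * √y * ((√C1 + C2 + C3) * 1) := by ring
  · have hn1 : (n:ℝ) ≤ n + 1 := by linarith
    rcases le_total 0 r with h0 | h0
    · have h1 := size_le hx hy hr h0
      calc |I| ≤ C2 * n * x := b2
        _ ≤ C2 * n * (√x * √y * (2 * (3 / 4) ^ r.natAbs)) := by gcongr
        _ ≤ (√C1 + C2 + C3) * (n + 1) * (√x * √y * (2 * (3 / 4) ^ r.natAbs)) := by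
            gcongr; linarith
        _ = _ := by ring
    · have h1 := size_le hy hx (r := -r) (by rw [hr]; ring) (by linarith)
      rw [Int.natAbs_neg] at h1
      calc |I| ≤ C3 * n * y := b3
        _ ≤ C3 * n * (√y * √x * (2 * (3 / 4) ^ r.natAbs)) := by gcongr
        _ ≤ (√C1 + C2 + C3) * (n + 1) * (√y * √x * (2 * (3 / 4) ^ r.natAbs)) := by
            gcongr; linarith
        _ = _ := by ring

theorem isOp' (κ : Ker M) {u : ℝ × ℝ → ℝ} (hu : Field u) (n : ℕ) :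
    Gen.IsOp volume volume Nice (Tn κ u n) := by
  have := isOp κ hu n univ
  rwa [Measure.restrict_univ] at this

/-- **[LL1]**: the band bound with the loss `1 + log (n + 1)`. -/
theorem bandBoundW {e : ℝ} (he : e ≤ 1 / 2) (hM : 8 ≤ M) :
    H587.LL.BandBoundW e M (fun n => 1 + Real.log (n + 1)) := by
  intro κ
  obtain ⟨C, hC, hR⟩ := restr hM κ he
  refine ⟨24 * (C * 22), by positivity, ?_⟩
  intro u hu hub hlip n F hF hFc
  have hfield : Field u := ⟨hu.measurable, hub⟩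
  have hN : Nice F := nice_of_cc hF hFc
  obtain ⟨hsum, hle⟩ := ps_sum n
  have h1 := Gen.rs_op_lintegral (isOp' κ hfield n) cls_nice cls_nice
    (fun r => mul_nonneg hC (ps_nonneg n r)) (hsum.mul_left C) (hR u hfield hlip n) hN
  rw [tsum_mul_left] at h1
  have hI : 0 ≤ ∫ z, F z ^ 2 := integral_nonneg fun _ => sq_nonneg _
  have h0 : 0 ≤ (24 * (C * ∑' r, ps n r)) ^ 2 * ∫ z, F z ^ 2 := by positivity
  have hps : 0 ≤ ∑' r, ps n r := tsum_nonneg (ps_nonneg n)
  have h2 : ∫ z, Tn κ u n F z ^ 2 ≤ (24 * (C * ∑' r, ps n r)) ^ 2 * ∫ z, F z ^ 2 := by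
    rw [integral_eq_lintegral_of_nonneg_ae (Eventually.of_forall fun _ => sq_nonneg _)
      ((Tn_meas κ hfield.meas n hN).pow_const 2).aestronglyMeasurable]
    exact ENNReal.toReal_le_of_le_ofReal h0 h1
  refine h2.trans ?_
  have h3 : 24 * (C * ∑' r, ps n r) ≤ 24 * (C * 22) * (1 + Real.log (n + 1)) := by
    calc 24 * (C * ∑' r, ps n r) ≤ 24 * (C * (22 * (1 + Real.log (n + 1)))) := by gcongr
      _ = _ := by ring
  gcongr

end Vale.Agent.P112.H694.LL1
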