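import Mathlib

/-!
P112 [RS]: restricted bounds with a summable gain in the level `log₂ (|E|/|F|)` imply the
strong (2,2) bound (helper694).
-/

namespace Vale.Agent.P112.H694

open MeasureTheory

/-! ### Scalar core -/

theorem sum_two_zpow_le (s : Finset ℤ) : ∀ a : ℤ, (∀ j ∈ s, j < a) →
    ∑ j ∈ s, (2:ℝ) ^ j ≤ (2:ℝ) ^ a := by
  induction s using Finset.induction_on_max with
  | empty => intro a _; simp; positivity
  | insert b s hb ih =>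
    intro a ha
    have hbs : b ∉ s := fun h => lt_irrefl _ (hb b h)
    rw [Finset.sum_insert hbs]
    have h1 := ih b hb
    have h2 : b + 1 ≤ a := ha b (Finset.mem_insert_self _ _)
    calc (2:ℝ)^b + ∑ j ∈ s, (2:ℝ)^j ≤ (2:ℝ)^b + (2:ℝ)^b := by linarith
      _ = (2:ℝ)^(b+1) := by rw [zpow_add₀ (by norm_num)]; ring
      _ ≤ (2:ℝ)^a := zpow_le_zpow_right₀ (by norm_num) h2

theorem sq_sum_two_zpow_le (s : Finset ℤ) :
    (∑ j ∈ s, (2:ℝ) ^ j) ^ 2 ≤ 3 * ∑ j ∈ s, (4:ℝ) ^ j := by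
  induction s using Finset.induction_on_max with
  | empty => simp
  | insert b s hb ih =>
    have hbs : b ∉ s := fun h => lt_irrefl _ (hb b h)
    rw [Finset.sum_insert hbs, Finset.sum_insert hbs]
    have h1 := sum_two_zpow_le s b hb
    have h0 : 0 < (2:ℝ)^b := by positivity
    have h4 : (4:ℝ)^b = (2:ℝ)^b * (2:ℝ)^b := by
      rw [← mul_zpow]; norm_num
    rw [h4]
    nlinarith [mul_le_mul_of_nonneg_left h1 h0.le]

/-- Young's inequality for the shift kernel, AM-GM form. -/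
theorem young_shift (P Q : Finset ℤ) (A B : ℤ → ℝ) (ψ : ℤ → ℝ) (hψ : ∀ n, 0 ≤ ψ n)
    (hs : Summable ψ) {t : ℝ} (ht : 0 < t) :
    ∑ p ∈ P, ∑ q ∈ Q, A p * B q * ψ (q - p) ≤
      (∑' n, ψ n) / 2 * (t * ∑ p ∈ P, A p ^ 2 + t⁻¹ * ∑ q ∈ Q, B q ^ 2) := by
  have h1 : ∀ p q, A p * B q * ψ (q - p) ≤
      (t / 2 * A p ^ 2 + t⁻¹ / 2 * B q ^ 2) * ψ (q - p) := by
    intro p q
    apply mul_le_mul_of_nonneg_right _ (hψ _)
    have : 0 ≤ t⁻¹ * (t * A p - B q) ^ 2 := by positivity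
    have e : t⁻¹ * (t * A p - B q) ^ 2 = t * A p ^ 2 - 2 * (A p * B q) + t⁻¹ * B q ^ 2 := by
      field_simp
      ring
    linarith
  have hP : ∀ p, ∑ q ∈ Q, ψ (q - p) ≤ ∑' n, ψ n := by
    intro p
    have := Summable.sum_le_tsum (Q.map ⟨fun q => q - p, fun a b h => by simpa using h⟩)
      (fun i _ => hψ i) hs
    rw [Finset.sum_map] at this
    exact this
  have hQ : ∀ q, ∑ p ∈ P, ψ (q - p) ≤ ∑' n, ψ n := by
    intro q
    have := Summable.sum_le_tsum (P.map ⟨fun p => q - p, fun a b h => by simpa using h⟩)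
      (fun i _ => hψ i) hs
    rw [Finset.sum_map] at this
    exact this
  calc ∑ p ∈ P, ∑ q ∈ Q, A p * B q * ψ (q - p)
      ≤ ∑ p ∈ P, ∑ q ∈ Q, (t / 2 * A p ^ 2 + t⁻¹ / 2 * B q ^ 2) * ψ (q - p) :=
        Finset.sum_le_sum fun p _ => Finset.sum_le_sum fun q _ => h1 p q
    _ = ∑ p ∈ P, t / 2 * A p ^ 2 * ∑ q ∈ Q, ψ (q - p) +
        ∑ q ∈ Q, t⁻¹ / 2 * B q ^ 2 * ∑ p ∈ P, ψ (q - p) := by
        have e1 : ∑ q ∈ Q, t⁻¹ / 2 * B q ^ 2 * ∑ p ∈ P, ψ (q - p) =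
            ∑ p ∈ P, ∑ q ∈ Q, t⁻¹ / 2 * B q ^ 2 * ψ (q - p) := by
          rw [Finset.sum_comm]
          exact Finset.sum_congr rfl fun q _ => by rw [Finset.mul_sum]
        rw [e1, ← Finset.sum_add_distrib]
        refine Finset.sum_congr rfl fun p _ => ?_
        rw [Finset.mul_sum, ← Finset.sum_add_distrib]
        exact Finset.sum_congr rfl fun q _ => by ring
    _ ≤ ∑ p ∈ P, t / 2 * A p ^ 2 * (∑' n, ψ n) +
        ∑ q ∈ Q, t⁻¹ / 2 * B q ^ 2 * (∑' n, ψ n) := by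
        apply add_le_add
        · exact Finset.sum_le_sum fun p _ => mul_le_mul_of_nonneg_left (hP p) (by positivity)
        · exact Finset.sum_le_sum fun q _ => mul_le_mul_of_nonneg_left (hQ q) (by positivity)
    _ = _ := by
        rw [← Finset.sum_mul, ← Finset.sum_mul, ← Finset.mul_sum, ← Finset.mul_sum]
        ring

/-- The level sum inside one dyadic class of measures. -/
theorem class_sum_sq_le (J : Finset ℤ) (x : ℤ → ℝ) (p : ℤ)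
    (h1 : ∀ j ∈ J, (2:ℝ) ^ p ≤ x j) (h2 : ∀ j ∈ J, x j ≤ (2:ℝ) ^ (p+1)) :
    (∑ j ∈ J, (2:ℝ) ^ j * √(x j)) ^ 2 ≤ 6 * ∑ j ∈ J, (4:ℝ) ^ j * x j := by
  have hp : 0 < (2:ℝ) ^ p := by positivity
  have hp1 : (2:ℝ) ^ (p+1) = 2 * (2:ℝ)^p := by
    rw [zpow_add₀ (by norm_num)]; ring
  have a1 : ∑ j ∈ J, (2:ℝ) ^ j * √(x j) ≤ √((2:ℝ)^(p+1)) * ∑ j ∈ J, (2:ℝ)^j := by
    rw [Finset.mul_sum]
    refine Finset.sum_le_sum fun j hj => ?_
    rw [mul_comm]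
    exact mul_le_mul_of_nonneg_right (Real.sqrt_le_sqrt (h2 j hj)) (by positivity)
  have a0 : 0 ≤ ∑ j ∈ J, (2:ℝ) ^ j * √(x j) := Finset.sum_nonneg fun j _ => by positivity
  calc (∑ j ∈ J, (2:ℝ) ^ j * √(x j)) ^ 2 ≤ (√((2:ℝ)^(p+1)) * ∑ j ∈ J, (2:ℝ)^j) ^ 2 :=
        pow_le_pow_left₀ a0 a1 2
    _ = (2:ℝ)^(p+1) * (∑ j ∈ J, (2:ℝ)^j) ^ 2 := by
        rw [mul_pow, Real.sq_sqrt (by positivity)]
    _ ≤ (2:ℝ)^(p+1) * (3 * ∑ j ∈ J, (4:ℝ)^j) :=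
        mul_le_mul_of_nonneg_left (sq_sum_two_zpow_le J) (by positivity)
    _ = 6 * ∑ j ∈ J, (4:ℝ)^j * (2:ℝ)^p := by rw [hp1, ← Finset.sum_mul]; ring
    _ ≤ 6 * ∑ j ∈ J, (4:ℝ) ^ j * x j := by
        gcongr with j hj
        exact h1 j hj

/-- [RS0] -/
theorem rs_core (J K : Finset ℤ) (x y : ℤ → ℝ) (hx : ∀ j ∈ J, 0 < x j) (hy : ∀ k ∈ K, 0 < y k)
    (ψ : ℤ → ℝ) (hψ : ∀ n, 0 ≤ ψ n) (hs : Summable ψ) {t : ℝ} (ht : 0 < t) :
    ∑ j ∈ J, ∑ k ∈ K, (2:ℝ)^j * √(x j) * ((2:ℝ)^k * √(y k)) *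
        ψ (Int.log 2 (y k) - Int.log 2 (x j)) ≤
      3 * (∑' n, ψ n) * (t * ∑ j ∈ J, (4:ℝ)^j * x j + t⁻¹ * ∑ k ∈ K, (4:ℝ)^k * y k) := by
  classical
  set P := J.image fun j => Int.log 2 (x j) with hP
  set Q := K.image fun k => Int.log 2 (y k) with hQ
  set A : ℤ → ℝ := fun p => ∑ j ∈ J with Int.log 2 (x j) = p, (2:ℝ)^j * √(x j) with hA
  set B : ℤ → ℝ := fun q => ∑ k ∈ K with Int.log 2 (y k) = q, (2:ℝ)^k * √(y k) with hB
  have hlog : ∀ r : ℝ, 0 < r → (2:ℝ) ^ Int.log 2 r ≤ r ∧ r ≤ (2:ℝ)^(Int.log 2 r + 1) := by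
    intro r hr
    refine ⟨?_, ?_⟩
    · have := Int.zpow_log_le_self (b := 2) (by norm_num) hr
      simpa using this
    · have := (Int.lt_zpow_succ_log_self (b := 2) (by norm_num) r).le
      simpa using this
  have hA2 : ∀ p, A p ^ 2 ≤ 6 * ∑ j ∈ J with Int.log 2 (x j) = p, (4:ℝ)^j * x j := by
    intro p
    apply class_sum_sq_le _ x p
    · intro j hj
      rw [Finset.mem_filter] at hj
      rw [← hj.2]; exact (hlog _ (hx j hj.1)).1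
    · intro j hj
      rw [Finset.mem_filter] at hj
      rw [← hj.2]; exact (hlog _ (hx j hj.1)).2
  have hB2 : ∀ q, B q ^ 2 ≤ 6 * ∑ k ∈ K with Int.log 2 (y k) = q, (4:ℝ)^k * y k := by
    intro q
    apply class_sum_sq_le _ y q
    · intro j hj
      rw [Finset.mem_filter] at hj
      rw [← hj.2]; exact (hlog _ (hy j hj.1)).1
    · intro j hj
      rw [Finset.mem_filter] at hj
      rw [← hj.2]; exact (hlog _ (hy j hj.1)).2
  have hAs : ∑ p ∈ P, A p ^ 2 ≤ 6 * ∑ j ∈ J, (4:ℝ)^j * x j := by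
    calc ∑ p ∈ P, A p ^ 2 ≤ ∑ p ∈ P, 6 * ∑ j ∈ J with Int.log 2 (x j) = p, (4:ℝ)^j * x j :=
          Finset.sum_le_sum fun p _ => hA2 p
      _ = 6 * ∑ j ∈ J, (4:ℝ)^j * x j := by
          rw [← Finset.mul_sum]
          congr 1
          exact Finset.sum_fiberwise_of_maps_to
            (fun j hj => Finset.mem_image_of_mem _ hj) _
  have hBs : ∑ q ∈ Q, B q ^ 2 ≤ 6 * ∑ k ∈ K, (4:ℝ)^k * y k := by
    calc ∑ q ∈ Q, B q ^ 2 ≤ ∑ q ∈ Q, 6 * ∑ k ∈ K with Int.log 2 (y k) = q, (4:ℝ)^k * y k :=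
          Finset.sum_le_sum fun q _ => hB2 q
      _ = 6 * ∑ k ∈ K, (4:ℝ)^k * y k := by
          rw [← Finset.mul_sum]
          congr 1
          exact Finset.sum_fiberwise_of_maps_to
            (fun j hj => Finset.mem_image_of_mem _ hj) _
  have key : ∑ j ∈ J, ∑ k ∈ K, (2:ℝ)^j * √(x j) * ((2:ℝ)^k * √(y k)) *
        ψ (Int.log 2 (y k) - Int.log 2 (x j)) =
      ∑ p ∈ P, ∑ q ∈ Q, A p * B q * ψ (q - p) := by
    rw [← Finset.sum_fiberwise_of_maps_to (s := J) (t := P) (g := fun j => Int.log 2 (x j))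
      (fun j hj => Finset.mem_image_of_mem _ hj)]
    refine Finset.sum_congr rfl fun p _ => ?_
    have e1 : ∀ j ∈ J.filter (fun j => Int.log 2 (x j) = p),
        ∑ k ∈ K, (2:ℝ)^j * √(x j) * ((2:ℝ)^k * √(y k)) *
          ψ (Int.log 2 (y k) - Int.log 2 (x j)) =
        ∑ q ∈ Q, (2:ℝ)^j * √(x j) * B q * ψ (q - p) := by
      intro j hj
      rw [Finset.mem_filter] at hj
      rw [← Finset.sum_fiberwise_of_maps_to (s := K) (t := Q) (g := fun k => Int.log 2 (y k))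
        (fun k hk => Finset.mem_image_of_mem _ hk)]
      refine Finset.sum_congr rfl fun q _ => ?_
      rw [hB, Finset.mul_sum, Finset.sum_mul]
      refine Finset.sum_congr rfl fun k hk => ?_
      rw [Finset.mem_filter] at hk
      rw [hk.2, hj.2]
    rw [Finset.sum_congr rfl e1, Finset.sum_comm]
    refine Finset.sum_congr rfl fun q _ => ?_
    rw [← Finset.sum_mul, ← Finset.sum_mul]
  rw [key]
  refine (young_shift P Q A B ψ hψ hs ht).trans ?_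
  have hS : 0 ≤ ∑' n, ψ n := tsum_nonneg hψ
  have : t * ∑ p ∈ P, A p ^ 2 + t⁻¹ * ∑ q ∈ Q, B q ^ 2 ≤
      6 * (t * ∑ j ∈ J, (4:ℝ)^j * x j + t⁻¹ * ∑ k ∈ K, (4:ℝ)^k * y k) := by
    have h1 := mul_le_mul_of_nonneg_left hAs ht.le
    have h2 := mul_le_mul_of_nonneg_left hBs (inv_pos.2 ht).le
    linarith
  calc (∑' n, ψ n) / 2 * (t * ∑ p ∈ P, A p ^ 2 + t⁻¹ * ∑ q ∈ Q, B q ^ 2)
      ≤ (∑' n, ψ n) / 2 *
        (6 * (t * ∑ j ∈ J, (4:ℝ)^j * x j + t⁻¹ * ∑ k ∈ K, (4:ℝ)^k * y k)) :=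
        mul_le_mul_of_nonneg_left this (by positivity)
    _ = _ := by ring

end Vale.Agent.P112.H694
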