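import Vale.Agent.P112.H694.RS

/-!
P112 [RS], function level: restricted bounds with a summable gain imply the strong bound
(forms and operators).
-/

namespace Vale.Agent.P112.H694

open MeasureTheory

variable {X Y : Type*} [MeasurableSpace X] [MeasurableSpace Y]

/-- Bounded measurable functions supported in a set of finite measure. -/
structure BM (μ : Measure X) (f : X → ℝ) : Prop where
  meas : Measurable f
  bdd : ∃ M : ℝ, ∀ x, |f x| ≤ M
  supp : μ (Function.support f) < ⊤

namespace BM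

variable {μ : Measure X} {f g : X → ℝ}

theorem zero (μ : Measure X) : BM μ (fun _ => (0:ℝ)) :=
  ⟨measurable_const, ⟨0, by simp⟩, by simp [Function.support]⟩

theorem add (hf : BM μ f) (hg : BM μ g) : BM μ (fun x => f x + g x) := by
  obtain ⟨M, hM⟩ := hf.bdd
  obtain ⟨N, hN⟩ := hg.bdd
  refine ⟨hf.meas.add hg.meas, ⟨M + N, fun x => (abs_add_le _ _).trans (add_le_add (hM x) (hN x))⟩, ?_⟩
  refine lt_of_le_of_lt (measure_mono (t := Function.support f ∪ Function.support g) ?_)
    (measure_union_lt_top hf.supp hg.supp)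
  exact Function.support_add f g

theorem const_mul (hf : BM μ f) (c : ℝ) : BM μ (fun x => c * f x) := by
  obtain ⟨M, hM⟩ := hf.bdd
  refine ⟨hf.meas.const_mul c, ⟨|c| * M, fun x => ?_⟩, ?_⟩
  · rw [abs_mul]; exact mul_le_mul_of_nonneg_left (hM x) (abs_nonneg _)
  · refine lt_of_le_of_lt (measure_mono ?_) hf.supp
    intro x hx
    simp only [Function.mem_support] at hx ⊢
    intro h; exact hx (by rw [h, mul_zero])

theorem indicator (hf : BM μ f) {S : Set X} (hS : MeasurableSet S) : BM μ (S.indicator f) := by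
  obtain ⟨M, hM⟩ := hf.bdd
  refine ⟨hf.meas.indicator hS, ⟨M, fun x => ?_⟩, ?_⟩
  · by_cases hx : x ∈ S
    · rw [Set.indicator_of_mem hx]; exact hM x
    · rw [Set.indicator_of_notMem hx, abs_zero]; exact (abs_nonneg _).trans (hM x)
  · refine lt_of_le_of_lt (measure_mono ?_) hf.supp
    intro x hx
    rw [Set.support_indicator] at hx
    exact hx.2

theorem sum {ι : Type*} (s : Finset ι) {F : ι → X → ℝ} (hF : ∀ i ∈ s, BM μ (F i)) :
    BM μ (fun x => ∑ i ∈ s, F i x) := by
  classical
  induction s using Finset.induction_on with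
  | empty => simpa using BM.zero μ
  | insert a s ha ih =>
    have h1 := (hF a (Finset.mem_insert_self _ _)).add
      (ih fun i hi => hF i (Finset.mem_insert_of_mem hi))
    simpa only [Finset.sum_insert ha] using h1

theorem memLp (hf : BM μ f) (p : ENNReal) : MemLp f p μ := by
  obtain ⟨M, hM⟩ := hf.bdd
  have h1 : MemLp ((Function.support f).indicator f) p μ := by
    have hS : MeasurableSet (Function.support f) := measurableSet_support hf.meas
    rw [memLp_indicator_iff_restrict hS]
    have : IsFiniteMeasure (μ.restrict (Function.support f)) :=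
      ⟨by rw [Measure.restrict_apply_univ]; exact hf.supp⟩
    exact MemLp.of_bound hf.meas.aestronglyMeasurable M (Filter.Eventually.of_forall fun x => by
      rw [Real.norm_eq_abs]; exact hM x)
  rwa [Set.indicator_support] at h1

theorem integrable_sq (hf : BM μ f) : Integrable (fun x => f x ^ 2) μ :=
  (hf.memLp 2).integrable_sq

end BM

/-- The level sets. -/
def Lv (f : X → ℝ) (j : ℤ) : Set X := {x | (2:ℝ)^(j-1) < |f x| ∧ |f x| ≤ (2:ℝ)^j}

/-- The small values. -/
def Sm (f : X → ℝ) (m : ℤ) : Set X := {x | |f x| ≤ (2:ℝ)^m}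

theorem measurableSet_Lv {f : X → ℝ} (hf : Measurable f) (j : ℤ) : MeasurableSet (Lv f j) :=
  (measurableSet_lt measurable_const (hf.abs)).inter (measurableSet_le (hf.abs) measurable_const)

theorem measurableSet_Sm {f : X → ℝ} (hf : Measurable f) (j : ℤ) : MeasurableSet (Sm f j) :=
  measurableSet_le (hf.abs) measurable_const

omit [MeasurableSpace X] in
theorem Lv_disj {f : X → ℝ} {i j : ℤ} (hij : i ≠ j) {x : X} (hi : x ∈ Lv f i) : x ∉ Lv f j := by
  intro hj
  rcases lt_or_gt_of_ne hij with h | h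
  · have : (2:ℝ)^i ≤ (2:ℝ)^(j-1) := zpow_le_zpow_right₀ (by norm_num) (by omega)
    have := hi.2.trans this
    linarith [hj.1]
  · have : (2:ℝ)^j ≤ (2:ℝ)^(i-1) := zpow_le_zpow_right₀ (by norm_num) (by omega)
    have := hj.2.trans this
    linarith [hi.1]

/-- The levels between `m` and `m + n`. -/
def lvs (m : ℤ) (n : ℕ) : Finset ℤ := (Finset.range n).image fun i : ℕ => m + 1 + (i:ℤ)

omit [MeasurableSpace X] in
/-- Decomposition into levels. -/
theorem level_decomp (f : X → ℝ) (m : ℤ) (n : ℕ) (hM : ∀ x, |f x| ≤ (2:ℝ)^(m + n)) (x : X) :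
    f x = (Sm f m).indicator f x + ∑ j ∈ lvs m n, (Lv f j).indicator f x := by
  rw [lvs, Finset.sum_image (by intro a _ b _ h; simpa using h)]
  by_cases hs : x ∈ Sm f m
  · rw [Set.indicator_of_mem hs, Finset.sum_eq_zero, add_zero]
    intro i _
    apply Set.indicator_of_notMem
    intro h
    have h1 := h.1
    have h2 : |f x| ≤ (2:ℝ)^m := hs
    have : (2:ℝ)^m ≤ (2:ℝ)^(m + 1 + (i:ℤ) - 1) := zpow_le_zpow_right₀ (by norm_num) (by omega)
    linarith
  · rw [Set.indicator_of_notMem hs, zero_add]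
    have hs' : (2:ℝ)^m < |f x| := not_le.1 hs
    -- find the level
    have hex : ∃ i ∈ Finset.range n, x ∈ Lv f (m + 1 + (i:ℤ)) := by
      have key : ∀ n : ℕ, |f x| ≤ (2:ℝ)^(m+n) → ∃ i ∈ Finset.range n, x ∈ Lv f (m + 1 + (i:ℤ)) := by
        intro n
        induction n with
        | zero => intro h; simp at h; linarith
        | succ n ih =>
          intro h
          by_cases h' : |f x| ≤ (2:ℝ)^(m+n)
          · obtain ⟨i, hi, hx⟩ := ih h'
            exact ⟨i, Finset.mem_range.2 ((Finset.mem_range.1 hi).trans (Nat.lt_succ_self n)), hx⟩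
          · refine ⟨n, Finset.self_mem_range_succ n, ?_, ?_⟩
            · have : m + 1 + (n:ℤ) - 1 = m + n := by ring
              rw [this]; exact not_le.1 h'
            · have : m + 1 + (n:ℤ) = m + ((n+1 : ℕ):ℤ) := by push_cast; ring
              rw [this]; exact h
      exact key n (hM x)
    obtain ⟨i, hi, hx⟩ := hex
    rw [Finset.sum_eq_single_of_mem i hi, Set.indicator_of_mem hx]
    intro k _ hk
    apply Set.indicator_of_notMem
    exact Lv_disj (by intro h; apply hk; have : (i:ℤ) = k := by omega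
                      exact_mod_cast this.symm) hx

/-- Chebyshev for all levels at once. -/
theorem level_sum_le {μ : Measure X} {f : X → ℝ} (hf : BM μ f) (J : Finset ℤ) :
    ∑ j ∈ J, (4:ℝ)^j * μ.real (Lv f j) ≤ 4 * ∫ x, f x ^ 2 ∂μ := by
  have hfin : ∀ j, μ (Lv f j) < ⊤ := by
    intro j
    refine lt_of_le_of_lt (measure_mono ?_) hf.supp
    intro x hx
    have h1 : (0:ℝ) < (2:ℝ)^(j-1) := by positivity
    have h2 := hx.1
    simp only [Function.mem_support]
    intro h0
    rw [h0, abs_zero] at h2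
    linarith
  have e1 : ∀ j, (4:ℝ)^j * μ.real (Lv f j) = ∫ x, (Lv f j).indicator (fun _ => (4:ℝ)^j) x ∂μ := by
    intro j
    rw [integral_indicator_const _ (measurableSet_Lv hf.meas j), smul_eq_mul, mul_comm]
  have hint : ∀ j, Integrable ((Lv f j).indicator (fun _ => (4:ℝ)^j)) μ := by
    intro j
    exact (integrable_indicator_iff (measurableSet_Lv hf.meas j)).2
      (integrableOn_const (hfin j).ne)
  rw [Finset.sum_congr rfl fun j _ => e1 j, ← integral_finsetSum J fun j _ => hint j,
    ← integral_const_mul]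
  refine integral_mono (integrable_finsetSum J fun j _ => hint j)
    (hf.integrable_sq.const_mul 4) fun x => ?_
  by_cases hx : ∃ j ∈ J, x ∈ Lv f j
  · obtain ⟨j, hj, hxj⟩ := hx
    show ∑ i ∈ J, (Lv f i).indicator (fun _ => (4:ℝ)^i) x ≤ 4 * f x ^ 2
    rw [Finset.sum_eq_single_of_mem j hj, Set.indicator_of_mem hxj]
    · have h1 := hxj.1
      have h4 : (4:ℝ)^j = 4 * ((2:ℝ)^(j-1))^2 := by
        rw [zpow_sub₀ (by norm_num)]
        have : (4:ℝ)^j = (2:ℝ)^j * (2:ℝ)^j := by rw [← mul_zpow]; norm_num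
        rw [this]; ring
      rw [h4, ← sq_abs (f x)]
      have h0 : (0:ℝ) < (2:ℝ)^(j-1) := by positivity
      nlinarith
    · intro k _ hk
      exact Set.indicator_of_notMem (Lv_disj (Ne.symm hk) hxj) _
  · show ∑ i ∈ J, (Lv f i).indicator (fun _ => (4:ℝ)^i) x ≤ 4 * f x ^ 2
    rw [Finset.sum_eq_zero]
    · positivity
    · intro k hk
      exact Set.indicator_of_notMem (fun h => hx ⟨k, hk, h⟩) _

theorem le_of_forall_t {b c X' Y' : ℝ} (hc : 0 ≤ c) (hX : 0 ≤ X') (hY : 0 ≤ Y')
    (h : ∀ t : ℝ, 0 < t → b ≤ c * (t * X' + t⁻¹ * Y')) : b ≤ 2 * c * (√X' * √Y') := by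
  rcases hX.eq_or_lt with hX0 | hX0
  · -- X = 0
    subst hX0
    simp only [Real.sqrt_zero, zero_mul, mul_zero]
    refine le_of_forall_pos_le_add fun ε hε => ?_
    have := h ((c * Y' + 1) / ε) (by positivity)
    have h2 : c * ((c * Y' + 1) / ε * 0 + ((c * Y' + 1) / ε)⁻¹ * Y') ≤ ε := by
      rw [mul_zero, zero_add, inv_div]
      have : c * (ε / (c * Y' + 1) * Y') = ε * ((c * Y') / (c * Y' + 1)) := by ring
      rw [this]
      have h3 : (c * Y') / (c * Y' + 1) ≤ 1 := by
        rw [div_le_one (by positivity)]; linarith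
      calc ε * ((c * Y') / (c * Y' + 1)) ≤ ε * 1 := mul_le_mul_of_nonneg_left h3 hε.le
        _ = ε := mul_one _
    linarith
  rcases hY.eq_or_lt with hY0 | hY0
  · subst hY0
    simp only [Real.sqrt_zero, mul_zero]
    refine le_of_forall_pos_le_add fun ε hε => ?_
    have := h (ε / (c * X' + 1)) (by positivity)
    have h2 : c * (ε / (c * X' + 1) * X' + (ε / (c * X' + 1))⁻¹ * 0) ≤ ε := by
      rw [mul_zero, add_zero]
      have : c * (ε / (c * X' + 1) * X') = ε * ((c * X') / (c * X' + 1)) := by ring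
      rw [this]
      have h3 : (c * X') / (c * X' + 1) ≤ 1 := by
        rw [div_le_one (by positivity)]; linarith
      calc ε * ((c * X') / (c * X' + 1)) ≤ ε * 1 := mul_le_mul_of_nonneg_left h3 hε.le
        _ = ε := mul_one _
    linarith
  · have := h (√Y' / √X') (by positivity)
    have e : √Y' / √X' * X' + (√Y' / √X')⁻¹ * Y' = 2 * (√X' * √Y') := by
      rw [inv_div]
      have h1 : X' = √X' * √X' := (Real.mul_self_sqrt hX).symm
      have h2 : Y' = √Y' * √Y' := (Real.mul_self_sqrt hY).symm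
      have p1 : 0 < √X' := Real.sqrt_pos.2 hX0
      have p2 : 0 < √Y' := Real.sqrt_pos.2 hY0
      have e1 : √Y' / √X' * X' = √Y' * √X' := by
        calc √Y' / √X' * X' = √Y' / √X' * (√X' * √X') := by rw [← h1]
          _ = √Y' * √X' := by generalize √X' = a at *; field_simp
      have e2 : √X' / √Y' * Y' = √X' * √Y' := by
        calc √X' / √Y' * Y' = √X' / √Y' * (√Y' * √Y') := by rw [← h2]
          _ = √X' * √Y' := by generalize √Y' = a at *; field_simp
      rw [e1, e2]; ring
    rw [e] at this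
    linarith

/-- A form on `BM μ × BM ν` with a crude bound. -/
structure IsForm (μ : Measure X) (ν : Measure Y) (B : (X → ℝ) → (Y → ℝ) → ℝ) : Prop where
  add_left : ∀ f f' g, BM μ f → BM μ f' → BM ν g →
    B (fun x => f x + f' x) g = B f g + B f' g
  add_right : ∀ f g g', BM μ f → BM ν g → BM ν g' →
    B f (fun y => g y + g' y) = B f g + B f g'
  mul_left : ∀ (c : ℝ) f g, BM μ f → BM ν g → B (fun x => c * f x) g = c * B f g
  mul_right : ∀ (c : ℝ) f g, BM μ f → BM ν g → B f (fun y => c * g y) = c * B f g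
  crude : ∃ K : ℝ, ∀ f g, BM μ f → BM ν g →
    |B f g| ≤ K * (√(∫ x, f x ^ 2 ∂μ) * √(∫ y, g y ^ 2 ∂ν))

/-- The restricted bound with gain `ψ`. -/
def RestrictedGain (μ : Measure X) (ν : Measure Y) (B : (X → ℝ) → (Y → ℝ) → ℝ) (ψ : ℤ → ℝ) :
    Prop :=
  ∀ (F : Set X) (E : Set Y), MeasurableSet F → MeasurableSet E →
    0 < μ F → μ F < ⊤ → 0 < ν E → ν E < ⊤ →
    ∀ f g, Measurable f → Measurable g → (∀ x, |f x| ≤ F.indicator (fun _ => (1:ℝ)) x) →
      (∀ y, |g y| ≤ E.indicator (fun _ => (1:ℝ)) y) →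
      |B f g| ≤ √(μ.real F) * √(ν.real E) * ψ (Int.log 2 (ν.real E) - Int.log 2 (μ.real F))

variable {μ : Measure X} {ν : Measure Y} {B : (X → ℝ) → (Y → ℝ) → ℝ}

theorem IsForm.sum_left (hB : IsForm μ ν B) {ι : Type*} (s : Finset ι) {F : ι → X → ℝ} {g : Y → ℝ}
    (hF : ∀ i ∈ s, BM μ (F i)) (hg : BM ν g) :
    B (fun x => ∑ i ∈ s, F i x) g = ∑ i ∈ s, B (F i) g := by
  classical
  induction s using Finset.induction_on with
  | empty =>
    have := hB.mul_left 0 (fun _ => 0) g (BM.zero μ) hg
    simpa using this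
  | insert a s ha ih =>
    have h1 := fun i hi => hF i (Finset.mem_insert_of_mem (a := i) (b := a) (s := s) hi)
    simp only [Finset.sum_insert ha]
    rw [hB.add_left _ _ _ (hF a (Finset.mem_insert_self _ _)) (BM.sum s h1) hg, ih h1]

theorem IsForm.sum_right (hB : IsForm μ ν B) {ι : Type*} (s : Finset ι) {f : X → ℝ}
    {G : ι → Y → ℝ} (hG : ∀ i ∈ s, BM ν (G i)) (hf : BM μ f) :
    B f (fun y => ∑ i ∈ s, G i y) = ∑ i ∈ s, B f (G i) := by
  classical
  induction s using Finset.induction_on with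
  | empty =>
    have := hB.mul_right 0 f (fun _ => 0) hf (BM.zero ν)
    simpa using this
  | insert a s ha ih =>
    have h1 := fun i hi => hG i (Finset.mem_insert_of_mem (a := i) (b := a) (s := s) hi)
    simp only [Finset.sum_insert ha]
    rw [hB.add_right _ _ _ hf (hG a (Finset.mem_insert_self _ _)) (BM.sum s h1), ih h1]

theorem Lv_finite {f : X → ℝ} (hf : BM μ f) (j : ℤ) : μ (Lv f j) < ⊤ := by
  refine lt_of_le_of_lt (measure_mono ?_) hf.supp
  intro x hx
  have h1 : (0:ℝ) < (2:ℝ)^(j-1) := by positivity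
  have h2 := hx.1
  simp only [Function.mem_support]
  intro h0
  rw [h0, abs_zero] at h2
  linarith

/-- One pair of levels. -/
theorem level_pair (hB : IsForm μ ν B) {ψ : ℤ → ℝ}
    (hR : RestrictedGain μ ν B ψ) {f : X → ℝ} {g : Y → ℝ} (hf : BM μ f) (hg : BM ν g) (j k : ℤ) :
    |B ((Lv f j).indicator f) ((Lv g k).indicator g)| ≤
      (if μ (Lv f j) = 0 ∨ ν (Lv g k) = 0 then 0 else
        (2:ℝ)^j * √(μ.real (Lv f j)) * ((2:ℝ)^k * √(ν.real (Lv g k))) *
        ψ (Int.log 2 (ν.real (Lv g k)) - Int.log 2 (μ.real (Lv f j)))) := by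
  obtain ⟨K, hK⟩ := hB.crude
  have hfj := hf.indicator (measurableSet_Lv hf.meas j)
  have hgk := hg.indicator (measurableSet_Lv hg.meas k)
  split_ifs with h0
  · have h1 := hK _ _ hfj hgk
    rcases h0 with h0 | h0
    · have : ∫ x, (Lv f j).indicator f x ^ 2 ∂μ = 0 := by
        apply integral_eq_zero_of_ae
        have : ∀ᵐ x ∂μ, x ∉ Lv f j := by
          rw [ae_iff]; simpa using h0
        filter_upwards [this] with x hx
        rw [Set.indicator_of_notMem hx]; simp
      rw [this] at h1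
      simpa using h1
    · have : ∫ x, (Lv g k).indicator g x ^ 2 ∂ν = 0 := by
        apply integral_eq_zero_of_ae
        have : ∀ᵐ x ∂ν, x ∉ Lv g k := by
          rw [ae_iff]; simpa using h0
        filter_upwards [this] with x hx
        rw [Set.indicator_of_notMem hx]; simp
      rw [this] at h1
      simpa using h1
  · push Not at h0
    have hj : (0:ℝ) < (2:ℝ)^j := by positivity
    have hk : (0:ℝ) < (2:ℝ)^k := by positivity
    have e1 : (Lv f j).indicator f = fun x => (2:ℝ)^j * (((2:ℝ)^j)⁻¹ * (Lv f j).indicator f x) := by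
      funext x; field_simp
    have e2 : (Lv g k).indicator g = fun x => (2:ℝ)^k * (((2:ℝ)^k)⁻¹ * (Lv g k).indicator g x) := by
      funext x; field_simp
    have b1 : BM μ (fun x => ((2:ℝ)^j)⁻¹ * (Lv f j).indicator f x) := hfj.const_mul _
    have b2 : BM ν (fun x => ((2:ℝ)^k)⁻¹ * (Lv g k).indicator g x) := hgk.const_mul _
    rw [e1, hB.mul_left _ _ _ b1 hgk, e2, hB.mul_right _ _ _ b1 b2]
    have hb := hR (Lv f j) (Lv g k) (measurableSet_Lv hf.meas j) (measurableSet_Lv hg.meas k)
      (pos_iff_ne_zero.2 h0.1) (Lv_finite hf j) (pos_iff_ne_zero.2 h0.2) (Lv_finite hg k)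
      _ _ b1.meas b2.meas (fun x => by
        by_cases hx : x ∈ Lv f j
        · rw [Set.indicator_of_mem hx, Set.indicator_of_mem hx, abs_mul, abs_of_pos (by positivity)]
          rw [inv_mul_le_iff₀ hj, mul_one]; exact hx.2
        · rw [Set.indicator_of_notMem hx, Set.indicator_of_notMem hx, mul_zero, abs_zero])
      (fun x => by
        by_cases hx : x ∈ Lv g k
        · rw [Set.indicator_of_mem hx, Set.indicator_of_mem hx, abs_mul, abs_of_pos (by positivity)]
          rw [inv_mul_le_iff₀ hk, mul_one]; exact hx.2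
        · rw [Set.indicator_of_notMem hx, Set.indicator_of_notMem hx, mul_zero, abs_zero])
    rw [abs_mul, abs_mul, abs_of_pos hj, abs_of_pos hk]
    calc (2:ℝ)^j * ((2:ℝ)^k * _) ≤ (2:ℝ)^j * ((2:ℝ)^k * _) :=
          mul_le_mul_of_nonneg_left (mul_le_mul_of_nonneg_left hb hk.le) hj.le
      _ = _ := by ring

theorem small_le {h : X → ℝ} (hh : BM μ h) (m' : ℤ) :
    ∫ x, (Sm h m').indicator h x ^ 2 ∂μ ≤ (4:ℝ)^m' * μ.real (Function.support h) := by
  have hSs : MeasurableSet (Function.support h) := measurableSet_support hh.meas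
  have : ∫ x, (Sm h m').indicator h x ^ 2 ∂μ ≤
      ∫ x, (Function.support h).indicator (fun _ => (4:ℝ)^m') x ∂μ := by
    refine integral_mono (hh.indicator (measurableSet_Sm hh.meas m')).integrable_sq
      ((integrable_indicator_iff hSs).2 (integrableOn_const hh.supp.ne)) fun x => ?_
    show (Sm h m').indicator h x ^ 2 ≤ (Function.support h).indicator (fun _ => (4:ℝ)^m') x
    by_cases hx : x ∈ Function.support h
    · rw [Set.indicator_of_mem hx]
      by_cases hx2 : x ∈ Sm h m'
      · rw [Set.indicator_of_mem hx2, ← sq_abs]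
        have h3 : |h x| ≤ (2:ℝ)^m' := hx2
        calc |h x| ^ 2 ≤ ((2:ℝ)^m')^2 := pow_le_pow_left₀ (abs_nonneg _) h3 2
          _ = (4:ℝ)^m' := by rw [pow_two, ← mul_zpow]; norm_num
      · rw [Set.indicator_of_notMem hx2]
        have : (0:ℝ) ≤ (4:ℝ)^m' := by positivity
        simpa using this
    · rw [Set.indicator_of_notMem hx]
      have h0 : h x = 0 := by simpa using hx
      have : (Sm h m').indicator h x = 0 := by
        by_cases hx2 : x ∈ Sm h m'
        · rw [Set.indicator_of_mem hx2, h0]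
        · rw [Set.indicator_of_notMem hx2]
      rw [this]; simp
  rw [integral_indicator_const _ hSs, smul_eq_mul, mul_comm] at this
  rw [mul_comm]
  exact (mul_comm (4 ^ m') (μ.real (Function.support h))) ▸ this

/-- [RS] for forms: restricted bounds with a summable gain imply the strong bound. -/
theorem rs_form (hB : IsForm μ ν B) {ψ : ℤ → ℝ} (hψ : ∀ n, 0 ≤ ψ n) (hs : Summable ψ)
    (hR : RestrictedGain μ ν B ψ) {f : X → ℝ} {g : Y → ℝ} (hf : BM μ f) (hg : BM ν g) :
    |B f g| ≤ 24 * (∑' n, ψ n) * (√(∫ x, f x ^ 2 ∂μ) * √(∫ y, g y ^ 2 ∂ν)) := by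
  obtain ⟨K, hK⟩ := hB.crude
  have hS : 0 ≤ ∑' n, ψ n := tsum_nonneg hψ
  have hX : 0 ≤ ∫ x, f x ^ 2 ∂μ := integral_nonneg fun x => sq_nonneg _
  have hY : 0 ≤ ∫ y, g y ^ 2 ∂ν := integral_nonneg fun x => sq_nonneg _
  have main : ∀ t : ℝ, 0 < t → |B f g| ≤
      12 * (∑' n, ψ n) * (t * (∫ x, f x ^ 2 ∂μ) + t⁻¹ * ∫ y, g y ^ 2 ∂ν) := by
    intro t ht
    obtain ⟨M₁, hM₁⟩ := hf.bdd
    obtain ⟨M₂, hM₂⟩ := hg.bdd
    obtain ⟨b, hb⟩ := pow_unbounded_of_one_lt (max M₁ M₂) (one_lt_two)
    -- remainder tends to zero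
    have hrem : ∀ m : ℕ, |B f g| ≤
        |K| * (√((4:ℝ)^(-(m:ℤ)) * μ.real (Function.support f)) * √(∫ y, g y ^ 2 ∂ν)) +
        |K| * (√(∫ x, f x ^ 2 ∂μ) * √((4:ℝ)^(-(m:ℤ)) * ν.real (Function.support g))) +
        12 * (∑' n, ψ n) * (t * (∫ x, f x ^ 2 ∂μ) + t⁻¹ * ∫ y, g y ^ 2 ∂ν) := by
      intro m
      set m' : ℤ := -(m:ℤ) with hm'
      set n : ℕ := m + b with hn
      have hmn : m' + (n:ℤ) = (b:ℤ) := by rw [hm', hn]; push_cast; ring
      have hfb : ∀ x, |f x| ≤ (2:ℝ)^(m' + n) := by
        intro x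
        rw [hmn, zpow_natCast]
        exact (hM₁ x).trans ((le_max_left _ _).trans hb.le)
      have hgb : ∀ x, |g x| ≤ (2:ℝ)^(m' + n) := by
        intro x
        rw [hmn, zpow_natCast]
        exact (hM₂ x).trans ((le_max_right _ _).trans hb.le)
      have hfr : BM μ ((Sm f m').indicator f) := hf.indicator (measurableSet_Sm hf.meas m')
      have hgr : BM ν ((Sm g m').indicator g) := hg.indicator (measurableSet_Sm hg.meas m')
      have hfj : ∀ j ∈ lvs m' n, BM μ ((Lv f j).indicator f) :=
        fun j _ => hf.indicator (measurableSet_Lv hf.meas j)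
      have hgk : ∀ j ∈ lvs m' n, BM ν ((Lv g j).indicator g) :=
        fun j _ => hg.indicator (measurableSet_Lv hg.meas j)
      have hfS := BM.sum (lvs m' n) hfj
      have hgS := BM.sum (lvs m' n) hgk
      have ef : f = fun x => (Sm f m').indicator f x + ∑ j ∈ lvs m' n, (Lv f j).indicator f x :=
        funext fun x => level_decomp f m' n hfb x
      have eg : g = fun x => (Sm g m').indicator g x + ∑ j ∈ lvs m' n, (Lv g j).indicator g x :=
        funext fun x => level_decomp g m' n hgb x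
      have e1 : B f g = B ((Sm f m').indicator f) g +
          B (fun x => ∑ j ∈ lvs m' n, (Lv f j).indicator f x) ((Sm g m').indicator g) +
          ∑ j ∈ lvs m' n, ∑ k ∈ lvs m' n, B ((Lv f j).indicator f) ((Lv g k).indicator g) := by
        calc B f g = B (fun x => (Sm f m').indicator f x +
              ∑ j ∈ lvs m' n, (Lv f j).indicator f x) g := by rw [← ef]
          _ = B ((Sm f m').indicator f) g +
              B (fun x => ∑ j ∈ lvs m' n, (Lv f j).indicator f x) g :=
              hB.add_left _ _ _ hfr hfS hg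
          _ = B ((Sm f m').indicator f) g +
              B (fun x => ∑ j ∈ lvs m' n, (Lv f j).indicator f x)
                (fun x => (Sm g m').indicator g x + ∑ j ∈ lvs m' n, (Lv g j).indicator g x) := by
              rw [← eg]
          _ = _ := by
              rw [hB.add_right _ _ _ hfS hgr hgS, hB.sum_left _ hfj hgS, ← add_assoc]
              congr 1
              refine Finset.sum_congr rfl fun j hj => ?_
              rw [hB.sum_right _ hgk (hfj j hj)]
      have t1 : |B ((Sm f m').indicator f) g| ≤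
          |K| * (√((4:ℝ)^m' * μ.real (Function.support f)) * √(∫ y, g y ^ 2 ∂ν)) := by
        refine (hK _ _ hfr hg).trans ?_
        refine mul_le_mul (le_abs_self K) ?_ (by positivity) (abs_nonneg K)
        exact mul_le_mul_of_nonneg_right (Real.sqrt_le_sqrt (small_le hf m')) (Real.sqrt_nonneg _)
      have hfS2 : ∫ x, (∑ j ∈ lvs m' n, (Lv f j).indicator f x) ^ 2 ∂μ ≤ ∫ x, f x ^ 2 ∂μ := by
        refine integral_mono hfS.integrable_sq hf.integrable_sq fun x => ?_
        show (∑ j ∈ lvs m' n, (Lv f j).indicator f x) ^ 2 ≤ f x ^ 2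
        have h1 := level_decomp f m' n hfb x
        by_cases hx : x ∈ Sm f m'
        · rw [Set.indicator_of_mem hx] at h1
          have : ∑ j ∈ lvs m' n, (Lv f j).indicator f x = 0 := by linarith
          rw [this]; simp; positivity
        · rw [Set.indicator_of_notMem hx, zero_add] at h1
          rw [← h1]
      have t2 : |B (fun x => ∑ j ∈ lvs m' n, (Lv f j).indicator f x) ((Sm g m').indicator g)| ≤
          |K| * (√(∫ x, f x ^ 2 ∂μ) * √((4:ℝ)^m' * ν.real (Function.support g))) := by
        refine (hK _ _ hfS hgr).trans ?_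
        refine mul_le_mul (le_abs_self K) ?_ (by positivity) (abs_nonneg K)
        exact mul_le_mul (Real.sqrt_le_sqrt hfS2) (Real.sqrt_le_sqrt (small_le hg m'))
          (Real.sqrt_nonneg _) (Real.sqrt_nonneg _)
      have t3 : |∑ j ∈ lvs m' n, ∑ k ∈ lvs m' n,
          B ((Lv f j).indicator f) ((Lv g k).indicator g)| ≤
          12 * (∑' n, ψ n) * (t * (∫ x, f x ^ 2 ∂μ) + t⁻¹ * ∫ y, g y ^ 2 ∂ν) := by
        classical
        set J := (lvs m' n).filter fun j => μ (Lv f j) ≠ 0 with hJ
        set K' := (lvs m' n).filter fun k => ν (Lv g k) ≠ 0 with hK'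
        have c1 : |∑ j ∈ lvs m' n, ∑ k ∈ lvs m' n,
            B ((Lv f j).indicator f) ((Lv g k).indicator g)| ≤
            ∑ j ∈ J, ∑ k ∈ K', (2:ℝ)^j * √(μ.real (Lv f j)) * ((2:ℝ)^k * √(ν.real (Lv g k))) *
              ψ (Int.log 2 (ν.real (Lv g k)) - Int.log 2 (μ.real (Lv f j))) := by
          refine (Finset.abs_sum_le_sum_abs _ _).trans ?_
          rw [hJ, Finset.sum_filter]
          refine Finset.sum_le_sum fun j _ => ?_
          refine (Finset.abs_sum_le_sum_abs _ _).trans ?_
          by_cases hj : μ (Lv f j) = 0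
          · simp only [hj, ne_eq, not_true_eq_false, if_false]
            refine Finset.sum_nonpos fun k _ => ?_
            have := level_pair hB hR hf hg j k
            simpa [hj] using this
          · rw [if_pos hj, hK', Finset.sum_filter]
            refine Finset.sum_le_sum fun k _ => ?_
            have := level_pair hB hR hf hg j k
            by_cases hk : ν (Lv g k) = 0
            · simpa [hk] using this
            · simp only [hj, hk, or_self, if_false] at this
              rw [if_pos hk]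
              exact this
        have pos1 : ∀ j ∈ J, 0 < μ.real (Lv f j) := by
          intro j hj
          rw [hJ, Finset.mem_filter] at hj
          exact ENNReal.toReal_pos hj.2 (Lv_finite hf j).ne
        have pos2 : ∀ j ∈ K', 0 < ν.real (Lv g j) := by
          intro j hj
          rw [hK', Finset.mem_filter] at hj
          exact ENNReal.toReal_pos hj.2 (Lv_finite hg j).ne
        have c2 := rs_core J K' (fun j => μ.real (Lv f j)) (fun k => ν.real (Lv g k)) pos1 pos2
          ψ hψ hs ht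
        have c3 := level_sum_le hf J
        have c4 := level_sum_le hg K'
        refine c1.trans (c2.trans ?_)
        have c5 : t * ∑ j ∈ J, (4:ℝ)^j * μ.real (Lv f j) + t⁻¹ * ∑ k ∈ K', (4:ℝ)^k * ν.real (Lv g k)
            ≤ 4 * (t * (∫ x, f x ^ 2 ∂μ) + t⁻¹ * ∫ y, g y ^ 2 ∂ν) := by
          have := mul_le_mul_of_nonneg_left c3 ht.le
          have := mul_le_mul_of_nonneg_left c4 (inv_pos.2 ht).le
          linarith
        calc 3 * (∑' n, ψ n) * _ ≤ 3 * (∑' n, ψ n) *
              (4 * (t * (∫ x, f x ^ 2 ∂μ) + t⁻¹ * ∫ y, g y ^ 2 ∂ν)) :=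
              mul_le_mul_of_nonneg_left c5 (by positivity)
          _ = _ := by ring
      rw [e1]
      refine (abs_add_le _ _).trans (add_le_add ((abs_add_le _ _).trans (add_le_add t1 t2)) t3)
    -- limit
    have hlim4 : Filter.Tendsto (fun m : ℕ => (4:ℝ)^(-(m:ℤ))) Filter.atTop (nhds 0) := by
      have : (fun m : ℕ => (4:ℝ)^(-(m:ℤ))) = fun m : ℕ => ((4:ℝ)⁻¹)^m := by
        funext m; rw [zpow_neg, zpow_natCast, inv_pow]
      rw [this]
      exact tendsto_pow_atTop_nhds_zero_of_lt_one (by norm_num) (by norm_num)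
    have hl1 : Filter.Tendsto (fun m : ℕ =>
        √((4:ℝ)^(-(m:ℤ)) * μ.real (Function.support f))) Filter.atTop (nhds 0) := by
      have := (hlim4.mul_const (μ.real (Function.support f)))
      rw [zero_mul] at this
      have h := (Real.continuous_sqrt.tendsto 0).comp this
      rw [Real.sqrt_zero] at h
      exact h
    have hl2 : Filter.Tendsto (fun m : ℕ =>
        √((4:ℝ)^(-(m:ℤ)) * ν.real (Function.support g))) Filter.atTop (nhds 0) := by
      have := (hlim4.mul_const (ν.real (Function.support g)))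
      rw [zero_mul] at this
      have h := (Real.continuous_sqrt.tendsto 0).comp this
      rw [Real.sqrt_zero] at h
      exact h
    have hl : Filter.Tendsto (fun m : ℕ =>
        |K| * (√((4:ℝ)^(-(m:ℤ)) * μ.real (Function.support f)) * √(∫ y, g y ^ 2 ∂ν)) +
        |K| * (√(∫ x, f x ^ 2 ∂μ) * √((4:ℝ)^(-(m:ℤ)) * ν.real (Function.support g))) +
        12 * (∑' n, ψ n) * (t * (∫ x, f x ^ 2 ∂μ) + t⁻¹ * ∫ y, g y ^ 2 ∂ν)) Filter.atTop
        (nhds (|K| * (0 * √(∫ y, g y ^ 2 ∂ν)) + |K| * (√(∫ x, f x ^ 2 ∂μ) * 0) +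
          12 * (∑' n, ψ n) * (t * (∫ x, f x ^ 2 ∂μ) + t⁻¹ * ∫ y, g y ^ 2 ∂ν))) :=
      (((hl1.mul_const _).const_mul _).add ((hl2.const_mul _).const_mul _)).add_const _
    have := ge_of_tendsto' hl hrem
    simpa using this
  have := le_of_forall_t (b := |B f g|) (c := 12 * ∑' n, ψ n) (by positivity) hX hY main
  calc |B f g| ≤ 2 * (12 * ∑' n, ψ n) * (√(∫ x, f x ^ 2 ∂μ) * √(∫ y, g y ^ 2 ∂ν)) := this
    _ = _ := by ring

end Vale.Agent.P112.H694
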