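import Vale.Agent.P112.H694.RSOp

/-!
P112 [RS], general classes of test functions; the restricted hypothesis is only used for
`f`, `g` in the classes with values in `[1/2, 1]` (in absolute value) on their supports.
-/

namespace Vale.Agent.P112.H694.Gen

open MeasureTheory Filter Topology

variable {X Y : Type*} [MeasurableSpace X] [MeasurableSpace Y]

/-- A class of test functions. -/
structure Cls (μ : Measure X) (P : (X → ℝ) → Prop) : Prop where
  bm : ∀ f, P f → BM μ f
  zero : P fun _ => 0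
  add : ∀ f g, P f → P g → P fun x => f x + g x
  const_mul : ∀ (c : ℝ) f, P f → P fun x => c * f x
  ind : ∀ f (S : Set X), P f → MeasurableSet S → P (S.indicator f)
  exh : ∃ A : ℕ → Set X, (∀ n, MeasurableSet (A n)) ∧ (∀ x, ∀ᶠ n in atTop, x ∈ A n) ∧
    ∀ f n, Measurable f → (∃ M : ℝ, ∀ x, |f x| ≤ M) → P ((A n).indicator f)

theorem Cls.sum {μ : Measure X} {P : (X → ℝ) → Prop} (hP : Cls μ P) {ι : Type*} (s : Finset ι)
    {F : ι → X → ℝ} (hF : ∀ i ∈ s, P (F i)) : P (fun x => ∑ i ∈ s, F i x) := by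
  classical
  induction s using Finset.induction_on with
  | empty => simpa using hP.zero
  | insert a s ha ih =>
    have h1 := hP.add _ _ (hF a (Finset.mem_insert_self _ _))
      (ih fun i hi => hF i (Finset.mem_insert_of_mem hi))
    simpa only [Finset.sum_insert ha] using h1

/-- A form on `P × Q` with a crude bound. -/
structure IsForm (μ : Measure X) (ν : Measure Y) (P : (X → ℝ) → Prop) (Q : (Y → ℝ) → Prop)
    (B : (X → ℝ) → (Y → ℝ) → ℝ) : Prop where
  add_left : ∀ f f' g, P f → P f' → Q g →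
    B (fun x => f x + f' x) g = B f g + B f' g
  add_right : ∀ f g g', P f → Q g → Q g' →
    B f (fun y => g y + g' y) = B f g + B f g'
  mul_left : ∀ (c : ℝ) f g, P f → Q g → B (fun x => c * f x) g = c * B f g
  mul_right : ∀ (c : ℝ) f g, P f → Q g → B f (fun y => c * g y) = c * B f g
  crude : ∃ K : ℝ, ∀ f g, P f → Q g →
    |B f g| ≤ K * (√(∫ x, f x ^ 2 ∂μ) * √(∫ y, g y ^ 2 ∂ν))

/-- The restricted bound with gain `ψ`: only for functions with values in `{0} ∪ [1/2, 1]`
(in absolute value). -/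
def RestrictedGain (μ : Measure X) (ν : Measure Y) (P : (X → ℝ) → Prop) (Q : (Y → ℝ) → Prop)
    (B : (X → ℝ) → (Y → ℝ) → ℝ) (ψ : ℤ → ℝ) : Prop :=
  ∀ f g, P f → Q g → (∀ x, |f x| ≤ 1) → (∀ y, |g y| ≤ 1) →
    (∀ x, f x ≠ 0 → 1 / 2 ≤ |f x|) → (∀ y, g y ≠ 0 → 1 / 2 ≤ |g y|) →
    0 < μ (Function.support f) → 0 < ν (Function.support g) →
      |B f g| ≤ √(μ.real (Function.support f)) * √(ν.real (Function.support g)) *
        ψ (Int.log 2 (ν.real (Function.support g)) - Int.log 2 (μ.real (Function.support f)))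

variable {μ : Measure X} {ν : Measure Y} {P : (X → ℝ) → Prop} {Q : (Y → ℝ) → Prop}
  {B : (X → ℝ) → (Y → ℝ) → ℝ}

theorem IsForm.sum_left (hB : IsForm μ ν P Q B) (hP : Cls μ P) {ι : Type*} (s : Finset ι)
    {F : ι → X → ℝ} {g : Y → ℝ} (hF : ∀ i ∈ s, P (F i)) (hg : Q g) :
    B (fun x => ∑ i ∈ s, F i x) g = ∑ i ∈ s, B (F i) g := by
  classical
  induction s using Finset.induction_on with
  | empty =>
    have := hB.mul_left 0 (fun _ => 0) g hP.zero hg
    simpa using this
  | insert a s ha ih =>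
    have h1 := fun i hi => hF i (Finset.mem_insert_of_mem (a := i) (b := a) (s := s) hi)
    simp only [Finset.sum_insert ha]
    rw [hB.add_left _ _ _ (hF a (Finset.mem_insert_self _ _)) (hP.sum s h1) hg, ih h1]

theorem IsForm.sum_right (hB : IsForm μ ν P Q B) (hQ : Cls ν Q) {ι : Type*} (s : Finset ι)
    {f : X → ℝ} {G : ι → Y → ℝ} (hG : ∀ i ∈ s, Q (G i)) (hf : P f) :
    B f (fun y => ∑ i ∈ s, G i y) = ∑ i ∈ s, B f (G i) := by
  classical
  induction s using Finset.induction_on with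
  | empty =>
    have := hB.mul_right 0 f (fun _ => 0) hf hQ.zero
    simpa using this
  | insert a s ha ih =>
    have h1 := fun i hi => hG i (Finset.mem_insert_of_mem (a := i) (b := a) (s := s) hi)
    simp only [Finset.sum_insert ha]
    rw [hB.add_right _ _ _ hf (hG a (Finset.mem_insert_self _ _)) (hQ.sum s h1), ih h1]

omit [MeasurableSpace X] in
theorem lev_le (f : X → ℝ) (j : ℤ) (x : X) : |((2:ℝ)^j)⁻¹ * (Lv f j).indicator f x| ≤ 1 := by
  have hj : (0:ℝ) < (2:ℝ)^j := by positivity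
  by_cases hx : x ∈ Lv f j
  · rw [Set.indicator_of_mem hx, abs_mul, abs_of_pos (by positivity), inv_mul_le_iff₀ hj, mul_one]
    exact hx.2
  · rw [Set.indicator_of_notMem hx, mul_zero, abs_zero]; norm_num

omit [MeasurableSpace X] in
theorem lev_ge (f : X → ℝ) (j : ℤ) (x : X) (h : ((2:ℝ)^j)⁻¹ * (Lv f j).indicator f x ≠ 0) :
    1 / 2 ≤ |((2:ℝ)^j)⁻¹ * (Lv f j).indicator f x| := by
  have hj : (0:ℝ) < (2:ℝ)^j := by positivity
  by_cases hx : x ∈ Lv f j
  · rw [Set.indicator_of_mem hx, abs_mul, abs_of_pos (by positivity)]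
    have h1 := hx.1
    rw [zpow_sub₀ (by norm_num), zpow_one] at h1
    rw [div_le_iff₀ (by norm_num)]
    have : (2:ℝ)^j ≤ |f x| * 2 := by linarith
    calc (1:ℝ) = ((2:ℝ)^j)⁻¹ * (2:ℝ)^j := (inv_mul_cancel₀ hj.ne').symm
      _ ≤ ((2:ℝ)^j)⁻¹ * (|f x| * 2) := mul_le_mul_of_nonneg_left this (by positivity)
      _ = _ := by ring
  · rw [Set.indicator_of_notMem hx, mul_zero] at h
    exact absurd rfl h

omit [MeasurableSpace X] in
theorem lev_supp (f : X → ℝ) (j : ℤ) :
    Function.support (fun x => ((2:ℝ)^j)⁻¹ * (Lv f j).indicator f x) = Lv f j := by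
  ext x
  have hj : (0:ℝ) < (2:ℝ)^j := by positivity
  simp only [Function.mem_support]
  constructor
  · intro h
    by_contra hx
    rw [Set.indicator_of_notMem hx, mul_zero] at h
    exact h rfl
  · intro hx
    rw [Set.indicator_of_mem hx]
    have h1 : (0:ℝ) < (2:ℝ)^(j-1) := by positivity
    have h2 := h1.trans hx.1
    exact mul_ne_zero (by positivity) (abs_pos.1 h2)

/-- One pair of levels. -/
theorem level_pair (hB : IsForm μ ν P Q B) (hP : Cls μ P) (hQ : Cls ν Q) {ψ : ℤ → ℝ}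
    (hR : RestrictedGain μ ν P Q B ψ) {f : X → ℝ} {g : Y → ℝ} (hf : P f) (hg : Q g) (j k : ℤ) :
    |B ((Lv f j).indicator f) ((Lv g k).indicator g)| ≤
      (if μ (Lv f j) = 0 ∨ ν (Lv g k) = 0 then 0 else
        (2:ℝ)^j * √(μ.real (Lv f j)) * ((2:ℝ)^k * √(ν.real (Lv g k))) *
        ψ (Int.log 2 (ν.real (Lv g k)) - Int.log 2 (μ.real (Lv f j)))) := by
  obtain ⟨K, hK⟩ := hB.crude
  have hfb := hP.bm f hf
  have hgb := hQ.bm g hg
  have hfj := hP.ind f _ hf (measurableSet_Lv hfb.meas j)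
  have hgk := hQ.ind g _ hg (measurableSet_Lv hgb.meas k)
  split_ifs with h0
  · have h1 := hK _ _ hfj hgk
    rcases h0 with h0 | h0
    · have : ∫ x, (Lv f j).indicator f x ^ 2 ∂μ = 0 := by
        apply integral_eq_zero_of_ae
        have : ∀ᵐ x ∂μ, x ∉ Lv f j := by
          rw [ae_iff]; simpa using h0
        filter_upwards [this] with x hx
        rw [Set.indicator_of_notMem hx]; simp
      rw [this] at h1
      simpa using h1
    · have : ∫ x, (Lv g k).indicator g x ^ 2 ∂ν = 0 := by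
        apply integral_eq_zero_of_ae
        have : ∀ᵐ x ∂ν, x ∉ Lv g k := by
          rw [ae_iff]; simpa using h0
        filter_upwards [this] with x hx
        rw [Set.indicator_of_notMem hx]; simp
      rw [this] at h1
      simpa using h1
  · push Not at h0
    have hj : (0:ℝ) < (2:ℝ)^j := by positivity
    have hk : (0:ℝ) < (2:ℝ)^k := by positivity
    have e1 : (Lv f j).indicator f = fun x => (2:ℝ)^j * (((2:ℝ)^j)⁻¹ * (Lv f j).indicator f x) := by
      funext x; field_simp
    have e2 : (Lv g k).indicator g = fun x => (2:ℝ)^k * (((2:ℝ)^k)⁻¹ * (Lv g k).indicator g x) := by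
      funext x; field_simp
    have b1 : P (fun x => ((2:ℝ)^j)⁻¹ * (Lv f j).indicator f x) := hP.const_mul _ _ hfj
    have b2 : Q (fun x => ((2:ℝ)^k)⁻¹ * (Lv g k).indicator g x) := hQ.const_mul _ _ hgk
    rw [e1, hB.mul_left _ _ _ b1 hgk, e2, hB.mul_right _ _ _ b1 b2]
    have sup1 := lev_supp f j
    have sup2 := lev_supp g k
    have hb := hR _ _ b1 b2 (lev_le f j) (lev_le g k) (lev_ge f j) (lev_ge g k)
      (by rw [sup1]; exact pos_iff_ne_zero.2 h0.1) (by rw [sup2]; exact pos_iff_ne_zero.2 h0.2)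
    rw [sup1, sup2] at hb
    rw [abs_mul, abs_mul, abs_of_pos hj, abs_of_pos hk]
    calc (2:ℝ)^j * ((2:ℝ)^k * _) ≤ (2:ℝ)^j * ((2:ℝ)^k * _) :=
          mul_le_mul_of_nonneg_left (mul_le_mul_of_nonneg_left hb hk.le) hj.le
      _ = _ := by ring

/-- [RS] for forms: restricted bounds with a summable gain imply the strong bound. -/
theorem rs_form (hB : IsForm μ ν P Q B) (hP : Cls μ P) (hQ : Cls ν Q) {ψ : ℤ → ℝ}
    (hψ : ∀ n, 0 ≤ ψ n) (hs : Summable ψ)
    (hR : RestrictedGain μ ν P Q B ψ) {f : X → ℝ} {g : Y → ℝ} (hf : P f) (hg : Q g) :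
    |B f g| ≤ 24 * (∑' n, ψ n) * (√(∫ x, f x ^ 2 ∂μ) * √(∫ y, g y ^ 2 ∂ν)) := by
  obtain ⟨K, hK⟩ := hB.crude
  have hS : 0 ≤ ∑' n, ψ n := tsum_nonneg hψ
  have hX : 0 ≤ ∫ x, f x ^ 2 ∂μ := integral_nonneg fun x => sq_nonneg _
  have hY : 0 ≤ ∫ y, g y ^ 2 ∂ν := integral_nonneg fun x => sq_nonneg _
  have main : ∀ t : ℝ, 0 < t → |B f g| ≤
      12 * (∑' n, ψ n) * (t * (∫ x, f x ^ 2 ∂μ) + t⁻¹ * ∫ y, g y ^ 2 ∂ν) := by
    intro t ht
    have hfB := hP.bm f hf
    have hgB := hQ.bm g hg
    obtain ⟨M₁, hM₁⟩ := hfB.bdd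
    obtain ⟨M₂, hM₂⟩ := hgB.bdd
    obtain ⟨b, hb⟩ := pow_unbounded_of_one_lt (max M₁ M₂) (one_lt_two)
    -- remainder tends to zero
    have hrem : ∀ m : ℕ, |B f g| ≤
        |K| * (√((4:ℝ)^(-(m:ℤ)) * μ.real (Function.support f)) * √(∫ y, g y ^ 2 ∂ν)) +
        |K| * (√(∫ x, f x ^ 2 ∂μ) * √((4:ℝ)^(-(m:ℤ)) * ν.real (Function.support g))) +
        12 * (∑' n, ψ n) * (t * (∫ x, f x ^ 2 ∂μ) + t⁻¹ * ∫ y, g y ^ 2 ∂ν) := by
      intro m
      set m' : ℤ := -(m:ℤ) with hm'
      set n : ℕ := m + b with hn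
      have hmn : m' + (n:ℤ) = (b:ℤ) := by rw [hm', hn]; push_cast; ring
      have hfb : ∀ x, |f x| ≤ (2:ℝ)^(m' + n) := by
        intro x
        rw [hmn, zpow_natCast]
        exact (hM₁ x).trans ((le_max_left _ _).trans hb.le)
      have hgb : ∀ x, |g x| ≤ (2:ℝ)^(m' + n) := by
        intro x
        rw [hmn, zpow_natCast]
        exact (hM₂ x).trans ((le_max_right _ _).trans hb.le)
      have hfr : P ((Sm f m').indicator f) := hP.ind _ _ hf (measurableSet_Sm hfB.meas m')
      have hgr : Q ((Sm g m').indicator g) := hQ.ind _ _ hg (measurableSet_Sm hgB.meas m')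
      have hfj : ∀ j ∈ lvs m' n, P ((Lv f j).indicator f) :=
        fun j _ => hP.ind _ _ hf (measurableSet_Lv hfB.meas j)
      have hgk : ∀ j ∈ lvs m' n, Q ((Lv g j).indicator g) :=
        fun j _ => hQ.ind _ _ hg (measurableSet_Lv hgB.meas j)
      have hfS := hP.sum (lvs m' n) hfj
      have hgS := hQ.sum (lvs m' n) hgk
      have ef : f = fun x => (Sm f m').indicator f x + ∑ j ∈ lvs m' n, (Lv f j).indicator f x :=
        funext fun x => level_decomp f m' n hfb x
      have eg : g = fun x => (Sm g m').indicator g x + ∑ j ∈ lvs m' n, (Lv g j).indicator g x :=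
        funext fun x => level_decomp g m' n hgb x
      have e1 : B f g = B ((Sm f m').indicator f) g +
          B (fun x => ∑ j ∈ lvs m' n, (Lv f j).indicator f x) ((Sm g m').indicator g) +
          ∑ j ∈ lvs m' n, ∑ k ∈ lvs m' n, B ((Lv f j).indicator f) ((Lv g k).indicator g) := by
        calc B f g = B (fun x => (Sm f m').indicator f x +
              ∑ j ∈ lvs m' n, (Lv f j).indicator f x) g := by rw [← ef]
          _ = B ((Sm f m').indicator f) g +
              B (fun x => ∑ j ∈ lvs m' n, (Lv f j).indicator f x) g :=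
              hB.add_left _ _ _ hfr hfS hg
          _ = B ((Sm f m').indicator f) g +
              B (fun x => ∑ j ∈ lvs m' n, (Lv f j).indicator f x)
                (fun x => (Sm g m').indicator g x + ∑ j ∈ lvs m' n, (Lv g j).indicator g x) := by
              rw [← eg]
          _ = _ := by
              rw [hB.add_right _ _ _ hfS hgr hgS, hB.sum_left hP _ hfj hgS, ← add_assoc]
              congr 1
              refine Finset.sum_congr rfl fun j hj => ?_
              rw [hB.sum_right hQ _ hgk (hfj j hj)]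
      have t1 : |B ((Sm f m').indicator f) g| ≤
          |K| * (√((4:ℝ)^m' * μ.real (Function.support f)) * √(∫ y, g y ^ 2 ∂ν)) := by
        refine (hK _ _ hfr hg).trans ?_
        refine mul_le_mul (le_abs_self K) ?_ (by positivity) (abs_nonneg K)
        exact mul_le_mul_of_nonneg_right (Real.sqrt_le_sqrt (small_le hfB m')) (Real.sqrt_nonneg _)
      have hfS2 : ∫ x, (∑ j ∈ lvs m' n, (Lv f j).indicator f x) ^ 2 ∂μ ≤ ∫ x, f x ^ 2 ∂μ := by
        refine integral_mono (hP.bm _ hfS).integrable_sq hfB.integrable_sq fun x => ?_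
        show (∑ j ∈ lvs m' n, (Lv f j).indicator f x) ^ 2 ≤ f x ^ 2
        have h1 := level_decomp f m' n hfb x
        by_cases hx : x ∈ Sm f m'
        · rw [Set.indicator_of_mem hx] at h1
          have : ∑ j ∈ lvs m' n, (Lv f j).indicator f x = 0 := by linarith
          rw [this]; simp; positivity
        · rw [Set.indicator_of_notMem hx, zero_add] at h1
          rw [← h1]
      have t2 : |B (fun x => ∑ j ∈ lvs m' n, (Lv f j).indicator f x) ((Sm g m').indicator g)| ≤
          |K| * (√(∫ x, f x ^ 2 ∂μ) * √((4:ℝ)^m' * ν.real (Function.support g))) := by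
        refine (hK _ _ hfS hgr).trans ?_
        refine mul_le_mul (le_abs_self K) ?_ (by positivity) (abs_nonneg K)
        exact mul_le_mul (Real.sqrt_le_sqrt hfS2) (Real.sqrt_le_sqrt (small_le hgB m'))
          (Real.sqrt_nonneg _) (Real.sqrt_nonneg _)
      have t3 : |∑ j ∈ lvs m' n, ∑ k ∈ lvs m' n,
          B ((Lv f j).indicator f) ((Lv g k).indicator g)| ≤
          12 * (∑' n, ψ n) * (t * (∫ x, f x ^ 2 ∂μ) + t⁻¹ * ∫ y, g y ^ 2 ∂ν) := by
        classical
        set J := (lvs m' n).filter fun j => μ (Lv f j) ≠ 0 with hJ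
        set K' := (lvs m' n).filter fun k => ν (Lv g k) ≠ 0 with hK'
        have c1 : |∑ j ∈ lvs m' n, ∑ k ∈ lvs m' n,
            B ((Lv f j).indicator f) ((Lv g k).indicator g)| ≤
            ∑ j ∈ J, ∑ k ∈ K', (2:ℝ)^j * √(μ.real (Lv f j)) * ((2:ℝ)^k * √(ν.real (Lv g k))) *
              ψ (Int.log 2 (ν.real (Lv g k)) - Int.log 2 (μ.real (Lv f j))) := by
          refine (Finset.abs_sum_le_sum_abs _ _).trans ?_
          rw [hJ, Finset.sum_filter]
          refine Finset.sum_le_sum fun j _ => ?_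
          refine (Finset.abs_sum_le_sum_abs _ _).trans ?_
          by_cases hj : μ (Lv f j) = 0
          · simp only [hj, ne_eq, not_true_eq_false, if_false]
            refine Finset.sum_nonpos fun k _ => ?_
            have := level_pair hB hP hQ hR hf hg j k
            simpa [hj] using this
          · rw [if_pos hj, hK', Finset.sum_filter]
            refine Finset.sum_le_sum fun k _ => ?_
            have := level_pair hB hP hQ hR hf hg j k
            by_cases hk : ν (Lv g k) = 0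
            · simpa [hk] using this
            · simp only [hj, hk, or_self, if_false] at this
              rw [if_pos hk]
              exact this
        have pos1 : ∀ j ∈ J, 0 < μ.real (Lv f j) := by
          intro j hj
          rw [hJ, Finset.mem_filter] at hj
          exact ENNReal.toReal_pos hj.2 (Lv_finite hfB j).ne
        have pos2 : ∀ j ∈ K', 0 < ν.real (Lv g j) := by
          intro j hj
          rw [hK', Finset.mem_filter] at hj
          exact ENNReal.toReal_pos hj.2 (Lv_finite hgB j).ne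
        have c2 := rs_core J K' (fun j => μ.real (Lv f j)) (fun k => ν.real (Lv g k)) pos1 pos2
          ψ hψ hs ht
        have c3 := level_sum_le hfB J
        have c4 := level_sum_le hgB K'
        refine c1.trans (c2.trans ?_)
        have c5 : t * ∑ j ∈ J, (4:ℝ)^j * μ.real (Lv f j) + t⁻¹ * ∑ k ∈ K', (4:ℝ)^k * ν.real (Lv g k)
            ≤ 4 * (t * (∫ x, f x ^ 2 ∂μ) + t⁻¹ * ∫ y, g y ^ 2 ∂ν) := by
          have := mul_le_mul_of_nonneg_left c3 ht.le
          have := mul_le_mul_of_nonneg_left c4 (inv_pos.2 ht).le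
          linarith
        calc 3 * (∑' n, ψ n) * _ ≤ 3 * (∑' n, ψ n) *
              (4 * (t * (∫ x, f x ^ 2 ∂μ) + t⁻¹ * ∫ y, g y ^ 2 ∂ν)) :=
              mul_le_mul_of_nonneg_left c5 (by positivity)
          _ = _ := by ring
      rw [e1]
      refine (abs_add_le _ _).trans (add_le_add ((abs_add_le _ _).trans (add_le_add t1 t2)) t3)
    -- limit
    have hlim4 : Filter.Tendsto (fun m : ℕ => (4:ℝ)^(-(m:ℤ))) Filter.atTop (nhds 0) := by
      have : (fun m : ℕ => (4:ℝ)^(-(m:ℤ))) = fun m : ℕ => ((4:ℝ)⁻¹)^m := by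
        funext m; rw [zpow_neg, zpow_natCast, inv_pow]
      rw [this]
      exact tendsto_pow_atTop_nhds_zero_of_lt_one (by norm_num) (by norm_num)
    have hl1 : Filter.Tendsto (fun m : ℕ =>
        √((4:ℝ)^(-(m:ℤ)) * μ.real (Function.support f))) Filter.atTop (nhds 0) := by
      have := (hlim4.mul_const (μ.real (Function.support f)))
      rw [zero_mul] at this
      have h := (Real.continuous_sqrt.tendsto 0).comp this
      rw [Real.sqrt_zero] at h
      exact h
    have hl2 : Filter.Tendsto (fun m : ℕ =>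
        √((4:ℝ)^(-(m:ℤ)) * ν.real (Function.support g))) Filter.atTop (nhds 0) := by
      have := (hlim4.mul_const (ν.real (Function.support g)))
      rw [zero_mul] at this
      have h := (Real.continuous_sqrt.tendsto 0).comp this
      rw [Real.sqrt_zero] at h
      exact h
    have hl : Filter.Tendsto (fun m : ℕ =>
        |K| * (√((4:ℝ)^(-(m:ℤ)) * μ.real (Function.support f)) * √(∫ y, g y ^ 2 ∂ν)) +
        |K| * (√(∫ x, f x ^ 2 ∂μ) * √((4:ℝ)^(-(m:ℤ)) * ν.real (Function.support g))) +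
        12 * (∑' n, ψ n) * (t * (∫ x, f x ^ 2 ∂μ) + t⁻¹ * ∫ y, g y ^ 2 ∂ν)) Filter.atTop
        (nhds (|K| * (0 * √(∫ y, g y ^ 2 ∂ν)) + |K| * (√(∫ x, f x ^ 2 ∂μ) * 0) +
          12 * (∑' n, ψ n) * (t * (∫ x, f x ^ 2 ∂μ) + t⁻¹ * ∫ y, g y ^ 2 ∂ν))) :=
      (((hl1.mul_const _).const_mul _).add ((hl2.const_mul _).const_mul _)).add_const _
    have := ge_of_tendsto' hl hrem
    simpa using this
  have := le_of_forall_t (b := |B f g|) (c := 12 * ∑' n, ψ n) (by positivity) hX hY main
  calc |B f g| ≤ 2 * (12 * ∑' n, ψ n) * (√(∫ x, f x ^ 2 ∂μ) * √(∫ y, g y ^ 2 ∂ν)) := this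
    _ = _ := by ring

end Vale.Agent.P112.H694.Gen
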