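import Vale.Agent.P112.H694.RSForm

/-!
P112 [RS], operator level, and the logarithmic gain.
-/

namespace Vale.Agent.P112.H694

open MeasureTheory Filter Topology

variable {X Y : Type*} [MeasurableSpace X] [MeasurableSpace Y]
  {μ : Measure X} {ν : Measure Y}

/-- A linear operator on bounded functions with support of finite measure, with a crude
`L²` bound. -/
structure IsOp (μ : Measure X) (ν : Measure Y) (T : (X → ℝ) → (Y → ℝ)) : Prop where
  add : ∀ f f', BM μ f → BM μ f' → T (fun x => f x + f' x) =ᵐ[ν] fun y => T f y + T f' y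
  mul : ∀ (c : ℝ) f, BM μ f → T (fun x => c * f x) =ᵐ[ν] fun y => c * T f y
  meas : ∀ f, BM μ f → Measurable (T f)
  crude : ∃ K : ℝ, 0 ≤ K ∧ ∀ f, BM μ f →
    ∫⁻ y, ENNReal.ofReal (T f y ^ 2) ∂ν ≤ ENNReal.ofReal (K ^ 2 * ∫ x, f x ^ 2 ∂μ)

namespace IsOp

variable {T : (X → ℝ) → (Y → ℝ)}

theorem memLp (hT : IsOp μ ν T) {f : X → ℝ} (hf : BM μ f) : MemLp (T f) 2 ν := by
  obtain ⟨K, hK0, hK⟩ := hT.crude
  refine (memLp_two_iff_integrable_sq (hT.meas f hf).aestronglyMeasurable).2 ?_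
  refine ⟨((hT.meas f hf).pow_const 2).aestronglyMeasurable, ?_⟩
  rw [hasFiniteIntegral_iff_norm]
  refine lt_of_le_of_lt (le_trans (le_of_eq ?_) (hK f hf)) ENNReal.ofReal_lt_top
  refine lintegral_congr fun y => ?_
  rw [Real.norm_eq_abs, abs_of_nonneg (sq_nonneg _)]

theorem sq_le (hT : IsOp μ ν T) : ∃ K : ℝ, 0 ≤ K ∧ ∀ f, BM μ f →
    ∫ y, T f y ^ 2 ∂ν ≤ K ^ 2 * ∫ x, f x ^ 2 ∂μ := by
  obtain ⟨K, hK0, hK⟩ := hT.crude
  refine ⟨K, hK0, fun f hf => ?_⟩
  have h0 : 0 ≤ K ^ 2 * ∫ x, f x ^ 2 ∂μ :=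
    mul_nonneg (sq_nonneg _) (integral_nonneg fun _ => sq_nonneg _)
  rw [integral_eq_lintegral_of_nonneg_ae (Eventually.of_forall fun _ => sq_nonneg _)
    ((hT.meas f hf).pow_const 2).aestronglyMeasurable]
  exact ENNReal.toReal_le_of_le_ofReal h0 (hK f hf)

theorem cauchy {h g : Y → ℝ} (hh : MemLp h 2 ν) (hg : MemLp g 2 ν) :
    |∫ y, h y * g y ∂ν| ≤ √(∫ y, h y ^ 2 ∂ν) * √(∫ y, g y ^ 2 ∂ν) := by
  have h1 : |∫ y, h y * g y ∂ν| ≤ ∫ y, |h y| * |g y| ∂ν := by
    refine (abs_integral_le_integral_abs).trans (le_of_eq ?_)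
    exact integral_congr_ae (Eventually.of_forall fun y => abs_mul _ _)
  refine h1.trans ?_
  have := integral_mul_le_Lp_mul_Lq_of_nonneg (μ := ν) (p := 2) (q := 2)
    (Real.HolderConjugate.two_two) (f := fun y => |h y|) (g := fun y => |g y|)
    (Eventually.of_forall fun y => abs_nonneg _) (Eventually.of_forall fun y => abs_nonneg _)
    (by simpa using hh.norm) (by simpa using hg.norm)
  refine this.trans (le_of_eq ?_)
  rw [Real.sqrt_eq_rpow, Real.sqrt_eq_rpow]
  congr 2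
  · exact integral_congr_ae (Eventually.of_forall fun y => by
      show |h y| ^ (2:ℝ) = h y ^ 2
      rw [Real.rpow_two, sq_abs])
  · exact integral_congr_ae (Eventually.of_forall fun y => by
      show |g y| ^ (2:ℝ) = g y ^ 2
      rw [Real.rpow_two, sq_abs])

theorem isForm (hT : IsOp μ ν T) : IsForm μ ν (fun f g => ∫ y, T f y * g y ∂ν) := by
  have hi : ∀ {f : X → ℝ} {g : Y → ℝ}, BM μ f → BM ν g → Integrable (fun y => T f y * g y) ν :=
    fun hf hg => (hT.memLp hf).integrable_mul (hg.memLp 2)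
  refine ⟨fun f f' g hf hf' hg => ?_, fun f g g' hf hg hg' => ?_, fun c f g hf hg => ?_,
    fun c f g hf hg => ?_, ?_⟩
  · show ∫ y, T (fun x => f x + f' x) y * g y ∂ν = (∫ y, T f y * g y ∂ν) + ∫ y, T f' y * g y ∂ν
    rw [← integral_add (hi hf hg) (hi hf' hg)]
    refine integral_congr_ae ?_
    filter_upwards [hT.add f f' hf hf'] with y hy
    rw [hy, add_mul]
  · show ∫ y, T f y * (g y + g' y) ∂ν = (∫ y, T f y * g y ∂ν) + ∫ y, T f y * g' y ∂ν
    rw [← integral_add (hi hf hg) (hi hf hg')]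
    exact integral_congr_ae (Eventually.of_forall fun y => mul_add _ _ _)
  · show ∫ y, T (fun x => c * f x) y * g y ∂ν = c * ∫ y, T f y * g y ∂ν
    rw [← integral_const_mul]
    refine integral_congr_ae ?_
    filter_upwards [hT.mul c f hf] with y hy
    rw [hy, mul_assoc]
  · show ∫ y, T f y * (c * g y) ∂ν = c * ∫ y, T f y * g y ∂ν
    rw [← integral_const_mul]
    exact integral_congr_ae (Eventually.of_forall fun y => by ring)
  · obtain ⟨K, hK0, hK⟩ := hT.sq_le
    refine ⟨K, fun f g hf hg => ?_⟩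
    refine (cauchy (hT.memLp hf) (hg.memLp 2)).trans ?_
    rw [← mul_assoc]
    refine mul_le_mul_of_nonneg_right ?_ (Real.sqrt_nonneg _)
    calc √(∫ y, T f y ^ 2 ∂ν) ≤ √(K ^ 2 * ∫ x, f x ^ 2 ∂μ) := Real.sqrt_le_sqrt (hK f hf)
      _ = K * √(∫ x, f x ^ 2 ∂μ) := by
          rw [Real.sqrt_mul (sq_nonneg _), Real.sqrt_sq hK0]

end IsOp

/-- Duality: if `|∫ h g| ≤ A √∫ g²` for all bounded `g` with support of finite measure then
`∫ h² ≤ A²`. -/
theorem sq_le_of_dual {h : Y → ℝ} (hm : Measurable h) (hh : MemLp h 2 ν) {A : ℝ}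
    (H : ∀ g, BM ν g → |∫ y, h y * g y ∂ν| ≤ A * √(∫ y, g y ^ 2 ∂ν)) :
    ∫ y, h y ^ 2 ∂ν ≤ A ^ 2 := by
  have hint : Integrable (fun y => h y ^ 2) ν := hh.integrable_sq
  let S : ℕ → Set Y := fun n => {y | ((n:ℝ) + 1)⁻¹ ≤ |h y| ∧ |h y| ≤ n}
  have hSm : ∀ n, MeasurableSet (S n) := fun n =>
    (measurableSet_le measurable_const hm.abs).inter (measurableSet_le hm.abs measurable_const)
  have hbm : ∀ n, BM ν ((S n).indicator h) := by
    intro n
    refine ⟨hm.indicator (hSm n), ⟨n, fun y => ?_⟩, ?_⟩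
    · by_cases hy : y ∈ S n
      · rw [Set.indicator_of_mem hy]; exact hy.2
      · rw [Set.indicator_of_notMem hy, abs_zero]; positivity
    · have hpos : (0:ℝ) < ((n:ℝ) + 1)⁻¹ := by positivity
      have h1 : Function.support ((S n).indicator h) ⊆
          {y | (((n:ℝ) + 1)⁻¹) ^ 2 ≤ h y ^ 2} := by
        intro y hy
        rw [Set.support_indicator] at hy
        have := hy.1.1
        show (((n:ℝ) + 1)⁻¹) ^ 2 ≤ h y ^ 2
        rw [← sq_abs (h y)]
        exact pow_le_pow_left₀ hpos.le this 2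
      exact lt_of_le_of_lt (measure_mono h1) (hint.measure_ge_lt_top (by positivity))
  have hkey : ∀ n, ∫ y, (S n).indicator (fun y => h y ^ 2) y ∂ν ≤ A ^ 2 := by
    intro n
    have h1 := H _ (hbm n)
    have e1 : ∫ y, h y * (S n).indicator h y ∂ν = ∫ y, (S n).indicator (fun y => h y ^ 2) y ∂ν := by
      refine integral_congr_ae (Eventually.of_forall fun y => ?_)
      show h y * (S n).indicator h y = (S n).indicator (fun y => h y ^ 2) y
      by_cases hy : y ∈ S n
      · rw [Set.indicator_of_mem hy, Set.indicator_of_mem hy]; ring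
      · rw [Set.indicator_of_notMem hy, Set.indicator_of_notMem hy, mul_zero]
    have e2 : ∫ y, (S n).indicator h y ^ 2 ∂ν = ∫ y, (S n).indicator (fun y => h y ^ 2) y ∂ν := by
      refine integral_congr_ae (Eventually.of_forall fun y => ?_)
      show (S n).indicator h y ^ 2 = (S n).indicator (fun y => h y ^ 2) y
      by_cases hy : y ∈ S n
      · rw [Set.indicator_of_mem hy, Set.indicator_of_mem hy]
      · rw [Set.indicator_of_notMem hy, Set.indicator_of_notMem hy]; ring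
    rw [e1, e2] at h1
    set I := ∫ y, (S n).indicator (fun y => h y ^ 2) y ∂ν with hI
    have hI0 : 0 ≤ I := integral_nonneg fun y => Set.indicator_nonneg (fun _ _ => sq_nonneg _) _
    rw [abs_of_nonneg hI0] at h1
    have h2 : √I * √I = I := Real.mul_self_sqrt hI0
    rcases (Real.sqrt_nonneg I).eq_or_lt with h3 | h3
    · rw [← h3, mul_zero] at h2
      rw [← h2]; positivity
    · have h4 : √I ≤ A := by
        by_contra h5
        push Not at h5
        nlinarith
      calc I = √I ^ 2 := by rw [pow_two, h2]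
        _ ≤ A ^ 2 := pow_le_pow_left₀ h3.le h4 2
  -- limit
  have hlim : Tendsto (fun n => ∫ y, (S n).indicator (fun y => h y ^ 2) y ∂ν) atTop
      (𝓝 (∫ y, h y ^ 2 ∂ν)) := by
    refine tendsto_integral_of_dominated_convergence (fun y => h y ^ 2)
      (fun n => ((hm.pow_const 2).indicator (hSm n)).aestronglyMeasurable) hint
      (fun n => Eventually.of_forall fun y => ?_) (Eventually.of_forall fun y => ?_)
    · by_cases hy : y ∈ S n
      · rw [Set.indicator_of_mem hy, Real.norm_eq_abs, abs_of_nonneg (sq_nonneg _)]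
      · rw [Set.indicator_of_notMem hy, norm_zero]; positivity
    · by_cases h0 : h y = 0
      · have : ∀ n, (S n).indicator (fun y => h y ^ 2) y = h y ^ 2 := by
          intro n
          by_cases hy : y ∈ S n
          · rw [Set.indicator_of_mem hy]
          · rw [Set.indicator_of_notMem hy, h0]; ring
        simp only [this]
        exact tendsto_const_nhds
      · have hp : 0 < |h y| := abs_pos.2 h0
        obtain ⟨n0, hn0⟩ := exists_nat_gt (max |h y| (|h y|)⁻¹)
        refine tendsto_const_nhds.congr' ?_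
        filter_upwards [eventually_ge_atTop n0] with n hn
        have hn' : (n0:ℝ) ≤ n := by exact_mod_cast hn
        rw [Set.indicator_of_mem]
        refine ⟨?_, ?_⟩
        · rw [inv_le_comm₀ (by positivity) hp]
          linarith [le_max_right |h y| (|h y|)⁻¹]
        · linarith [le_max_left |h y| (|h y|)⁻¹]
  exact le_of_tendsto' hlim hkey

/-- [RS-T]: restricted bounds with a summable gain imply the strong `L²` bound of the operator. -/
theorem rs_op {T : (X → ℝ) → (Y → ℝ)} (hT : IsOp μ ν T) {ψ : ℤ → ℝ} (hψ : ∀ n, 0 ≤ ψ n)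
    (hs : Summable ψ) (hR : RestrictedGain μ ν (fun f g => ∫ y, T f y * g y ∂ν) ψ)
    {f : X → ℝ} (hf : BM μ f) :
    ∫ y, T f y ^ 2 ∂ν ≤ (24 * ∑' n, ψ n) ^ 2 * ∫ x, f x ^ 2 ∂μ := by
  have h1 := sq_le_of_dual (hT.meas f hf) (hT.memLp hf)
    (A := 24 * (∑' n, ψ n) * √(∫ x, f x ^ 2 ∂μ)) (fun g hg => by
      have := rs_form hT.isForm hψ hs hR hf hg
      calc _ ≤ _ := this
        _ = _ := by ring)
  rw [mul_pow, Real.sq_sqrt (integral_nonneg fun _ => sq_nonneg _)] at h1
  exact h1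

theorem rs_op_lintegral {T : (X → ℝ) → (Y → ℝ)} (hT : IsOp μ ν T) {ψ : ℤ → ℝ}
    (hψ : ∀ n, 0 ≤ ψ n)
    (hs : Summable ψ) (hR : RestrictedGain μ ν (fun f g => ∫ y, T f y * g y ∂ν) ψ)
    {f : X → ℝ} (hf : BM μ f) :
    ∫⁻ y, ENNReal.ofReal (T f y ^ 2) ∂ν ≤
      ENNReal.ofReal ((24 * ∑' n, ψ n) ^ 2 * ∫ x, f x ^ 2 ∂μ) := by
  rw [← ofReal_integral_eq_lintegral_ofReal (hT.memLp hf).integrable_sq
    (Eventually.of_forall fun _ => sq_nonneg _)]
  exact ENNReal.ofReal_le_ofReal (rs_op hT hψ hs hR hf)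

/-! ### The logarithmic gain -/

/-- The summable majorant of the logarithmic gain. -/
noncomputable def lgψ (C a : ℝ) (n : ℤ) : ℝ := C * (3 / (1 + |(n:ℝ)|)) ^ a

theorem lgψ_nonneg {C a : ℝ} (hC : 0 ≤ C) (n : ℤ) : 0 ≤ lgψ C a n := by
  unfold lgψ; positivity

theorem lgψ_summable (C : ℝ) {a : ℝ} (ha : 1 < a) : Summable (lgψ C a) := by
  have h1 : Summable fun n : ℕ => C * (3 / (1 + (n:ℝ))) ^ a := by
    apply Summable.mul_left
    have : Summable fun n : ℕ => (3:ℝ)^a * (1 / ((n:ℝ) + 1) ^ a) := by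
      apply Summable.mul_left
      have := (summable_nat_add_iff 1).2 (Real.summable_one_div_nat_rpow.2 ha)
      simpa using this
    refine this.congr fun n => ?_
    rw [Real.div_rpow (by norm_num) (by positivity), add_comm (1:ℝ)]
    ring
  refine Summable.of_nat_of_neg (f := lgψ C a) ?_ ?_
  · refine h1.congr fun n => ?_
    simp [lgψ]
  · refine h1.congr fun n => ?_
    simp [lgψ]

theorem log_gap {x y : ℝ} (hx : 0 < x) (hy : 0 < y) :
    (1 + |((Int.log 2 y - Int.log 2 x : ℤ):ℝ)|) / 3 ≤ 1 + |Real.log (y / x)| := by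
  have hlog : ∀ r : ℝ, 0 < r → (Int.log 2 r : ℝ) * Real.log 2 ≤ Real.log r ∧
      Real.log r ≤ ((Int.log 2 r : ℝ) + 1) * Real.log 2 := by
    intro r hr
    have h1 : (2:ℝ) ^ Int.log 2 r ≤ r := by
      have := Int.zpow_log_le_self (b := 2) (by norm_num) hr
      simpa using this
    have h2 : r ≤ (2:ℝ)^(Int.log 2 r + 1) := by
      have := (Int.lt_zpow_succ_log_self (b := 2) (by norm_num) r).le
      simpa using this
    refine ⟨?_, ?_⟩
    · have := Real.log_le_log (by positivity) h1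
      rwa [Real.log_zpow] at this
    · have := Real.log_le_log hr h2
      rw [Real.log_zpow] at this
      push_cast at this
      exact this
  obtain ⟨a1, a2⟩ := hlog x hx
  obtain ⟨b1, b2⟩ := hlog y hy
  have l1 : 0.69 < Real.log 2 := by have := Real.log_two_gt_d9; linarith
  have l2 : Real.log 2 < 0.7 := by have := Real.log_two_lt_d9; linarith
  rw [Real.log_div hy.ne' hx.ne']
  push_cast
  set p : ℝ := (Int.log 2 x : ℝ)
  set q : ℝ := (Int.log 2 y : ℝ)
  have hd1 : (q - p - 1) * Real.log 2 ≤ Real.log y - Real.log x := by linarith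
  have hd2 : Real.log y - Real.log x ≤ (q - p + 1) * Real.log 2 := by linarith
  have h0 : 0 ≤ |Real.log y - Real.log x| := abs_nonneg _
  have hD : (|q - p| - 1) * Real.log 2 ≤ |Real.log y - Real.log x| := by
    rcases le_total 0 (q - p) with h | h
    · rw [abs_of_nonneg h]
      exact hd1.trans (le_abs_self _)
    · rw [abs_of_nonpos h]
      refine le_trans ?_ (neg_le_abs _)
      linarith
  rcases le_total 1 |q - p| with h | h
  · have := mul_le_mul_of_nonneg_left l1.le (sub_nonneg.2 h)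
    linarith
  · linarith

/-- The restricted bound with logarithmic gain. -/
def LogGain (μ : Measure X) (ν : Measure Y) (B : (X → ℝ) → (Y → ℝ) → ℝ) (C a : ℝ) : Prop :=
  ∀ (F : Set X) (E : Set Y), MeasurableSet F → MeasurableSet E →
    0 < μ F → μ F < ⊤ → 0 < ν E → ν E < ⊤ →
    ∀ f g, Measurable f → Measurable g → (∀ x, |f x| ≤ F.indicator (fun _ => (1:ℝ)) x) →
      (∀ y, |g y| ≤ E.indicator (fun _ => (1:ℝ)) y) →
      |B f g| ≤ C * (√(μ.real F) * √(ν.real E)) *
        (1 + |Real.log (ν.real E / μ.real F)|) ^ (-a)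

theorem LogGain.restricted {B : (X → ℝ) → (Y → ℝ) → ℝ} {C a : ℝ} (hC : 0 ≤ C) (ha : 0 ≤ a)
    (h : LogGain μ ν B C a) : RestrictedGain μ ν B (lgψ C a) := by
  intro F E hF hE hF0 hF1 hE0 hE1 f g hf hg hfF hgE
  refine (h F E hF hE hF0 hF1 hE0 hE1 f g hf hg hfF hgE).trans ?_
  have hx : 0 < μ.real F := ENNReal.toReal_pos hF0.ne' hF1.ne
  have hy : 0 < ν.real E := ENNReal.toReal_pos hE0.ne' hE1.ne
  have hg1 := log_gap hx hy
  unfold lgψ
  have h2 : (1 + |Real.log (ν.real E / μ.real F)|) ^ (-a) ≤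
      (3 / (1 + |((Int.log 2 (ν.real E) - Int.log 2 (μ.real F) : ℤ):ℝ)|)) ^ a := by
    rw [Real.rpow_neg (by positivity), ← Real.inv_rpow (by positivity)]
    refine Real.rpow_le_rpow (by positivity) ?_ ha
    rw [inv_le_comm₀ (by positivity) (by positivity), inv_div]
    exact hg1
  calc C * (√(μ.real F) * √(ν.real E)) * (1 + |Real.log (ν.real E / μ.real F)|) ^ (-a)
      ≤ C * (√(μ.real F) * √(ν.real E)) *
        (3 / (1 + |((Int.log 2 (ν.real E) - Int.log 2 (μ.real F) : ℤ):ℝ)|)) ^ a :=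
        mul_le_mul_of_nonneg_left h2 (by positivity)
    _ = _ := by ring

/-- The final form: logarithmic gain `a > 1` on restricted inputs implies the strong bound, with
a constant depending only on `C` and `a`. -/
theorem strong_of_logGain {C a : ℝ} (hC : 0 ≤ C) (ha : 1 < a) :
    ∃ C' : ℝ, 0 ≤ C' ∧ ∀ {X Y : Type*} [MeasurableSpace X] [MeasurableSpace Y]
      (μ : Measure X) (ν : Measure Y) (T : (X → ℝ) → (Y → ℝ)), IsOp μ ν T →
      LogGain μ ν (fun f g => ∫ y, T f y * g y ∂ν) C a → ∀ f, BM μ f →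
      ∫⁻ y, ENNReal.ofReal (T f y ^ 2) ∂ν ≤ ENNReal.ofReal (C' ^ 2 * ∫ x, f x ^ 2 ∂μ) := by
  refine ⟨24 * ∑' n, lgψ C a n, ?_, ?_⟩
  · have : 0 ≤ ∑' n, lgψ C a n := tsum_nonneg (lgψ_nonneg hC)
    positivity
  · intro X Y _ _ μ ν T hT hL f hf
    exact rs_op_lintegral hT (lgψ_nonneg hC) (lgψ_summable C ha)
      (hL.restricted hC (by linarith)) hf

end Vale.Agent.P112.H694
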